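import Vale.Agent.P002.Surface.Jordan
import Vale.Agent.P002.Surface.Absorb

/-!
The meridians are absorbed by a single commutator with entries in a ring generated by roots of
unity.
-/

open Matrix Finset
open scoped commutatorElement

namespace Vale.Agent.P002.Global

open Vale.Agent.P002.Surface

variable {r s : ℕ}

/-- Regular roots of unity permuted by a given tuple of product one. -/
lemma exists_orbit (δ : Fin r → ℂ) {N : ℕ} (hN : 0 < N) (hδ : ∀ a, δ a ^ N = 1) :
    ∀ S : Finset (Fin r), ∏ a ∈ S, δ a = 1 → ∃ (σ : Equiv.Perm (Fin r)) (ρ : Fin r → ℂ) (M : ℕ),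
      0 < M ∧ (∀ a, ρ a ^ M = 1) ∧ (∀ a, a ∉ S → σ a = a) ∧ Set.InjOn ρ S ∧
      ∀ a ∈ S, ρ (σ a) = δ a * ρ a := by
  classical
  intro S
  induction S using Finset.strongInduction with
  | H S ih =>
    intro hS
    by_cases hsplit : ∃ T, T ⊂ S ∧ T.Nonempty ∧ ∏ a ∈ T, δ a = 1
    · obtain ⟨T, hTS, ⟨t, ht⟩, hT⟩ := hsplit
      obtain ⟨σ₁, ρ₁, M₁, hM₁, h1, f1, i1, e1⟩ := ih T hTS hT
      have hlt : S \ T ⊂ S := Finset.sdiff_ssubset hTS.subset ⟨t, ht⟩
      obtain ⟨σ₂, ρ₂, M₂, hM₂, h2, f2, i2, e2⟩ := ih _ hlt (by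
        have := Finset.prod_sdiff (f := δ) hTS.subset
        rwa [hT, mul_one, hS] at this)
      obtain ⟨p, hp1, hp⟩ := Nat.exists_infinite_primes (M₁ * M₂ + 1)
      have hζ := Complex.isPrimitiveRoot_exp p hp.ne_zero
      set ζ := Complex.exp (2 * Real.pi * Complex.I / p)
      have hζn : ζ ^ (M₁ * M₂) ≠ 1 := fun h => by
        have := Nat.le_of_dvd (Nat.mul_pos hM₁ hM₂) ((hζ.pow_eq_one_iff_dvd _).1 h)
        omega
      refine ⟨σ₁ * σ₂, fun a => if a ∈ T then ρ₁ a else ζ * ρ₂ a, M₁ * M₂ * p,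
        Nat.mul_pos (Nat.mul_pos hM₁ hM₂) hp.pos, fun a => ?_, fun a ha => ?_, ?_, fun a ha => ?_⟩
      · simp only
        split_ifs
        · rw [mul_assoc, pow_mul, h1, one_pow]
        · rw [mul_pow, pow_mul', hζ.pow_eq_one, one_pow, one_mul, mul_assoc, pow_mul',
            show M₂ * p = p * M₂ from mul_comm _ _, pow_mul' (ρ₂ a) p M₂, h2, one_pow, one_pow]
      · rw [Equiv.Perm.mul_apply, f2 a fun h => ha (Finset.mem_sdiff.1 h).1,
          f1 a fun h => ha (hTS.subset h)]
      · have key : ∀ a b : Fin r, ρ₁ a ≠ ζ * ρ₂ b := fun a b h => hζn (by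
          have := congrArg (fun x : ℂ => x ^ (M₁ * M₂)) h
          rw [mul_pow, pow_mul, h1, one_pow, pow_mul' (ρ₂ b), h2, one_pow, mul_one] at this
          exact this.symm)
        intro a ha b hb h
        simp only at h
        by_cases haT : a ∈ T <;> by_cases hbT : b ∈ T <;> simp only [haT, hbT, if_true, if_false] at h
        · exact i1 haT hbT h
        · exact absurd h (key a b)
        · exact absurd h.symm (key b a)
        · exact i2 (Finset.mem_sdiff.2 ⟨ha, haT⟩) (Finset.mem_sdiff.2 ⟨hb, hbT⟩)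
            (mul_left_cancel₀ (hζ.ne_zero hp.ne_zero) h)
      · have g1 : ∀ b, σ₁ b ∈ T ↔ b ∈ T := fun b =>
          ⟨fun h => by_contra fun hb => hb (f1 b hb ▸ h), fun h => by_contra fun hb =>
            hb (by rwa [σ₁.injective (f1 _ hb)])⟩
        have g2 : ∀ b, σ₂ b ∈ S \ T ↔ b ∈ S \ T := fun b =>
          ⟨fun h => by_contra fun hb => hb (f2 b hb ▸ h), fun h => by_contra fun hb =>
            hb (by rwa [σ₂.injective (f2 _ hb)])⟩
        show (if (σ₁ * σ₂) a ∈ T then ρ₁ ((σ₁ * σ₂) a) else ζ * ρ₂ ((σ₁ * σ₂) a)) =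
          δ a * if a ∈ T then ρ₁ a else ζ * ρ₂ a
        by_cases haT : a ∈ T
        · have e : (σ₁ * σ₂) a = σ₁ a := by
            rw [Equiv.Perm.mul_apply, f2 a fun h => (Finset.mem_sdiff.1 h).2 haT]
          rw [e, if_pos ((g1 a).2 haT), if_pos haT]
          exact e1 a haT
        · have h' := Finset.mem_sdiff.1 ((g2 a).2 (Finset.mem_sdiff.2 ⟨ha, haT⟩))
          have e : (σ₁ * σ₂) a = σ₂ a := by rw [Equiv.Perm.mul_apply, f1 _ h'.2]
          rw [e, if_neg h'.2, if_neg haT, e2 a (Finset.mem_sdiff.2 ⟨ha, haT⟩)]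
          ring
    · push Not at hsplit
      set l := S.toList
      have hl : l.Nodup := S.nodup_toList
      have hmem : ∀ a, a ∈ l ↔ a ∈ S := fun a => Finset.mem_toList
      let pre : ℕ → ℂ := fun i => ((l.take i).map δ).prod
      have hpre : ∀ i, pre i ^ N = 1 := fun i => by
        simp only [pre]
        induction l.take i with
        | nil => simp
        | cons x xs ih' => simp [mul_pow, hδ, ih']
      have hsucc : ∀ i (h : i < l.length), pre (i + 1) = pre i * δ l[i] := fun i h => by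
        simp only [pre, List.take_succ_eq_append_getElem h, List.map_append, List.prod_append]
        simp
      have hall : pre l.length = 1 := by
        simp only [pre, List.take_length, l]
        rw [Finset.prod_map_toList, hS]
      refine ⟨l.formPerm, fun a => pre (l.idxOf a), N, hN, fun a => hpre _,
        fun a ha => List.formPerm_apply_of_notMem (mt (hmem a).1 ha), ?_, fun a ha => ?_⟩
      · intro a ha b hb h
        by_contra hab
        wlog hlt : l.idxOf a < l.idxOf b generalizing a b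
        · refine this hb ha h.symm (Ne.symm hab) (lt_of_le_of_ne (not_lt.1 hlt) fun e => hab ?_)
          exact ((List.idxOf_inj ((hmem b).2 hb)).1 e).symm
        have hi2 : l.idxOf b < l.length := List.idxOf_lt_length_of_mem ((hmem b).2 hb)
        set i := l.idxOf a
        set j := l.idxOf b
        let m := (l.drop i).take (j - i)
        have hm : pre j = pre i * (m.map δ).prod := by
          simp only [pre, m, ← List.prod_append, ← List.map_append]
          rw [← List.take_add, Nat.add_sub_cancel' hlt.le]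
        have hne0 : pre i ≠ 0 := fun e => by
          have := hpre i; rw [e, zero_pow hN.ne'] at this; exact zero_ne_one this
        have h1 : (m.map δ).prod = 1 := by
          have h' : pre i = pre j := h
          rw [hm] at h'
          exact (mul_left_cancel₀ hne0 (by rw [mul_one]; exact h')).symm
        have hsub : m.Sublist l := (List.take_sublist _ _).trans (List.drop_sublist _ _)
        have hnd : m.Nodup := hsub.nodup hl
        have hlen : m.length = j - i := by simp [m]; omega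
        refine hsplit m.toFinset ?_ ?_ (by rw [List.prod_toFinset _ hnd, h1])
        · refine Finset.ssubset_iff_subset_ne.2 ⟨fun x hx => (hmem x).1
            (hsub.subset (List.mem_toFinset.1 hx)), fun e => ?_⟩
          have := congrArg Finset.card e
          rw [List.toFinset_card_of_nodup hnd, ← Finset.length_toList, hlen] at this
          change j - i = l.length at this
          omega
        · exact (List.toFinset_nonempty_iff m).2 fun e => by
            rw [e] at hlen; simp at hlen; omega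
      · have hi : l.idxOf a < l.length := List.idxOf_lt_length_of_mem ((hmem a).2 ha)
        set i := l.idxOf a with hidef
        have hai : l[i] = a := List.getElem_idxOf hi
        have h2 := List.formPerm_apply_getElem l hl i hi
        rw [hai] at h2
        show pre (l.idxOf (l.formPerm a)) = δ a * pre i
        rw [h2, hl.idxOf_getElem, mul_comm, ← hai, ← hsucc i hi]
        rcases Nat.lt_or_ge (i + 1) l.length with h | h
        · rw [Nat.mod_eq_of_lt h]
        · rw [show i + 1 = l.length by omega, Nat.mod_self, hall]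
          simp [pre]

/-- A root of unity different from one, inverted up to its order. -/
lemma exists_inv {M : ℕ} {ζ : ℂ} (h : ζ ^ M = 1) (h1 : ζ ≠ 1) :
    ∃ w : ℂ, (ζ - 1) * w = 1 ∧ (M : ℂ) * w ∈ rootRing M := by
  refine ⟨(ζ - 1)⁻¹, mul_inv_cancel₀ (sub_ne_zero.2 h1), ?_⟩
  let W := ∑ i ∈ range M, ∑ j ∈ range i, ζ ^ j
  have hz : ∑ i ∈ range M, ζ ^ i = 0 := by rw [geom_sum_eq h1, h, sub_self, zero_div]
  have hW : W * (ζ - 1) = -(M : ℂ) := by
    simp only [W]
    rw [Finset.sum_mul, Finset.sum_congr rfl fun i _ => geom_sum_mul ζ i]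
    rw [Finset.sum_sub_distrib, hz]
    simp
  rw [show (M : ℂ) * (ζ - 1)⁻¹ = -W by
    rw [mul_inv_eq_iff_eq_mul₀ (sub_ne_zero.2 h1), neg_mul, hW, neg_neg]]
  exact neg_mem (sum_mem fun i _ => sum_mem fun j _ => pow_mem (root_mem h) j)

/-- Lower triangular with roots of unity on the diagonal and small entries below it. -/
def Cong (n : ℕ) (A : Mat r) : Prop :=
  Low A ∧ (∀ a, A a a ^ n = 1) ∧ ∀ a b, b < a → ∃ x ∈ rootRing n, A a b = (n : ℂ) * x

lemma Cong.mem {n : ℕ} {A : Mat r} (h : Cong n A) (a b : Fin r) : A a b ∈ rootRing n := by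
  rcases lt_trichotomy a b with hab | hab | hab
  · rw [h.1 a b hab]; exact zero_mem _
  · subst hab; exact root_mem (h.2.1 a)
  · obtain ⟨x, hx, e⟩ := h.2.2 a b hab
    rw [e]; exact mul_mem (natCast_mem _ n) hx

lemma Cong.mul {n : ℕ} {A B : Mat r} (hA : Cong n A) (hB : Cong n B) : Cong n (A * B) := by
  obtain ⟨hl, hd⟩ := hA.1.mul hB.1
  refine ⟨hl, fun a => by rw [hd, mul_pow, hA.2.1, hB.2.1, one_mul], fun a b hba => ?_⟩
  rw [Matrix.mul_apply]
  have : ∀ l, ∃ x ∈ rootRing n, A a l * B l b = (n : ℂ) * x := fun l => by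
    rcases lt_trichotomy l a with h | h | h
    · obtain ⟨x, hx, e⟩ := hA.2.2 a l h
      exact ⟨x * B l b, mul_mem hx (hB.mem l b), by rw [e, mul_assoc]⟩
    · subst h
      obtain ⟨x, hx, e⟩ := hB.2.2 l b hba
      exact ⟨A l l * x, mul_mem (hA.mem l l) hx, by rw [e, mul_left_comm]⟩
    · exact ⟨0, zero_mem _, by rw [hA.1 a l h, zero_mul, mul_zero]⟩
  choose x hx e using this
  exact ⟨∑ l, x l, sum_mem fun l _ => hx l, by simp only [e, Finset.mul_sum]⟩

lemma Cong.prod {n : ℕ} : ∀ L : List (SL r), (∀ M ∈ L, Cong n M.1) →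
    Cong n L.prod.1 ∧ ∀ a, L.prod.1 a a = (L.map fun M : SL r => M.1 a a).prod
  | [], _ => ⟨⟨low_one, fun a => by simp, fun a b h => ⟨0, zero_mem _, by
      simp [Matrix.one_apply_ne h.ne']⟩⟩, fun a => by simp⟩
  | M :: L, h => by
    have hM := h M (by simp)
    obtain ⟨h1, h2⟩ := Cong.prod L fun M hM => h M (by simp [hM])
    rw [List.prod_cons, val_mul]
    exact ⟨hM.mul h1, fun a => by rw [(hM.1.mul h1.1).2, h2, List.map_cons, List.prod_cons]⟩

/-- Quasi-unipotent classes absorbed by one handle. -/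
theorem exists_absorb_one (hr : 2 ≤ r) (k : ℕ) (C : Fin s → SL r) (hC : ∀ j, QuasiUnipotent (C j)) :
    ∃ n : ℕ, 0 < n ∧ ∃ z : Rest (k + 1) s → SL r, IsInt (rootRing n) z ∧ relR z = 1 ∧
      ∀ j, ∃ Q : SL r, z (Sum.inr j) = Q * C j * Q⁻¹ := by
  classical
  choose Q J hQ hlow hoff m hm0 hm using fun j => exists_lower (C j) (hC j)
  let N := ∏ x : Fin s × Fin r, m x.1 x.2
  have hN : 0 < N := Finset.prod_pos fun x _ => hm0 x.1 x.2
  have hJN : ∀ j a, (J j).1 a a ^ N = 1 := fun j a => by
    obtain ⟨c, hc⟩ : m j a ∣ N := Finset.dvd_prod_of_mem _ (Finset.mem_univ (j, a))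
    rw [hc, pow_mul, hm, one_pow]
  let δ : Fin r → ℂ := fun a => ∏ j, (J j).1 a a
  have hδN : ∀ a, δ a ^ N = 1 := fun a => by
    simp only [δ, ← Finset.prod_pow]
    exact Finset.prod_eq_one fun j _ => hJN j a
  have hδ1 : ∏ a, δ a = 1 := by
    simp only [δ]
    rw [Finset.prod_comm]
    exact Finset.prod_eq_one fun j _ => by
      rw [← Low.det fun a b h => hlow j a b h, (J j).2]
  obtain ⟨σ, ρ, M, hM, hρ, -, hinj, hσ⟩ := exists_orbit δ hN hδN univ hδ1
  obtain ⟨c, hc⟩ := IsAlgClosed.exists_pow_nat_eq (∏ a, ρ a)⁻¹ (show 0 < r by omega)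
  obtain ⟨η, hη⟩ := IsAlgClosed.exists_pow_nat_eq ((Equiv.Perm.sign σ : ℤ) : ℂ)
    (show 0 < r by omega)
  set n := N * M * r * 2
  have hn : 0 < n := Nat.mul_pos (Nat.mul_pos (Nat.mul_pos hN hM) (by omega)) two_pos
  have hdiv : ∀ {z : ℂ} {d : ℕ}, d ∣ n → z ^ d = 1 → z ^ n = 1 := fun {z d} ⟨q, hq⟩ h => by
    rw [hq, pow_mul, h, one_pow]
  have hcn : c ^ n = 1 := hdiv (d := r * M) ⟨N * 2, by ring⟩ (by
    rw [pow_mul, hc, inv_pow, ← Finset.prod_pow, Finset.prod_eq_one fun a _ => hρ a, inv_one])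
  have hηn : η ^ n = 1 := hdiv (d := r * 2) ⟨N * M, by ring⟩ (by
    rw [pow_mul, hη, ← Int.cast_pow, ← Units.val_pow_eq_pow_val, Int.units_sq, Units.val_one,
      Int.cast_one])
  let e : Fin r → ℂ := fun a => c * ρ a
  have hen : ∀ a, e a ^ n = 1 := fun a => by
    rw [mul_pow, hcn, one_mul]; exact hdiv ⟨N * r * 2, by ring⟩ (hρ a)
  have he0 : ∀ a, e a ≠ 0 := fun a h => by simpa [h, hn.ne'] using hen a
  have he1 : ∏ a, e a = 1 := by
    rw [Finset.prod_mul_distrib, Finset.prod_const, Finset.card_univ, Fintype.card_fin, hc,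
      inv_mul_cancel₀ (Finset.prod_ne_zero_iff.2 fun a _ h => by simpa [h, hM.ne'] using hρ a)]
  have heσ : ∀ a, e (σ a) = δ a * e a := fun a => by
    simp only [e, hσ a (mem_univ a)]; ring
  have heinj : Function.Injective e := fun a b h =>
    hinj (mem_univ a) (mem_univ b) (mul_left_cancel₀ (fun h0 : c = 0 => by
      simpa [h0, hn.ne'] using hcn) h)
  obtain ⟨u, hu⟩ := IsAlgClosed.exists_pow_nat_eq (∏ a : Fin r, ((n : ℂ) ^ a.1)⁻¹)
    (show 0 < r by omega)
  have hn0 : (n : ℂ) ≠ 0 := Nat.cast_ne_zero.2 hn.ne'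
  let dd : Fin r → ℂ := fun a => u * (n : ℂ) ^ a.1
  have hdd : ∏ a, dd a = 1 := by
    rw [Finset.prod_mul_distrib, Finset.prod_const, Finset.card_univ, Fintype.card_fin, hu,
      ← Finset.prod_mul_distrib]
    exact Finset.prod_eq_one fun a _ => inv_mul_cancel₀ (pow_ne_zero _ hn0)
  let D : SL r := ⟨Matrix.diagonal dd, by rw [Matrix.det_diagonal, hdd]⟩
  let J' : Fin s → SL r := fun j => D * J j * D⁻¹
  have hJ'v : ∀ j a b, (J' j).1 a b * dd b = dd a * (J j).1 a b := fun j a b => by
    have h : J' j * D = D * J j := by simp [J']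
    have h' : (J' j).1 * Matrix.diagonal dd = Matrix.diagonal dd * (J j).1 := congrArg Subtype.val h
    have := congrFun (congrFun h' a) b
    rwa [Matrix.mul_diagonal, Matrix.diagonal_mul] at this
  have hdd0 : ∀ a, dd a ≠ 0 := fun a => fun h => by
    have := Finset.prod_eq_zero (mem_univ a) h
    rw [hdd] at this; exact one_ne_zero this
  have hJd : ∀ j a, (J' j).1 a a = (J j).1 a a := fun j a =>
    mul_right_cancel₀ (hdd0 a) (by rw [hJ'v, mul_comm])
  have hJ'c : ∀ j, Cong n (J' j).1 := fun j => by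
    refine ⟨fun a b h => mul_right_cancel₀ (hdd0 b) (by rw [hJ'v, hlow j a b h, mul_zero, zero_mul]),
      fun a => by rw [hJd]; exact hdiv ⟨M * r * 2, by ring⟩ (hJN j a), fun a b h => ?_⟩
    refine ⟨(n : ℂ) ^ (a.1 - b.1 - 1) * (J j).1 a b, mul_mem (pow_mem (natCast_mem _ n) _) ?_,
      mul_right_cancel₀ (hdd0 b) ?_⟩
    · rcases hoff j a b h.ne' with e' | e' <;> rw [e']
      · exact zero_mem _
      · exact one_mem _
    · rw [hJ'v]
      simp only [dd]
      rw [show a.1 = (a.1 - b.1 - 1) + 1 + b.1 by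
        have : b.1 < a.1 := h
        omega, pow_add, pow_succ, show a.1 - b.1 - 1 + 1 + b.1 - b.1 - 1 = a.1 - b.1 - 1 by
        have : b.1 < a.1 := h
        omega]
      ring
  obtain ⟨hT, hTd⟩ := Cong.prod (List.ofFn J') fun X hX => by
    obtain ⟨j, rfl⟩ := List.mem_ofFn.1 hX; exact hJ'c j
  set T := (List.ofFn J').prod
  have hTδ : ∀ a, T.1 a a = δ a := fun a => by
    rw [hTd, List.map_ofFn, List.prod_ofFn]; simp [hJd, δ]
  let U : Mat r := Matrix.of fun a b => (e (σ a))⁻¹ * T.1 a b * e b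
  have hUl : Low U := fun a b h => by simp [U, hT.1 a b h]
  have hU1 : ∀ a, U a a = 1 := fun a => by
    simp only [U, Matrix.of_apply, hTδ, heσ]
    rw [mul_assoc]
    exact inv_mul_cancel₀ (by rw [← heσ]; exact he0 _)
  obtain ⟨X, hXl, hX1, hXO, hX⟩ := exists_conjugator (O := rootRing n) (U := U)
    (fun a => (e (σ a))⁻¹) (fun a => inv_ne_zero (he0 _)) (fun a b hba => by
      have hne : (e (σ a))⁻¹ / (e (σ b))⁻¹ ≠ 1 := fun h =>
        hba.ne' (σ.injective (heinj (inv_injective (div_eq_one_iff_eq (inv_ne_zero (he0 _))|>.1 h))))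
      have hp : ((e (σ a))⁻¹ / (e (σ b))⁻¹) ^ n = 1 := by
        rw [div_pow, inv_pow, inv_pow, hen, hen, inv_one, div_one]
      obtain ⟨w, hw, hwM⟩ := exists_inv hp hne
      refine ⟨w, hw, fun l hl => ?_⟩
      obtain ⟨x, hx, ex⟩ := hT.2.2 a l hl
      simp only [U, Matrix.of_apply, ex]
      rw [show w * ((e (σ a))⁻¹ * ((n : ℂ) * x) * e l) = (e (σ a))⁻¹ * ((n : ℂ) * w) * x * e l by ring]
      exact mul_mem (mul_mem (mul_mem (root_inv_mem (hen _)) hwM) hx) (root_mem (hen _))) hUl hU1
  let P : Mat r := η • (σ.permMatrix ℂ)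
  have hPd : P.det = 1 := by
    rw [Matrix.det_smul, Fintype.card_fin, hη, Matrix.det_permutation, ← Int.cast_mul,
      ← Units.val_mul, Int.units_mul_self, Units.val_one, Int.cast_one]
  let E : SL r := ⟨Matrix.diagonal e, by rw [Matrix.det_diagonal, he1]⟩
  let B : SL r := ⟨X * P, by
    rw [Matrix.det_mul, hPd, Low.det hXl, mul_one, Finset.prod_eq_one fun a _ => hX1 a]⟩
  have hkey : T * E * B = B * E := by
    refine Subtype.ext ?_
    show T.1 * Matrix.diagonal e * (X * P) = X * P * Matrix.diagonal e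
    have h1 : P * Matrix.diagonal e = Matrix.diagonal (fun a => e (σ a)) * P := by
      ext a b
      simp only [P, Matrix.mul_diagonal, Matrix.diagonal_mul, Matrix.smul_apply, smul_eq_mul,
        Equiv.Perm.permMatrix, PEquiv.toMatrix_apply, Equiv.toPEquiv_apply, Option.mem_some_iff]
      by_cases h : σ a = b
      · subst h; simp; ring
      · simp [h]
    have h2 : T.1 * Matrix.diagonal e * X = X * Matrix.diagonal fun a => e (σ a) := by
      have h3 : T.1 * Matrix.diagonal e = Matrix.diagonal (fun a => e (σ a)) * U := by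
        ext a b
        simp only [Matrix.mul_diagonal, Matrix.diagonal_mul, U, Matrix.of_apply]
        field_simp [he0 (σ a)]
      ext a b
      have := congrFun (congrFun hX a) b
      rw [Matrix.mul_diagonal, Matrix.diagonal_mul] at this
      rw [h3, Matrix.mul_assoc, Matrix.diagonal_mul, Matrix.mul_diagonal]
      field_simp [he0 (σ a), he0 (σ b)] at this ⊢
      linear_combination this
    rw [← Matrix.mul_assoc (T.1 * Matrix.diagonal e), h2, Matrix.mul_assoc X P, h1, Matrix.mul_assoc]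
  have hTB : T = B * E * B⁻¹ * E⁻¹ := by
    rw [← hkey]; group
  let z : Rest (k + 1) s → SL r := Sum.elim
    (fun x => if x.1 = 0 then (bif x.2 then B else E) else 1) J'
  refine ⟨n, hn, z, fun x => ?_, ?_, fun j => ⟨D * (Q j)⁻¹, ?_⟩⟩
  · rcases x with ⟨i, b⟩ | j
    · simp only [z, Sum.elim_inl]
      split_ifs
      · cases b
        · exact diag_mem_intGroup (fun a => root_mem (hen a)) rfl
        · refine mem_intGroup.2 fun a b => ?_
          show (X * P) a b ∈ _
          rw [Matrix.mul_apply]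
          refine sum_mem fun l _ => mul_mem (hXO a l) ?_
          simp only [P, Matrix.smul_apply, smul_eq_mul, Equiv.Perm.permMatrix, PEquiv.toMatrix_apply]
          exact mul_mem (root_mem hηn) (by split_ifs; exacts [one_mem _, zero_mem _])
      · exact one_mem _
    · exact mem_intGroup.2 fun a b => (hJ'c j).mem a b
  · rw [relR, rel_eq_tail]
    rw [show tail (z ∘ Sum.inl) = 1 from List.prod_eq_one fun x hx => by
      obtain ⟨i, rfl⟩ := List.mem_ofFn.1 hx
      simp [z, Fin.succ_ne_zero], mul_one]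
    show ⁅E, B⁆ * T = 1
    rw [hTB, commutatorElement_def]
    group
  · show D * J j * D⁻¹ = _
    rw [hQ j]; group

end Vale.Agent.P002.Global
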