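import Vale.Agent.P002.Global.Cyclic

/-!
A rational chart of the representation variety: free values away from the first handle, the first
`b` solved linearly in one column, the first `a` an intertwiner.
-/

open Matrix Filter Topology Polynomial
open scoped commutatorElement

namespace Vale.Agent.P002.Global

open Vale.Agent.P002.Surface

variable {k s r : ℕ} [NeZero r]

/-- The linear part of the characteristic polynomial in the first column. -/
noncomputable def lin (A : Mat r) (w : Fin r → ℂ) : ℂ[X] :=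
  (A.charmatrix.updateCol 0 fun i => Polynomial.C (-w i)).det

/-- Change the first column by adding `w`. -/
def addCol (A : Mat r) (w : Fin r → ℂ) : Mat r := A.updateCol 0 fun i => A i 0 + w i

lemma charpoly_addCol (A : Mat r) (w : Fin r → ℂ) :
    (addCol A w).charpoly = A.charpoly + lin A w := by
  rw [Matrix.charpoly, show (addCol A w).charmatrix = A.charmatrix.updateCol 0
    ((fun i => A.charmatrix i 0) + fun i => Polynomial.C (-w i)) from ?_, Matrix.det_updateCol_add,
    Matrix.updateCol_eq_self, Matrix.charpoly, lin]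
  ext i j : 2
  by_cases hj : j = 0
  · subst hj
    simp [addCol, Matrix.charmatrix_apply, sub_eq_add_neg]
    ring
  · simp [addCol, Matrix.charmatrix_apply, hj]

lemma mul_updateCol' (M A : Mat r) (w : Fin r → ℂ) :
    M * A.updateCol 0 w = (M * A).updateCol 0 (M *ᵥ w) := by
  ext i j
  by_cases hj : j = 0
  · subst hj; simp [Matrix.mul_apply, Matrix.mulVec, dotProduct]
  · simp [Matrix.mul_apply, hj]

lemma mul_addCol (M A : Mat r) (w : Fin r → ℂ) : M * addCol A w = addCol (M * A) (M *ᵥ w) := by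
  rw [addCol, addCol, mul_updateCol']
  congr 1
  funext i
  simp [Matrix.mulVec, dotProduct, Matrix.mul_apply, mul_add, Finset.sum_add_distrib]

lemma lin_add (A : Mat r) (w w' : Fin r → ℂ) : lin A (w + w') = lin A w + lin A w' := by
  rw [lin, lin, lin, ← Matrix.det_updateCol_add]
  congr 2
  funext i
  simp; ring

lemma lin_smul (A : Mat r) (c : ℂ) (w : Fin r → ℂ) : lin A (c • w) = c • lin A w := by
  rw [lin, lin, Polynomial.smul_eq_C_mul, ← Matrix.det_updateCol_smul]
  congr 2
  funext i
  simp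

lemma lin_coeff_zero (A : Mat r) (w : Fin r → ℂ) :
    (lin A w).coeff 0 = ((-A).updateCol 0 fun i => -w i).det := by
  rw [coeff_zero_eq_eval_zero, lin, ← Polynomial.coe_evalRingHom, RingHom.map_det]
  congr 1
  ext i j
  by_cases hj : j = 0
  · subst hj; simp
  · simp [hj, Matrix.charmatrix_apply, Matrix.diagonal_apply, apply_ite (Polynomial.eval (0 : ℂ))]

lemma lin_mul_zero (M A : Mat r) (hM : M.det = 1) (w : Fin r → ℂ) :
    (lin (M * A) (M *ᵥ w)).coeff 0 = (lin A w).coeff 0 := by
  rw [lin_coeff_zero, lin_coeff_zero, show ((-(M * A)).updateCol 0 fun i => -(M *ᵥ w) i) =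
      M * (-A).updateCol 0 (fun i => -w i) by
    rw [mul_updateCol', Matrix.mul_neg, show (fun i => -w i) = -w from rfl, Matrix.mulVec_neg]
    rfl, Matrix.det_mul, hM, one_mul]

/-- The linear equations for the first column of `b`. -/
noncomputable def J (M b : Mat r) : (Fin r → ℂ) →ₗ[ℂ] Fin r → ℂ where
  toFun w i := if i = 0 then (lin b w).coeff 0
    else (lin (M * b) (M *ᵥ w)).coeff i.1 - (lin b w).coeff i.1
  map_add' a c := by
    funext i
    simp only [Matrix.mulVec_add, lin_add, coeff_add, Pi.add_apply]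
    split_ifs <;> ring
  map_smul' t a := by
    funext i
    simp only [Matrix.mulVec_smul, lin_smul, coeff_smul, Pi.smul_apply, RingHom.id_apply,
      smul_eq_mul]
    split_ifs <;> ring

/-- The right hand side. -/
noncomputable def rhs (M b : Mat r) : Fin r → ℂ := fun i =>
  if i = 0 then 0 else b.charpoly.coeff i.1 - (M * b).charpoly.coeff i.1

lemma charpoly_coeff_zero (A : Mat r) : A.charpoly.coeff 0 = (-1) ^ r * A.det := by
  rw [Matrix.det_eq_sign_charpoly_coeff A, Fintype.card_fin, ← mul_assoc, ← mul_pow]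
  simp

lemma solve_spec {M b : Mat r} (hM : M.det = 1) (hb : b.det = 1) {w : Fin r → ℂ}
    (hw : J M b w = rhs M b) :
    (addCol b w).det = 1 ∧ (M * addCol b w).charpoly = (addCol b w).charpoly := by
  have h0 : (lin b w).coeff 0 = 0 := by
    simpa [J, rhs] using congrFun hw 0
  have hd : (addCol b w).det = 1 := by
    have h1 := charpoly_coeff_zero (addCol b w)
    rw [charpoly_addCol, coeff_add, h0, add_zero, charpoly_coeff_zero b, hb] at h1
    exact (mul_left_cancel₀ (pow_ne_zero r (neg_ne_zero.2 one_ne_zero)) h1).symm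
  refine ⟨hd, Polynomial.ext fun n => ?_⟩
  rcases Nat.lt_trichotomy n r with hn | hn | hn
  · rcases Nat.eq_zero_or_pos n with rfl | hn0
    · rw [charpoly_coeff_zero, charpoly_coeff_zero, Matrix.det_mul, hM, one_mul]
    · have h2 := congrFun hw ⟨n, hn⟩
      simp only [J, rhs, LinearMap.coe_mk, AddHom.coe_mk,
        if_neg (show (⟨n, hn⟩ : Fin r) ≠ 0 from fun h => by
          have := congrArg Fin.val h; simp at this; omega)] at h2
      rw [mul_addCol, charpoly_addCol, charpoly_addCol, coeff_add, coeff_add]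
      linear_combination h2
  · subst hn
    have e : ∀ A : Mat n, A.charpoly.coeff n = 1 := fun A => by
      have h := A.charpoly_monic
      rw [Monic, leadingCoeff, Matrix.charpoly_natDegree_eq_dim, Fintype.card_fin] at h
      exact h
    rw [e, e]
  · rw [coeff_eq_zero_of_natDegree_lt, coeff_eq_zero_of_natDegree_lt] <;>
      rwa [Matrix.charpoly_natDegree_eq_dim, Fintype.card_fin]

omit [NeZero r] in
lemma charpoly_conj (g : SL r) (X : Mat r) : (g.1 * X * (g⁻¹).1).charpoly = X.charpoly := by
  rw [Matrix.charpoly_mul_comm, ← Matrix.mul_assoc, val_inv_mul, one_mul]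

/-- The condition on the first handle defining the chart. -/
noncomputable def good (y : Bool → SL r) : ℂ :=
  (aeval (y true).1 (derivative (y true).1.charpoly)).det *
    (LinearMap.toMatrix' (J ⁅y false, y true⁆.1 (y true).1)).det

/-- The partial sums of the intertwiner. -/
def bez (A B Q : Mat r) : ℕ → Mat r
  | 0 => 0
  | i + 1 => A * bez A B Q i + Q * B ^ i

/-- The intertwiner of two matrices with the same characteristic polynomial. -/
noncomputable def itw (A B Q : Mat r) : Mat r :=
  ∑ i ∈ Finset.range (r + 1), B.charpoly.coeff i • bez A B Q i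

lemma bez_comm (A B Q : Mat r) : ∀ i, A * bez A B Q i - bez A B Q i * B = A ^ i * Q - Q * B ^ i
  | 0 => by simp [bez]
  | i + 1 => by
    have h := congrArg (fun X => A * X) (bez_comm A B Q i)
    simp only [bez, mul_add, add_mul, mul_sub, ← Matrix.mul_assoc, ← pow_succ'] at h ⊢
    rw [Matrix.mul_assoc Q (B ^ i) B, ← pow_succ]
    calc A * A * bez A B Q i + A * Q * B ^ i - (A * bez A B Q i * B + Q * B ^ (i + 1))
        = (A * A * bez A B Q i - A * bez A B Q i * B) + A * Q * B ^ i - Q * B ^ (i + 1) := by abel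
      _ = _ := by rw [h]; abel

lemma itw_comm {A B : Mat r} (h : A.charpoly = B.charpoly) (Q : Mat r) :
    A * itw A B Q = itw A B Q * B := by
  have e : ∀ N : Mat r, aeval N B.charpoly =
      ∑ i ∈ Finset.range (r + 1), B.charpoly.coeff i • N ^ i := fun N =>
    aeval_eq_sum_range' (by rw [Matrix.charpoly_natDegree_eq_dim, Fintype.card_fin]; omega) N
  rw [← sub_eq_zero]
  simp only [itw, Finset.mul_sum, Finset.sum_mul, ← Finset.sum_sub_distrib, Matrix.mul_smul,
    Matrix.smul_mul, ← smul_sub, bez_comm]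
  rw [show (∑ i ∈ Finset.range (r + 1), B.charpoly.coeff i • (A ^ i * Q - Q * B ^ i)) =
      aeval A B.charpoly * Q - Q * aeval B B.charpoly by
    rw [e, e]
    simp only [Finset.sum_mul, Finset.mul_sum, Matrix.smul_mul, Matrix.mul_smul,
      ← Finset.sum_sub_distrib, smul_sub]]
  rw [← h, Matrix.aeval_self_charpoly, h, Matrix.aeval_self_charpoly, zero_mul, mul_zero, sub_zero]

lemma itw_conj (a B : SL r) (c : Mat r) (hc : Commute B.1 c) :
    itw (a * B * a⁻¹).1 B.1 (a.1 * c) = a.1 * (aeval B.1 (derivative B.1.charpoly) * c) := by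
  have hb : ∀ i, bez (a * B * a⁻¹).1 B.1 (a.1 * c) i = a.1 * (((i : ℂ) • B.1 ^ (i - 1)) * c) := by
    intro i
    induction i with
    | zero => simp [bez]
    | succ i ih =>
      rw [bez, ih, val_mul, val_mul, Matrix.mul_assoc (a.1 * B.1), ← Matrix.mul_assoc (a⁻¹).1,
        val_inv_mul, one_mul, Matrix.mul_assoc a.1 c, ← (hc.pow_left i).eq]
      simp only [Matrix.mul_assoc, ← mul_add, Nat.add_sub_cancel, Matrix.smul_mul, Matrix.mul_smul]
      rcases i with _ | i
      · simp
      · simp only [Nat.add_sub_cancel, ← Matrix.mul_assoc B.1, ← pow_succ']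
        push_cast
        simp only [add_smul, one_smul, mul_add, Matrix.mul_smul, Matrix.smul_mul, smul_add]
  simp only [itw, hb]
  rw [show (∑ i ∈ Finset.range (r + 1), B.1.charpoly.coeff i •
      (a.1 * (((i : ℂ) • B.1 ^ (i - 1)) * c))) = a.1 * ((∑ i ∈ Finset.range (r + 1),
        B.1.charpoly.coeff i • ((i : ℂ) • B.1 ^ (i - 1))) * c) by
    simp only [Finset.mul_sum, Finset.sum_mul, Matrix.mul_smul, Matrix.smul_mul]]
  congr 2
  have hn : B.1.charpoly.natDegree = r := by
    rw [Matrix.charpoly_natDegree_eq_dim, Fintype.card_fin]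
  rw [derivative_apply, sum_over_range' _ (by simp) (r + 1) (by omega), map_sum]
  refine Finset.sum_congr rfl fun i _ => ?_
  simp [Algebra.algebraMap_eq_smul_one, mul_smul, Nat.cast_smul_eq_nsmul]

lemma coeff_det_mem {E : Type} (S : Subalgebra ℂ (E → ℂ))
    (Q : Matrix (Fin r) (Fin r) (Polynomial S)) (i : ℕ) :
    (fun e => (Q.map (Polynomial.map ((Pi.evalRingHom (fun _ : E => ℂ) e).comp
      S.val.toRingHom))).det.coeff i) ∈ S := by
  have h : (fun e => (Q.map (Polynomial.map ((Pi.evalRingHom (fun _ : E => ℂ) e).comp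
      S.val.toRingHom))).det.coeff i) = (Q.det.coeff i : E → ℂ) := by
    funext e
    refine (congrArg (fun p => Polynomial.coeff p i) (RingHom.map_det (Polynomial.mapRingHom
      ((Pi.evalRingHom (fun _ : E => ℂ) e).comp S.val.toRingHom)) Q)).symm.trans ?_
    rw [Polynomial.coe_mapRingHom, coeff_map]
    rfl
  rw [h]
  exact (Q.det.coeff i).2

lemma coeff_charpoly_mem {E : Type} {S : Subalgebra ℂ (E → ℂ)} {W : E → Mat r} (hW : MatMem S W)
    (i : ℕ) : (fun e => (W e).charpoly.coeff i) ∈ S := by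
  let W' : Matrix (Fin r) (Fin r) S := Matrix.of fun i j => ⟨fun e => W e i j, hW i j⟩
  convert coeff_det_mem S W'.charmatrix i using 2 with e
  rw [← Matrix.charmatrix_map, Matrix.charpoly]
  rfl

lemma coeff_lin_mem {E : Type} {S : Subalgebra ℂ (E → ℂ)} {W : E → Mat r} (hW : MatMem S W)
    {w : E → Fin r → ℂ} (hw : ∀ i, (fun e => w e i) ∈ S) (i : ℕ) :
    (fun e => (lin (W e) (w e)).coeff i) ∈ S := by
  let W' : Matrix (Fin r) (Fin r) S := Matrix.of fun i j => ⟨fun e => W e i j, hW i j⟩
  convert coeff_det_mem S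
    (W'.charmatrix.updateCol 0 fun i => Polynomial.C (-⟨fun e => w e i, hw i⟩)) i using 2 with e
  rw [lin]
  congr 2
  ext a b : 2
  by_cases hb : b = 0
  · subst hb; simp
    try rfl
  · simp only [ne_eq, hb, not_false_eq_true, Matrix.updateCol_ne, Matrix.map_apply]
    rw [Matrix.charmatrix_apply, Matrix.charmatrix_apply, Polynomial.map_sub, Polynomial.map_C]
    by_cases hab : a = b
    · subst hab; simp
      try rfl
    · simp [Matrix.diagonal_apply_ne _ hab]
      try rfl

lemma matMem_J {E : Type} {S : Subalgebra ℂ (E → ℂ)} {M W : E → Mat r} (hM : MatMem S M)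
    (hW : MatMem S W) : MatMem S fun e => LinearMap.toMatrix' (J (M e) (W e)) := by
  intro i j
  have e1 : ∀ e, LinearMap.toMatrix' (J (M e) (W e)) i j =
      J (M e) (W e) (Pi.single j 1) i := fun e => by
    rw [LinearMap.toMatrix'_apply]
  simp only [e1]
  by_cases hi : i = 0
  · simp only [J, LinearMap.coe_mk, AddHom.coe_mk, if_pos hi]
    exact coeff_lin_mem hW (fun l => S.algebraMap_mem ((Pi.single j 1 : Fin r → ℂ) l)) 0
  · simp only [J, LinearMap.coe_mk, AddHom.coe_mk, if_neg hi]
    refine S.sub_mem (coeff_lin_mem (hM.mul hW) (fun l => ?_) _)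
      (coeff_lin_mem hW (fun l => S.algebraMap_mem ((Pi.single j 1 : Fin r → ℂ) l)) _)
    simpa using hM l j

lemma matMem_aeval_derivative {E : Type} {S : Subalgebra ℂ (E → ℂ)} {W : E → Mat r}
    (hW : MatMem S W) : MatMem S fun e => aeval (W e) (derivative (W e).charpoly) := by
  have e1 : (fun e => aeval (W e) (derivative (W e).charpoly)) = fun e =>
      ∑ i : Fin r, (((W e).charpoly.coeff (i.1 + 1)) * (i.1 + 1)) • W e ^ i.1 := by
    funext e
    rw [aeval_eq_sum_range' (n := r) ((natDegree_derivative_lt (by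
      rw [Matrix.charpoly_natDegree_eq_dim, Fintype.card_fin]; exact NeZero.ne r)).trans_le (by
      rw [Matrix.charpoly_natDegree_eq_dim, Fintype.card_fin])),
      ← Fin.sum_univ_eq_sum_range (fun i => (derivative (W e).charpoly).coeff i • W e ^ i)]
    simp [coeff_derivative]
  rw [e1]
  intro a b
  have e2 : (fun e => (∑ i : Fin r, (((W e).charpoly.coeff (i.1 + 1)) * (i.1 + 1)) • W e ^ i.1) a b) =
      ∑ i : Fin r, (fun e => (W e).charpoly.coeff (i.1 + 1)) *
        algebraMap ℂ (E → ℂ) (i.1 + 1) * fun e => (W e ^ i.1) a b := by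
    funext e
    simp [Matrix.sum_apply, Finset.sum_apply]
  rw [e2]
  exact S.sum_mem fun i _ => S.mul_mem (S.mul_mem (coeff_charpoly_mem hW _) (S.algebraMap_mem _))
    (hW.pow i.1 a b)

lemma good_mem : (good : (Bool → SL r) → ℂ) ∈ PolyFun Bool r := by
  have hb : MatMem (PolyFun Bool r) fun y : Bool → SL r => (y true).1 :=
    matMem_val (proj_mem true)
  have hM : MatMem (PolyFun Bool r) fun y : Bool → SL r => ⁅y false, y true⁆.1 :=
    matMem_val ((entGroup _).mul_mem ((entGroup _).mul_mem ((entGroup _).mul_mem (proj_mem false)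
      (proj_mem true)) ((entGroup _).inv_mem (proj_mem false))) ((entGroup _).inv_mem (proj_mem true)))
  exact (PolyFun Bool r).mul_mem
    (det_mem _ (fun i j (y : Bool → SL r) =>
      (aeval (y true).1 (derivative (y true).1.charpoly) : Mat r) i j)
      (matMem_aeval_derivative hb))
    (det_mem _ (fun i j (y : Bool → SL r) =>
      LinearMap.toMatrix' (J ⁅y false, y true⁆.1 (y true).1) i j)
      (matMem_J hM hb))

lemma addCol_conj {g : SL r} (hg : ∀ i, g.1 0 i = 1) (D : Mat r) (w : Fin r → ℂ) :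
    g.1 * (D + Matrix.vecMulVec w fun _ => 1) * (g⁻¹).1 =
      addCol (g.1 * D * (g⁻¹).1) (g.1 *ᵥ w) := by
  rw [mul_add, add_mul, Matrix.mul_vecMulVec, Matrix.vecMulVec_mul]
  ext i j
  have h2 : (fun _ : Fin r => (1 : ℂ)) ᵥ* (g⁻¹).1 = fun j => if j = 0 then 1 else 0 := by
    funext j
    have := congrFun (congrFun (val_mul_inv g) 0) j
    simpa [Matrix.vecMul, dotProduct, Matrix.mul_apply, hg, Matrix.one_apply, eq_comm] using this
  rw [Matrix.add_apply, Matrix.vecMulVec_apply, h2]
  by_cases hj : j = 0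
  · subst hj; simp [addCol]
  · simp [addCol, hj]

lemma det_diag_rank_one (e w : Fin r → ℂ) (hne : ∀ i, e i ≠ 0) :
    (Matrix.diagonal e - Matrix.vecMulVec w fun _ => 1).det =
      (∏ i, e i) - ∑ i, w i * ∏ l ∈ Finset.univ.erase i, e l := by
  have e2 : Matrix.diagonal e - (Matrix.vecMulVec w fun _ => 1) = Matrix.diagonal e *
      (1 + Matrix.replicateCol Unit (fun i => -(w i) / e i) *
        Matrix.replicateRow Unit (fun _ : Fin r => (1 : ℂ))) := by
    ext i j
    rw [Matrix.diagonal_mul, Matrix.add_apply, Matrix.sub_apply, Matrix.vecMulVec_apply]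
    simp [Matrix.mul_apply, Matrix.diagonal_apply, Matrix.one_apply]
    by_cases hij : i = j <;> simp [hij] <;> field_simp [hne] <;> ring
  rw [e2, Matrix.det_mul, Matrix.det_diagonal, Matrix.det_one_add_replicateCol_mul_replicateRow,
    mul_add, mul_one, sub_eq_add_neg]
  simp only [dotProduct, Finset.mul_sum, ← Finset.sum_neg_distrib]
  congr 1
  refine Finset.sum_congr rfl fun i _ => ?_
  rw [← Finset.mul_prod_erase _ _ (Finset.mem_univ i)]
  field_simp [hne i]

lemma lin_diag {d : Fin r → ℂ} (g : SL r) (hg : ∀ i, g.1 0 i = 1) (w : Fin r → ℂ) :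
    lin (g.1 * Matrix.diagonal d * (g⁻¹).1) (g.1 *ᵥ w) =
      -∑ i, Polynomial.C (w i) * Lagrange.nodal (Finset.univ.erase i) d := by
  have h1 : lin (g.1 * Matrix.diagonal d * (g⁻¹).1) (g.1 *ᵥ w) =
      (Matrix.diagonal d + Matrix.vecMulVec w fun _ => 1).charpoly -
        (Matrix.diagonal d).charpoly := by
    rw [← charpoly_conj g (Matrix.diagonal d + _), ← charpoly_conj g (Matrix.diagonal d), addCol_conj hg, charpoly_addCol,
      add_sub_cancel_left]
  refine eq_of_infinite_eval_eq _ _ (((Set.finite_range d).infinite_compl).mono fun x hx => ?_)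
  have hne : ∀ i, x - d i ≠ 0 := fun i h => hx ⟨i, (sub_eq_zero.1 h).symm⟩
  show eval x _ = eval x _
  rw [h1, eval_sub, Matrix.eval_charpoly, Matrix.eval_charpoly, Matrix.scalar_apply, ← sub_sub,
    Matrix.diagonal_sub, det_diag_rank_one _ _ hne, Matrix.det_diagonal, sub_sub_cancel_left,
    eval_neg, eval_finsetSum]
  congr 1
  refine Finset.sum_congr rfl fun i _ => ?_
  rw [eval_mul, eval_C, Lagrange.eval_nodal]

lemma nxt_bijective : Function.Bijective (nxt : Fin r → Fin r) :=
  Finite.injective_iff_bijective.1 fun i j h => by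
    have h1 := congrArg Fin.val h
    simp only [nxt] at h1
    refine Fin.ext ?_
    have := Nat.ModEq.add_right_cancel' 1 (show i.1 + 1 ≡ j.1 + 1 [MOD r] from h1)
    rwa [Nat.ModEq, Nat.mod_eq_of_lt i.2, Nat.mod_eq_of_lt j.2] at this

lemma cycle_zero {d w : Fin r → ℂ} (hinj : Function.Injective d) (hd0 : ∀ i, d i ≠ 0)
    (hlin : ∑ i, Polynomial.C (d (nxt i) / d i * w i) *
        Lagrange.nodal (Finset.univ.erase i) (d ∘ nxt) =
      ∑ i, Polynomial.C (w i) * Lagrange.nodal (Finset.univ.erase i) d)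
    (h0 : (∑ i, Polynomial.C (w i) * Lagrange.nodal (Finset.univ.erase i) d).coeff 0 = 0) :
    w = 0 := by
  have hnb := nxt_bijective (r := r)
  have hev : ∀ (e : Fin r → ℂ) (v : Fin r → ℂ) (i : Fin r),
      (∑ l, Polynomial.C (v l) * Lagrange.nodal (Finset.univ.erase l) e).eval (e i) =
        v i * ∏ l ∈ Finset.univ.erase i, (e i - e l) := fun e v i => by
    rw [eval_finsetSum, Finset.sum_eq_single i (fun l _ hl => by
      rw [eval_mul, Lagrange.eval_nodal_at_node (Finset.mem_erase.2 ⟨hl.symm, Finset.mem_univ _⟩),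
        mul_zero]) (by simp), eval_mul, eval_C, Lagrange.eval_nodal]
  have hstep : ∀ i, w (nxt i) = d (nxt i) / d i * w i := fun i => by
    have h1 := congrArg (eval (d (nxt i))) hlin
    rw [show eval (d (nxt i)) _ = _ from hev (d ∘ nxt) _ i, hev d w (nxt i)] at h1
    have hprod : ∏ l ∈ Finset.univ.erase i, ((d ∘ nxt) i - (d ∘ nxt) l) =
        ∏ l ∈ Finset.univ.erase (nxt i), (d (nxt i) - d l) := by
      refine Finset.prod_bij (fun l _ => nxt l) (fun l hl => ?_) (fun _ _ _ _ h => hnb.1 h)
        (fun l hl => ?_) (fun _ _ => rfl)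
      · simpa using fun h => Finset.ne_of_mem_erase hl (hnb.1 h)
      · obtain ⟨l', rfl⟩ := hnb.2 l
        exact ⟨l', by simpa [hnb.1.eq_iff] using hl, rfl⟩
    rw [hprod] at h1
    refine mul_right_cancel₀ (Finset.prod_ne_zero_iff.2 fun l hl =>
      sub_ne_zero.2 fun h => Finset.ne_of_mem_erase hl (hinj h).symm) h1.symm
  have hconst : ∀ n : ℕ, ∀ i : Fin r, i.1 = n → w i = w 0 / d 0 * d i := by
    intro n
    induction n with
    | zero =>
      intro i hi
      obtain rfl : i = 0 := Fin.ext hi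
      rw [div_mul_cancel₀ _ (hd0 0)]
    | succ n ih =>
      intro i hi
      let i' : Fin r := ⟨n, by omega⟩
      have e : nxt i' = i := Fin.ext (by
        simp only [nxt, i']; rw [Nat.mod_eq_of_lt (by omega)]; omega)
      rw [← e, hstep, ih i' rfl]
      field_simp [hd0 i']
  rw [coeff_zero_eq_eval_zero, eval_finsetSum] at h0
  have hterm : ∀ i : Fin r, (Polynomial.C (w i) * Lagrange.nodal (Finset.univ.erase i) d).eval 0 =
      w 0 / d 0 * ((-1) ^ (r - 1) * ∏ l, d l) := fun i => by
    rw [eval_mul, eval_C, Lagrange.eval_nodal, hconst _ i rfl,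
      show (∏ l ∈ Finset.univ.erase i, (0 - d l)) =
        (-1) ^ (r - 1) * ∏ l ∈ Finset.univ.erase i, d l by
      simp only [zero_sub]
      rw [Finset.prod_neg, Finset.card_erase_of_mem (Finset.mem_univ i), Finset.card_univ,
        Fintype.card_fin], ← Finset.mul_prod_erase _ _ (Finset.mem_univ i)]
    ring
  rw [Finset.sum_congr rfl fun i _ => hterm i, Finset.sum_const, Finset.card_univ, Fintype.card_fin,
    smul_eq_zero] at h0
  have hw0 : w 0 = 0 := by
    rcases h0 with h | h
    · exact absurd h (NeZero.ne r)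
    · simpa [hd0 0, Finset.prod_ne_zero_iff.2 fun i _ => hd0 i] using h
  funext i
  rw [hconst _ i rfl, hw0]
  simp

lemma J_injective {d : Fin r → ℂ} (hd : ∏ i, d i = 1) (hinj : Function.Injective d) (g : SL r)
    (hg : ∀ i, g.1 0 i = 1) {u : Fin r → ℂ}
    (hu : J ⁅g * cyc r * g⁻¹, g * dSL d hd * g⁻¹⁆.1 (g * dSL d hd * g⁻¹).1 u = 0) : u = 0 := by
  set a := g * cyc r * g⁻¹ with ha
  set b := g * dSL d hd * g⁻¹ with hb
  set M := ⁅a, b⁆.1
  have hb1 : b.1 = g.1 * Matrix.diagonal d * (g⁻¹).1 := rfl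
  have hperm : (cyc r).1 * Matrix.diagonal d = Matrix.diagonal (d ∘ nxt) * (cyc r).1 := by
    ext i j
    rw [Matrix.mul_diagonal, Matrix.diagonal_mul, cyc_val]
    split_ifs with h
    · subst h; simp [mul_comm]
    · simp
  have haba : (a * b * a⁻¹).1 = g.1 * Matrix.diagonal (d ∘ nxt) * (g⁻¹).1 := by
    have e : a * b * a⁻¹ = g * (cyc r * dSL d hd * (cyc r)⁻¹) * g⁻¹ := by simp only [ha, hb]; group
    rw [e, val_mul, val_mul, val_mul, val_mul, dSL_val, hperm, Matrix.mul_assoc (Matrix.diagonal _),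
      val_mul_inv, mul_one]
  have hMb : M * b.1 = g.1 * Matrix.diagonal (d ∘ nxt) * (g⁻¹).1 := by
    rw [← haba, ← val_mul]
    refine congrArg (fun X : SL r => X.1) ?_
    simp [commutatorElement_def]
  set w := (g⁻¹).1 *ᵥ u
  have hu' : u = g.1 *ᵥ w := by rw [Matrix.mulVec_mulVec, val_mul_inv, Matrix.one_mulVec]
  have hMu : M *ᵥ u = g.1 *ᵥ fun i => d (nxt i) / d i * w i := by
    have e : ⁅a, b⁆ * g = (a * b * a⁻¹) * g * (dSL d hd)⁻¹ := by
      simp only [commutatorElement_def, ha, hb]; group
    rw [hu', Matrix.mulVec_mulVec, ← val_mul, e, val_mul, val_mul, haba, dSL_inv_val,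
      Matrix.mul_assoc (g.1 * _), val_inv_mul, mul_one, Matrix.mul_assoc,
      Matrix.diagonal_mul_diagonal, ← Matrix.mulVec_mulVec]
    congr 1
    funext i
    simp [Matrix.mulVec_diagonal, div_eq_mul_inv]
  have hlin : lin (M * b.1) (M *ᵥ u) = lin b.1 u := by
    refine Polynomial.ext fun n => ?_
    rcases Nat.eq_zero_or_pos n with rfl | hn0
    · exact lin_mul_zero _ _ (⁅a, b⁆).2 _
    rcases Nat.lt_or_ge n r with hn | hn
    · have h1 := congrFun hu ⟨n, hn⟩
      simp only [J, LinearMap.coe_mk, AddHom.coe_mk, Pi.zero_apply,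
        if_neg (show (⟨n, hn⟩ : Fin r) ≠ 0 from fun h => by
          have := congrArg Fin.val h; simp at this; omega)] at h1
      exact sub_eq_zero.1 h1
    · have hdeg : ∀ (e v : Fin r → ℂ),
          (∑ i, Polynomial.C (v i) * Lagrange.nodal (Finset.univ.erase i) e).coeff n = 0 := by
        intro e v
        rw [finsetSum_coeff]
        refine Finset.sum_eq_zero fun i _ => ?_
        rw [coeff_C_mul, coeff_eq_zero_of_natDegree_lt, mul_zero]
        rw [Lagrange.natDegree_nodal, Finset.card_erase_of_mem (Finset.mem_univ i),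
          Finset.card_univ, Fintype.card_fin]
        have := NeZero.ne r
        omega
      rw [hMb, hMu, hu', hb1, lin_diag g hg, lin_diag g hg, coeff_neg, coeff_neg, hdeg, hdeg]
  rw [hMb, hMu, hu', hb1, lin_diag g hg, lin_diag g hg, neg_inj] at hlin
  have h0 := congrFun hu 0
  simp only [J, LinearMap.coe_mk, AddHom.coe_mk, if_true, Pi.zero_apply] at h0
  rw [hu', hb1, lin_diag g hg, coeff_neg, neg_eq_zero] at h0
  rw [hu', cycle_zero hinj (diag_ne_zero hd) hlin h0, Matrix.mulVec_zero]

lemma exists_good : ∃ y : Bool → SL r, good y ≠ 0 := by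
  let cz : Fin r → ℝ := fun i => (i.1 : ℝ) - (∑ l : Fin r, (l.1 : ℝ)) / r
  let d : Fin r → ℂ := fun i => (Real.exp (cz i) : ℂ)
  have hsum : ∑ i, cz i = 0 := by
    have : (r : ℝ) ≠ 0 := by exact_mod_cast NeZero.ne r
    simp [cz, Finset.sum_sub_distrib]
    field_simp
    ring
  have hd : ∏ i, d i = 1 := by
    simp only [d]
    rw [← Complex.ofReal_prod, ← Real.exp_sum, hsum, Real.exp_zero, Complex.ofReal_one]
  have hinj : Function.Injective d := fun i j h => by
    have := Real.exp_injective (Complex.ofReal_injective h)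
    simpa [cz, Fin.val_inj] using this
  have hd0 : ∀ i, d i ≠ 0 := diag_ne_zero hd
  let gm : Mat r := Matrix.of fun i j => if i = 0 ∨ i = j then 1 else 0
  have hgm : gm.det = 1 := by
    rw [Matrix.det_of_isUpperTriangular]
    · exact Finset.prod_eq_one fun i _ => by simp [gm]
    · intro i j hij
      have h1 : i ≠ 0 := fun h => by subst h; simp at hij
      have h2 : i ≠ j := fun h => by subst h; simp at hij
      simp [gm, h1, h2]
  let g : SL r := ⟨gm, hgm⟩
  have hg : ∀ i, g.1 0 i = 1 := fun i => by simp [g, gm]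
  let P : SL r := cyc r
  let b : SL r := g * dSL d hd * g⁻¹
  let a : SL r := g * P * g⁻¹
  refine ⟨fun c => if c then b else a, ?_⟩
  simp only [good, if_true, Bool.false_eq_true, if_false]
  have hconjp : ∀ p : ℂ[X], aeval b.1 p = g.1 * Matrix.diagonal (fun i => p.eval (d i)) * (g⁻¹).1 := by
    intro p
    induction p using Polynomial.induction_on with
    | C c =>
      simp only [aeval_C, eval_C, Algebra.algebraMap_eq_smul_one]
      rw [← Matrix.smul_one_eq_diagonal, Matrix.mul_smul, mul_one, Matrix.smul_mul, val_mul_inv]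
    | add p q hp hq =>
      rw [map_add, hp, hq, ← add_mul, ← mul_add, Matrix.diagonal_add]
      simp
    | monomial n c hn =>
      rw [pow_succ, ← mul_assoc, map_mul, hn, aeval_X]
      simp only [b, val_mul, dSL_val, Matrix.mul_assoc]
      rw [← Matrix.mul_assoc (g⁻¹).1 g.1, val_inv_mul, one_mul,
        ← Matrix.mul_assoc (Matrix.diagonal _) (Matrix.diagonal d), Matrix.diagonal_mul_diagonal]
      congr 2
      funext i
      simp
  refine mul_ne_zero ?_ ?_
  · rw [hconjp, Matrix.det_mul, Matrix.det_mul, g.2, (g⁻¹).2, Matrix.det_diagonal, one_mul, mul_one,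
      Finset.prod_ne_zero_iff]
    intro i _
    have hcp : b.1.charpoly = ∏ l, (X - Polynomial.C (d l)) := by
      rw [show b.1 = g.1 * Matrix.diagonal d * (g⁻¹).1 from rfl, charpoly_conj]
      exact Matrix.charpoly_diagonal d
    rw [hcp, show ∏ l, (X - Polynomial.C (d l)) = Lagrange.nodal Finset.univ d from rfl,
      Lagrange.eval_nodal_derivative_eval_node_eq (Finset.mem_univ i)]
    rw [Lagrange.eval_nodal, Finset.prod_ne_zero_iff]
    exact fun l hl => sub_ne_zero.2 fun h => Finset.ne_of_mem_erase hl (hinj h).symm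
  · intro hdet
    obtain ⟨u, hu0, hu⟩ := Matrix.exists_mulVec_eq_zero_iff.2 hdet
    rw [← Matrix.toLin'_apply, Matrix.toLin'_toMatrix'] at hu
    exact hu0 (J_injective hd hinj g hg hu)

end Vale.Agent.P002.Global
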