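import Vale.Agent.P002.Global.Chart

/-!
The identity theorem on the chart: a polynomial vanishing on an open piece of it vanishes on all of
it.
-/

open Matrix Filter Topology Polynomial
open scoped commutatorElement

namespace Vale.Agent.P002.Global

open Vale.Agent.P002.Surface

variable {k s r : ℕ}

/-- Functions differentiable on a set. -/
def DO (U : Set ℂ) : Subalgebra ℂ (ℂ → ℂ) where
  carrier := {f | DifferentiableOn ℂ f U}
  mul_mem' := fun hf hg => hf.mul hg
  add_mem' := fun hf hg => hf.add hg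
  algebraMap_mem' := fun c => differentiableOn_const c

/-- Functions differentiable at a point. -/
def DA (t : ℂ) : Subalgebra ℂ (ℂ → ℂ) where
  carrier := {f | DifferentiableAt ℂ f t}
  mul_mem' := fun hf hg => hf.mul hg
  add_mem' := fun hf hg => hf.add hg
  algebraMap_mem' := fun c => differentiableAt_const c

lemma countable_zeros {f : ℂ → ℂ} {U : Set ℂ} (hU : IsOpen U) (hc : IsPreconnected U)
    (hf : DifferentiableOn ℂ f U) (h0 : ∃ x ∈ U, f x ≠ 0) :
    {x | x ∈ U ∧ f x = 0}.Countable := by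
  have ha := hf.analyticOnNhd hU
  obtain ⟨x₀, hx₀, hfx⟩ := h0
  set Z := {x | x ∈ U ∧ f x = 0}
  have hiso : ∀ x : Z, IsOpen ({x} : Set Z) := by
    rintro ⟨x, hxU, hx⟩
    rcases (ha x hxU).eventually_eq_zero_or_eventually_ne_zero with h | h
    · exact absurd (ha.eqOn_zero_of_preconnected_of_eventuallyEq_zero hc hxU h hx₀) hfx
    · obtain ⟨V, hV, hVo, hxV⟩ := eventually_nhds_iff.1 (eventually_nhdsWithin_iff.1 h)
      refine isOpen_induced_iff.2 ⟨V, hVo, Set.ext fun y => ⟨fun hy => ?_, fun hy => ?_⟩⟩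
      · rcases eq_or_ne y.1 x with e | e
        · exact Subtype.ext e
        · exact absurd y.2.2 (hV y.1 hy e)
      · rw [Set.mem_singleton_iff.1 hy]; exact hxV
  have hdisc : DiscreteTopology Z := discreteTopology_iff_isOpen_singleton.2 hiso
  exact Set.countable_coe_iff.1 (countable_of_Lindelof_of_discrete (X := Z))

lemma preconnected_compl {Z : Set ℂ} (h : Z.Countable) : IsPreconnected Zᶜ :=
  (h.isConnected_compl_of_one_lt_rank (by rw [Complex.rank_real_complex]; norm_num)).isPreconnected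

/-- A matrix of determinant one as a group element. -/
noncomputable def toSL (A : Mat r) : SL r := if h : A.det = 1 then ⟨A, h⟩ else 1

lemma toSL_val {A : Mat r} (h : A.det = 1) : (toSL A).1 = A := by simp [toSL, h]

lemma toSL_self (M : SL r) : toSL M.1 = M := Subtype.ext (toSL_val M.2)

/-- Rescaling of the first `a`. -/
noncomputable def sc (c : ℂ) (q : Idx 1 k s → SL r) : Idx 1 k s → SL r :=
  Function.update q iA (toSL (c • (q iA).1))

/-- The chart at parameters. -/
noncomputable def pt (z : Rest k s → SL r) (B X : Mat r) (τ : ℂ) : Idx 1 k s → SL r :=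
  Sum.elim (fun x => if x.2 then toSL B else toSL (τ⁻¹ • X)) z

lemma idx_cases {G : Type} (f g : Idx 1 k s → G) (ha : f iA = g iA) (hb : f iB = g iB)
    (hz : ∀ x, f (Sum.inr x) = g (Sum.inr x)) : f = g := by
  funext x
  rcases x with ⟨i, c⟩ | x
  · rw [Fin.fin_one_eq_zero i]
    cases c
    · exact ha
    · exact hb
  · exact hz x

lemma evR_mem {E : Type} {S : Subalgebra ℂ (E → ℂ)} (C : Fin s → SL r) (z : E → Rest k s → SL r)
    (hz : ∀ x, (fun e => z e x) ∈ entGroup S) :
    (fun e => relR (evR C (z e))) ∈ entGroup S := by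
  have h := R_mem (S := S) C (fun e => Sum.elim (fun _ : Gens 1 => (1 : SL r)) (z e))
    (fun x => by rcases x with x | x; · exact const_mem _ _
                 · exact hz x)
  simpa [R_split] using h

variable [NeZero r]

/-- The matrix of the linear system at parameters. -/
noncomputable def Jof (C : Fin s → SL r) (z : Rest k s → SL r) (B0 : SL r) : Mat r :=
  LinearMap.toMatrix' (J ((relR (evR C z))⁻¹).1 B0.1)

/-- The solution of the linear system. -/
noncomputable def uof (C : Fin s → SL r) (z : Rest k s → SL r) (B0 : SL r) : Fin r → ℂ :=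
  ((Jof C z B0).det)⁻¹ • ((Jof C z B0).adjugate *ᵥ rhs ((relR (evR C z))⁻¹).1 B0.1)

/-- The first `b` at parameters. -/
noncomputable def Bof (C : Fin s → SL r) (z : Rest k s → SL r) (B0 : SL r) : Mat r :=
  addCol B0.1 (uof C z B0)

/-- The unscaled first `a` at parameters. -/
noncomputable def Xof (C : Fin s → SL r) (z : Rest k s → SL r) (B0 : SL r) (Q : Mat r) : Mat r :=
  itw (((relR (evR C z))⁻¹).1 * Bof C z B0) (Bof C z B0) Q

/-- The parameter `Q` of a point. -/
noncomputable def Qof (q : Idx 1 k s → SL r) : Mat r :=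
  (q iA).1 * (aeval (q iB).1 (derivative (q iB).1.charpoly))⁻¹

lemma solve_Bof (C : Fin s → SL r) (z : Rest k s → SL r) (B0 : SL r)
    (hJ : (Jof C z B0).det ≠ 0) : (Bof C z B0).det = 1 ∧
      (((relR (evR C z))⁻¹).1 * Bof C z B0).charpoly = (Bof C z B0).charpoly := by
  refine solve_spec ((relR (evR C z))⁻¹).2 B0.2 ?_
  rw [← Matrix.toLin'_toMatrix' (J _ B0.1), Matrix.toLin'_apply]
  show Jof C z B0 *ᵥ uof C z B0 = _
  simp only [uof, Matrix.mulVec_smul, Matrix.mulVec_mulVec, Matrix.mul_adjugate, Matrix.smul_mulVec,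
    Matrix.one_mulVec, smul_smul, inv_mul_cancel₀ hJ, one_smul]

lemma pt_sol (C : Fin s → SL r) (z : Rest k s → SL r) (B0 : SL r) (Q : Mat r)
    (hJ : (Jof C z B0).det ≠ 0) (hX : (Xof C z B0 Q).det ≠ 0) {τ : ℂ}
    (hτ : τ ^ r = (Xof C z B0 Q).det) :
    R C (pt z (Bof C z B0) (Xof C z B0 Q) τ) = 1 ∧ (τ⁻¹ • Xof C z B0 Q).det = 1 := by
  obtain ⟨hb, hchar⟩ := solve_Bof C z B0 hJ
  have ha : (τ⁻¹ • Xof C z B0 Q).det = 1 := by
    rw [Matrix.det_smul, Fintype.card_fin, inv_pow, hτ, inv_mul_cancel₀ hX]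
  refine ⟨?_, ha⟩
  rw [R_split]
  simp only [pt, Sum.elim_inl, Sum.elim_inr, if_true, Bool.false_eq_true, if_false]
  set a := toSL (τ⁻¹ • Xof C z B0 Q)
  set b := toSL (Bof C z B0)
  have h2 : a * b = (relR (evR C z))⁻¹ * b * a := by
    refine Subtype.ext ?_
    rw [val_mul, val_mul, val_mul, toSL_val ha, toSL_val hb, Matrix.smul_mul, Matrix.mul_smul]
    exact congrArg (τ⁻¹ • ·) (itw_comm hchar Q).symm
  have h3 : ⁅a, b⁆ = (relR (evR C z))⁻¹ := by
    rw [commutatorElement_def, h2]; group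
  rw [h3]
  exact inv_mul_cancel _

lemma params_of_good (C : Fin s → SL r) (q : Idx 1 k s → SL r) (hq : R C q = 1)
    (hg : good (fun c => q (Sum.inl (0, c))) ≠ 0) :
    (Jof C (fun x => q (Sum.inr x)) (q iB)).det ≠ 0 ∧
      Bof C (fun x => q (Sum.inr x)) (q iB) = (q iB).1 ∧
      Xof C (fun x => q (Sum.inr x)) (q iB) (Qof q) = (q iA).1 := by
  obtain ⟨hd, hJ⟩ := mul_ne_zero_iff.1 hg
  set z := fun x => q (Sum.inr x)
  have hM : (relR (evR C z))⁻¹ = ⁅q iA, q iB⁆ :=
    (eq_inv_of_mul_eq_one_left (by rw [← R_split]; exact hq)).symm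
  have hMB : ((relR (evR C z))⁻¹).1 * (q iB).1 = (q iA * q iB * (q iA)⁻¹).1 := by
    rw [hM, ← val_mul]
    refine congrArg (fun X : SL r => X.1) ?_
    simp [commutatorElement_def]
  have hch : (q iA * q iB * (q iA)⁻¹).1.charpoly = (q iB).1.charpoly :=
    charpoly_conj (q iA) (q iB).1
  have hu : Bof C z (q iB) = (q iB).1 := by
    have hrhs : rhs ((relR (evR C z))⁻¹).1 (q iB).1 = 0 := by
      funext i
      rw [rhs, hMB, hch]
      simp
    have h0 : uof C z (q iB) = 0 := by
      rw [uof, hrhs, Matrix.mulVec_zero, smul_zero]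
    rw [Bof, h0, addCol]
    simp
  refine ⟨by rw [Jof, hM]; exact hJ, hu, ?_⟩
  rw [Xof, hu, hMB]
  set N := aeval (q iB).1 (derivative (q iB).1.charpoly) with hN
  have hdu : IsUnit N.det := isUnit_iff_ne_zero.2 hd
  have h1 : Commute (q iB).1 N := by
    have h2 := (Commute.all (Polynomial.X : ℂ[X]) (derivative (q iB).1.charpoly)).map
      (aeval (q iB).1)
    rwa [aeval_X] at h2
  have hc : Commute (q iB).1 N⁻¹ := by
    show (q iB).1 * N⁻¹ = N⁻¹ * (q iB).1
    calc (q iB).1 * N⁻¹ = N⁻¹ * (N * (q iB).1) * N⁻¹ := by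
          rw [← Matrix.mul_assoc N⁻¹, Matrix.nonsing_inv_mul _ hdu, one_mul]
      _ = N⁻¹ * (q iB).1 := by
          rw [← h1.eq, Matrix.mul_assoc, Matrix.mul_assoc, Matrix.mul_nonsing_inv _ hdu, mul_one]
  rw [Qof, itw_conj _ _ _ hc, ← hN, Matrix.mul_nonsing_inv _ hdu, mul_one]

lemma matMem_Xof (C : Fin s → SL r) {S : Subalgebra ℂ (ℂ → ℂ)} {z : ℂ → Rest k s → SL r}
    {B0 : ℂ → SL r} {Q : ℂ → Mat r} (hz : ∀ x, (fun t => z t x) ∈ entGroup S)
    (hB0 : MatMem S fun t => (B0 t).1) (hQ : MatMem S Q)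
    (hinv : (fun t => ((Jof C (z t) (B0 t)).det)⁻¹) ∈ S) :
    MatMem S (fun t => Bof C (z t) (B0 t)) ∧
      MatMem S fun t => Xof C (z t) (B0 t) (Q t) := by
  have hM : MatMem S fun t => ((relR (evR C (z t)))⁻¹).1 :=
    matMem_val ((entGroup _).inv_mem (evR_mem C z hz))
  have hJ : MatMem S fun t => Jof C (z t) (B0 t) := matMem_J hM hB0
  have hrhs : ∀ i, (fun t => rhs ((relR (evR C (z t)))⁻¹).1 (B0 t).1 i) ∈ S := fun i => by
    by_cases hi : i = 0
    · simp only [rhs, if_pos hi]; exact S.algebraMap_mem 0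
    · simp only [rhs, if_neg hi]
      exact S.sub_mem (coeff_charpoly_mem hB0 _) (coeff_charpoly_mem (hM.mul hB0) _)
  have hum : ∀ i, (fun t => uof C (z t) (B0 t) i) ∈ S := fun i => by
    have e : (fun t => uof C (z t) (B0 t) i) = (fun t => ((Jof C (z t) (B0 t)).det)⁻¹) *
        ∑ l, (fun t => (Jof C (z t) (B0 t)).adjugate i l) *
          fun t => rhs ((relR (evR C (z t)))⁻¹).1 (B0 t).1 l := by
      funext t
      simp [uof, Matrix.mulVec, dotProduct, Finset.sum_apply]
    rw [e]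
    exact S.mul_mem hinv (S.sum_mem fun l _ => S.mul_mem (hJ.adjugate i l) (hrhs l))
  have hB : MatMem S fun t => Bof C (z t) (B0 t) := fun i j => by
    by_cases hj : j = 0
    · subst hj
      simp only [Bof, addCol, Matrix.updateCol_self]
      exact S.add_mem (hB0 i 0) (hum i)
    · simp only [Bof, addCol, ne_eq, hj, not_false_eq_true, Matrix.updateCol_ne]
      exact hB0 i j
  refine ⟨hB, ?_⟩
  have hbez : ∀ i, MatMem S fun t => bez (((relR (evR C (z t)))⁻¹).1 * Bof C (z t) (B0 t))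
      (Bof C (z t) (B0 t)) (Q t) i := fun i => by
    induction i with
    | zero => exact MatMem.const _ 0
    | succ i ih => exact ((hM.mul hB).mul ih).add (hQ.mul (hB.pow i))
  intro a b
  have e : (fun t => Xof C (z t) (B0 t) (Q t) a b) = ∑ i ∈ Finset.range (r + 1),
      (fun t => (Bof C (z t) (B0 t)).charpoly.coeff i) * fun t =>
        bez (((relR (evR C (z t)))⁻¹).1 * Bof C (z t) (B0 t)) (Bof C (z t) (B0 t)) (Q t) i a b := by
    funext t
    simp [Xof, itw, Matrix.sum_apply, Finset.sum_apply]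
  rw [e]
  exact S.sum_mem fun i _ => S.mul_mem (coeff_charpoly_mem hB i) (hbez i a b)

lemma root_branch {e : ℂ → ℂ} {t₀ τ₀ : ℂ} (he : DifferentiableAt ℂ e t₀) (h0 : e t₀ ≠ 0)
    (hτ : τ₀ ^ r = e t₀) :
    ∃ τ : ℂ → ℂ, τ t₀ = τ₀ ∧ DifferentiableAt ℂ τ t₀ ∧ ∀ᶠ t in 𝓝 t₀, τ t ^ r = e t := by
  refine ⟨fun t => τ₀ * Complex.exp (Complex.log (e t / e t₀) / r), by simp [h0], ?_, ?_⟩
  · exact (((he.div_const _).clog (by simp [h0])).div_const _).cexp.const_mul _
  · filter_upwards [he.continuousAt.eventually_ne h0] with t ht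
    rw [mul_pow, hτ, ← Complex.exp_nat_mul, mul_div_cancel₀ _ (by exact_mod_cast NeZero.ne r),
      Complex.exp_log (div_ne_zero ht h0), mul_div_cancel₀ _ h0]

lemma roots_prod {f : ℂ → ℂ} {a α : ℂ} (hα : α ^ r = a) :
    ((Polynomial.nthRoots r a).map f).prod =
      ∏ i ∈ Finset.range r, f (Complex.exp (2 * Real.pi * Complex.I / r) ^ i * α) := by
  rw [(Complex.isPrimitiveRoot_exp r (NeZero.ne r)).nthRoots_eq hα, Multiset.map_map]
  rfl

/-- Inside the chart, the points over the parameters of a given point are its rescalings. -/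
theorem chart_fibre (C : Fin s → SL r) {W : Set (Idx 1 k s → SL r)} (hW : IsOpen W)
    {q₀ : Idx 1 k s → SL r} (hq₀ : q₀ ∈ Sol C W) (hg₀ : good (fun c => q₀ (Sum.inl (0, c))) ≠ 0)
    {F : (Idx 1 k s → SL r) → ℂ} (hF : F ∈ PolyFun (Idx 1 k s) r)
    (hF0 : ∀ q ∈ Sol C W, F q = 0)
    {q₁ : Idx 1 k s → SL r} (hq₁ : R C q₁ = 1) (hg₁ : good (fun c => q₁ (Sum.inl (0, c))) ≠ 0) :
    ∏ i ∈ Finset.range r,
      F (sc (Complex.exp (2 * Real.pi * Complex.I / r) ^ i)⁻¹ q₁) = 0 := by
  classical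
  choose γ hγ hγ0 hγ1 using fun x : Rest k s =>
    exists_path (r := r) ((q₀ (Sum.inr x))⁻¹ * q₁ (Sum.inr x))
  obtain ⟨β, hβ, hβ0, hβ1⟩ := exists_path (r := r) ((q₀ iB)⁻¹ * q₁ iB)
  let z : ℂ → Rest k s → SL r := fun t x => q₀ (Sum.inr x) * γ x t
  let B0 : ℂ → SL r := fun t => q₀ iB * β t
  let Q : ℂ → Mat r := fun t => Qof q₀ + t • (Qof q₁ - Qof q₀)
  let U1 : Set ℂ := {t | (Jof C (z t) (B0 t)).det ≠ 0}
  obtain ⟨hJ0, hb0, hx0⟩ := params_of_good C q₀ hq₀.2 hg₀
  obtain ⟨hJ1, hb1, hx1⟩ := params_of_good C q₁ hq₁ hg₁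
  have ez0 : z 0 = fun x => q₀ (Sum.inr x) := funext fun x => by simp [z, hγ0]
  have ez1 : z 1 = fun x => q₁ (Sum.inr x) := funext fun x => by simp [z, hγ1]
  have eb0 : B0 0 = q₀ iB := by simp [B0, hβ0]
  have eb1 : B0 1 = q₁ iB := by simp [B0, hβ1]
  have eq0 : Q 0 = Qof q₀ := by simp [Q]
  have eq1 : Q 1 = Qof q₁ := by simp [Q]
  have hent : ∀ {f : ℂ → SL r}, f ∈ entGroup (C1 ℂ) → f ∈ entGroup (DO Set.univ) :=
    fun {f} hf i j =>
      ((show ContDiff ℂ 1 (ent f i j) from hf i j).differentiable one_ne_zero).differentiableOn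
  have hzm : ∀ x, (fun t => z t x) ∈ entGroup (DO Set.univ) := fun x =>
    hent ((entGroup _).mul_mem (const_mem _ _) (hγ x))
  have hBm : MatMem (DO Set.univ) fun t => (B0 t).1 :=
    matMem_val (hent ((entGroup _).mul_mem (const_mem _ _) hβ))
  have hJd : DifferentiableOn ℂ (fun t => (Jof C (z t) (B0 t)).det) Set.univ :=
    det_mem (DO Set.univ) (fun i j t => Jof C (z t) (B0 t) i j)
      (matMem_J (matMem_val ((entGroup _).inv_mem (evR_mem C z hzm))) hBm)
  have hU1 : IsOpen U1 :=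
    isOpen_ne_fun (differentiableOn_univ.1 hJd).continuous continuous_const
  have h01 : (0 : ℂ) ∈ U1 := by
    show (Jof C (z 0) (B0 0)).det ≠ 0
    rw [ez0, eb0]; exact hJ0
  have hZ1 : U1ᶜ.Countable := by
    refine (countable_zeros isOpen_univ isPreconnected_univ hJd ⟨0, trivial, h01⟩).mono ?_
    exact fun t ht => ⟨trivial, not_not.1 ht⟩
  have hle : DO Set.univ ≤ DO U1 := fun f hf => hf.mono (Set.subset_univ _)
  have hQd : MatMem (DO U1) Q := fun i j => by
    show DifferentiableOn ℂ (fun t => (Qof q₀ + t • (Qof q₁ - Qof q₀)) i j) U1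
    simp only [Matrix.add_apply, Matrix.smul_apply, smul_eq_mul]
    exact (differentiableOn_id.mul_const _).const_add _
  obtain ⟨hBd, hXd⟩ := matMem_Xof C (fun x => fun i j => hle (hzm x i j))
    (fun i j => hle (hBm i j)) hQd ((hle hJd).inv fun t ht => ht)
  let B : ℂ → Mat r := fun t => Bof C (z t) (B0 t)
  let X : ℂ → Mat r := fun t => Xof C (z t) (B0 t) (Q t)
  have hed : DifferentiableOn ℂ (fun t => (X t).det) U1 :=
    det_mem (DO U1) (fun i j t => X t i j) hXd
  let U2 : Set ℂ := {t | t ∈ U1 ∧ (X t).det ≠ 0}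
  have hU2 : IsOpen U2 := hed.continuousOn.isOpen_inter_preimage hU1 isOpen_compl_singleton
  have he0 : X 0 = (q₀ iA).1 := by show Xof C (z 0) (B0 0) (Q 0) = _; rw [ez0, eb0, eq0, hx0]
  have he1 : X 1 = (q₁ iA).1 := by show Xof C (z 1) (B0 1) (Q 1) = _; rw [ez1, eb1, eq1, hx1]
  have h02 : (0 : ℂ) ∈ U2 := ⟨h01, by rw [he0, (q₀ iA).2]; exact one_ne_zero⟩
  have h12 : (1 : ℂ) ∈ U2 :=
    ⟨by show (Jof C (z 1) (B0 1)).det ≠ 0; rw [ez1, eb1]; exact hJ1,
      by rw [he1, (q₁ iA).2]; exact one_ne_zero⟩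
  have hU2c : IsPreconnected U2 := by
    have hZ2 := countable_zeros hU1 (by rw [← compl_compl U1]; exact preconnected_compl hZ1) hed
      ⟨0, h02⟩
    have e : U2 = (U1ᶜ ∪ {t | t ∈ U1 ∧ (X t).det = 0})ᶜ := by
      ext t
      simp only [U2, Set.mem_ofPred_eq, Set.compl_union, compl_compl, Set.mem_inter_iff,
        Set.mem_compl_iff, not_and]
      tauto
    rw [e]
    exact preconnected_compl (hZ1.union hZ2)
  let G : ℂ → ℂ := fun t =>
    ((Polynomial.nthRoots r (X t).det).map fun τ => F (pt (z t) (B t) (X t) τ)).prod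
  -- entries of the chart along a branch
  have hptd : ∀ t₀ ∈ U2, ∀ τ : ℂ → ℂ, DifferentiableAt ℂ τ t₀ → τ t₀ ≠ 0 →
      (∀ᶠ t in 𝓝 t₀, τ t ^ r = (X t).det) →
      ∀ x, (fun t => pt (z t) (B t) (X t) (τ t) x) ∈ entGroup (DA t₀) := by
    intro t₀ ht₀ τ hτd hτ0 hτ x i j
    have hUn : ∀ᶠ t in 𝓝 t₀, t ∈ U2 := hU2.mem_nhds ht₀
    have hA : ∀ {f : ℂ → ℂ}, f ∈ DO U1 → DifferentiableAt ℂ f t₀ := fun hf =>
      hf.differentiableAt (hU1.mem_nhds ht₀.1)
    rcases x with ⟨_, c⟩ | x
    · cases c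
      · refine ((hτd.inv hτ0).fun_mul (hA (hXd i j))).congr_of_eventuallyEq ?_
        filter_upwards [hUn, hτ] with t ht htτ
        show (toSL ((τ t)⁻¹ • X t)).1 i j = (τ t)⁻¹ * X t i j
        rw [toSL_val (pt_sol C (z t) (B0 t) (Q t) ht.1 ht.2 htτ).2]
        rfl
      · refine (hA (hBd i j)).congr_of_eventuallyEq ?_
        filter_upwards [hUn] with t ht
        show (toSL (B t)).1 i j = B t i j
        rw [toSL_val (solve_Bof C (z t) (B0 t) ht.1).1]
    · exact hA (hle (hzm x i j))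
  have hζ := Complex.isPrimitiveRoot_exp r (NeZero.ne r)
  have hGd : DifferentiableOn ℂ G U2 := by
    intro t₀ ht₀
    obtain ⟨τ₀, hτ₀⟩ := IsAlgClosed.exists_pow_nat_eq (X t₀).det (Nat.pos_of_ne_zero (NeZero.ne r))
    obtain ⟨τ, hτ0, hτd, hτ⟩ := root_branch (r := r) (hed.differentiableAt (hU1.mem_nhds ht₀.1)) ht₀.2 hτ₀
    refine DifferentiableAt.differentiableWithinAt ?_
    have hmem : (fun t => ∏ i ∈ Finset.range r, F (pt (z t) (B t) (X t)
        (Complex.exp (2 * Real.pi * Complex.I / r) ^ i * τ t))) ∈ DA t₀ := by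
      have e : (fun t => ∏ i ∈ Finset.range r, F (pt (z t) (B t) (X t)
          (Complex.exp (2 * Real.pi * Complex.I / r) ^ i * τ t))) = ∏ i ∈ Finset.range r,
          fun t => F (pt (z t) (B t) (X t)
            (Complex.exp (2 * Real.pi * Complex.I / r) ^ i * τ t)) := by
        funext t; simp [Finset.prod_apply]
      rw [e]
      refine (DA t₀).prod_mem fun i _ => polyFun_comp (DA t₀) _
        (hptd t₀ ht₀ (fun t => Complex.exp (2 * Real.pi * Complex.I / r) ^ i * τ t)
          (hτd.const_mul _) (mul_ne_zero (pow_ne_zero _ (Complex.exp_ne_zero _)) (fun h => ?_)) ?_) hF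
      · rw [hτ0] at h
        exact ht₀.2 (by rw [← hτ₀, h, zero_pow (NeZero.ne r)])
      · filter_upwards [hτ] with t ht
        rw [mul_pow, ht, ← pow_mul, mul_comm i, pow_mul, hζ.pow_eq_one, one_pow, one_mul]
    refine (show DifferentiableAt ℂ _ t₀ from hmem).congr_of_eventuallyEq ?_
    filter_upwards [hτ] with t ht
    exact roots_prod ht
  have hG0 : G =ᶠ[𝓝 0] fun _ => 0 := by
    obtain ⟨τ, hτ0, hτd, hτ⟩ := root_branch (r := r) (τ₀ := 1) (hed.differentiableAt (hU1.mem_nhds h01))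
      h02.2 (by rw [one_pow, he0, (q₀ iA).2])
    have hpt : pt (z 0) (B 0) (X 0) (τ 0) = q₀ := by
      refine idx_cases _ _ ?_ ?_ fun x => ?_
      · show toSL ((τ 0)⁻¹ • X 0) = q₀ iA
        rw [hτ0, inv_one, one_smul, he0, toSL_self]
      · show toSL (Bof C (z 0) (B0 0)) = q₀ iB
        rw [ez0, eb0, hb0, toSL_self]
      · show z 0 x = _
        rw [ez0]
    have hc : ContinuousAt (fun t => pt (z t) (B t) (X t) (τ t)) 0 :=
      continuousAt_pi.2 fun x => continuousAt_of_ent fun i j =>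
        (show DifferentiableAt ℂ _ (0 : ℂ) from
          hptd 0 h02 τ hτd (by rw [hτ0]; exact one_ne_zero) hτ x i j).continuousAt
    have hin : ∀ᶠ t in 𝓝 (0 : ℂ), pt (z t) (B t) (X t) (τ t) ∈ W :=
      hc.preimage_mem_nhds (hW.mem_nhds (by rw [hpt]; exact hq₀.1))
    filter_upwards [hin, hτ, hU2.mem_nhds h02] with t htW htτ ht
    show ((Polynomial.nthRoots r (X t).det).map _).prod = 0
    rw [roots_prod htτ]
    refine Finset.prod_eq_zero (Finset.mem_range.2 (Nat.pos_of_ne_zero (NeZero.ne r))) ?_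
    rw [pow_zero, one_mul]
    exact hF0 _ ⟨htW, (pt_sol C (z t) (B0 t) (Q t) ht.1 ht.2 htτ).1⟩
  have hzero := (hGd.analyticOnNhd hU2).eqOn_zero_of_preconnected_of_eventuallyEq_zero hU2c h02
    hG0 h12
  have hG1 : ((Polynomial.nthRoots r (X 1).det).map fun τ => F (pt (z 1) (B 1) (X 1) τ)).prod = 0 :=
    hzero
  rw [roots_prod (α := 1) (by rw [one_pow, he1, (q₁ iA).2])] at hG1
  rw [← hG1]
  refine Finset.prod_congr rfl fun i _ => congrArg F ?_
  refine idx_cases _ _ ?_ ?_ fun x => ?_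
  · show Function.update q₁ iA _ iA = toSL ((_ * 1)⁻¹ • X 1)
    rw [Function.update_self, mul_one, he1]
  · show Function.update q₁ iA _ iB = toSL (Bof C (z 1) (B0 1))
    rw [Function.update_of_ne (by simp), ez1, eb1, hb1, toSL_self]
  · show Function.update q₁ iA _ (Sum.inr x) = z 1 x
    rw [Function.update_of_ne (by simp), ez1]

lemma exists_torus_idem (B : Mat r) (hd : (aeval B (derivative B.charpoly)).det ≠ 0) :
    ∃ e : ℂ[X], aeval B e * aeval B e = aeval B e ∧ (aeval B e).trace = 1 := by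
  classical
  have hnd : B.charpoly.roots.Nodup := by
    refine Multiset.nodup_iff_count_le_one.2 fun l => ?_
    rw [Polynomial.count_roots]
    by_contra hlt
    push Not at hlt
    obtain ⟨hr1, hr2⟩ := (Polynomial.one_lt_rootMultiplicity_iff_isRoot
      B.charpoly_monic.ne_zero).1 hlt
    obtain ⟨x, hx, hxl⟩ := exists_eigvec (spec_iff.2 hr1)
    have := aeval_eigvec hxl (derivative B.charpoly)
    rw [show (derivative B.charpoly).eval l = 0 from hr2, zero_smul] at this
    exact hd (Matrix.exists_mulVec_eq_zero_iff.1 ⟨x, hx, this⟩)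
  have hcard : (spec B).card = r := by
    rw [spec, Multiset.toFinset_card_of_nodup hnd, IsAlgClosed.card_roots_eq_natDegree,
      Matrix.charpoly_natDegree_eq_dim, Fintype.card_fin]
  let d : ∀ l : spec B, EigData B l := fun l => (exists_eigData l.2).some
  choose n hn hn0 using fun l : spec B => trace_idem (d l).idem
  have hsum : (aeval B (∑ l : spec B, (d l).e - 1)).trace = 0 := trace_eq_zero_of_roots fun l hl => by
    rw [IsRoot.def, eval_sub, eval_finsetSum, Finset.sum_eq_single ⟨l, hl⟩ (fun m _ hm =>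
      (d m).e_other l hl fun h => hm (Subtype.ext h.symm)) (by simp), (d ⟨l, hl⟩).e_self]
    simp
  rw [map_sub, map_sum, map_one, Matrix.trace_sub, Matrix.trace_sum, Matrix.trace_one, sub_eq_zero,
    Finset.sum_congr rfl fun l _ => hn l, Fintype.card_fin] at hsum
  have hsum' : ∑ l : spec B, n l = r := by exact_mod_cast hsum
  have hpos : ∀ l, 1 ≤ n l := fun l => Nat.one_le_iff_ne_zero.2 fun h0 =>
    (d l).trace_ne_zero (by rw [hn0 l h0, Matrix.trace_zero])
  obtain ⟨l, hl⟩ : (spec B).Nonempty := Finset.card_pos.1 (by rw [hcard]; exact Nat.pos_of_ne_zero (NeZero.ne r))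
  refine ⟨(d ⟨l, hl⟩).e, (d ⟨l, hl⟩).idem, ?_⟩
  have h1 : ∀ m ∈ (Finset.univ : Finset (spec B)), n m = 1 := by
    have := (Finset.sum_eq_sum_iff_of_le (s := (Finset.univ : Finset (spec B)))
      (f := fun _ => 1) (g := n) fun m _ => hpos m).1 (by
      rw [hsum', Finset.sum_const, Finset.card_univ, Fintype.card_coe, hcard, smul_eq_mul, mul_one])
    exact fun m hm => (this m hm).symm
  rw [hn, h1 _ (Finset.mem_univ _)]
  simp

/-- A polynomial vanishing on an open piece of the chart vanishes on the chart. -/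
theorem chart_identity (C : Fin s → SL r) {W : Set (Idx 1 k s → SL r)} (hW : IsOpen W)
    {q₀ : Idx 1 k s → SL r} (hq₀ : q₀ ∈ Sol C W) (hg₀ : good (fun c => q₀ (Sum.inl (0, c))) ≠ 0)
    {F : (Idx 1 k s → SL r) → ℂ} (hF : F ∈ PolyFun (Idx 1 k s) r)
    (hF0 : ∀ q ∈ Sol C W, F q = 0)
    {q₁ : Idx 1 k s → SL r} (hq₁ : R C q₁ = 1) (hg₁ : good (fun c => q₁ (Sum.inl (0, c))) ≠ 0) :
    F q₁ = 0 := by
  classical
  set a := q₁ iA with ha
  set b := q₁ iB with hb
  obtain ⟨e, hE, htr⟩ := exists_torus_idem b.1 (mul_ne_zero_iff.1 hg₁).1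
  set E := aeval b.1 e
  let κ : ℂ := 2 * Real.pi * Complex.I
  let Zt : ℂ → Mat r := fun t =>
    Complex.exp (t * κ / r) • (1 + (Complex.exp (-(t * κ)) - 1) • E)
  have hdet : ∀ t, (Zt t).det = 1 := fun t => by
    rw [Matrix.det_smul, Fintype.card_fin, ← Complex.exp_nat_mul, det_idem hE, htr, mul_one,
      ← Complex.exp_add, mul_div_cancel₀ _ (by exact_mod_cast NeZero.ne r), add_neg_cancel,
      Complex.exp_zero]
  let zt : ℂ → SL r := fun t => ⟨Zt t, hdet t⟩
  have hcomm : ∀ t, b * zt t = zt t * b := fun t => Subtype.ext (by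
    have h1 : Commute b.1 E := by
      have h2 := (Commute.all (Polynomial.X : ℂ[X]) e).map (aeval b.1)
      rwa [aeval_X] at h2
    exact (((Commute.one_right _).add_right (h1.smul_right _)).smul_right _).eq)
  let qt : ℂ → Idx 1 k s → SL r := fun t => Function.update q₁ iA (a * zt t)
  have hqA : ∀ t, qt t iA = a * zt t := fun t => Function.update_self _ _ _
  have hqB : ∀ t, qt t iB = b := fun t => Function.update_of_ne (by simp) _ _
  have hc : ∀ t, ⁅qt t iA, qt t iB⁆ = ⁅a, b⁆ := fun t => by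
    rw [hqA, hqB, commutatorElement_def, commutatorElement_def, mul_assoc a (zt t) b, ← hcomm]
    group
  have hqR : ∀ t, R C (qt t) = 1 := fun t => by
    rw [R_split, hc]
    have e : (fun x => qt t (Sum.inr x)) = fun x => q₁ (Sum.inr x) :=
      funext fun x => Function.update_of_ne (by simp) _ _
    rw [e, ← R_split]
    exact hq₁
  have hgood : ∀ t, good (fun c => qt t (Sum.inl (0, c))) ≠ 0 := fun t => by
    have e : good (fun c => qt t (Sum.inl (0, c))) = good (fun c => q₁ (Sum.inl (0, c))) := by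
      simp only [good]
      rw [show qt t (Sum.inl (0, false)) = qt t iA from rfl, hc, hqB]
    rw [e]; exact hg₁
  let f : ℕ → ℂ → ℂ := fun i t => F (Function.update q₁ iA
    (toSL ((Complex.exp (κ / r) ^ i)⁻¹ • (a.1 * Zt t))))
  have hprod : ∀ t, ∏ i ∈ Finset.range r, f i t = 0 := fun t => by
    have h := chart_fibre C hW hq₀ hg₀ hF hF0 (hqR t) (hgood t)
    rw [← h]
    refine Finset.prod_congr rfl fun i _ => congrArg F ?_
    rw [sc, hqA, Function.update_idem]
    rfl
  have hfd : ∀ i, Differentiable ℂ (f i) := fun i => by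
    refine differentiableOn_univ.1 (polyFun_comp (DO Set.univ)
      (fun t => Function.update q₁ iA (toSL ((Complex.exp (κ / r) ^ i)⁻¹ • (a.1 * Zt t)))) ?_ hF)
    intro x p p'
    by_cases hx : x = iA
    · subst hx
      simp only [Function.update_self]
      have hdet2 : ∀ t, ((Complex.exp (κ / r) ^ i)⁻¹ • (a.1 * Zt t)).det = 1 := fun t => by
        rw [Matrix.det_smul, Fintype.card_fin, Matrix.det_mul, a.2, hdet, one_mul, mul_one, inv_pow,
          ← pow_mul, mul_comm i, pow_mul,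
          (Complex.isPrimitiveRoot_exp r (NeZero.ne r)).pow_eq_one, one_pow, inv_one]
      refine DifferentiableOn.congr (f := fun t => ((Complex.exp (κ / r) ^ i)⁻¹ • (a.1 * Zt t)) p p')
        ?_ fun t _ => by simp [ent, toSL_val (hdet2 t)]
      have hid : Differentiable ℂ fun t : ℂ => t * κ := differentiable_id.mul_const _
      have hZ : ∀ l, Differentiable ℂ fun t => Zt t l p' := fun l => by
        simp only [Zt, Matrix.smul_apply, Matrix.add_apply, smul_eq_mul]
        exact (hid.div_const _).cexp.fun_mul ((((hid.neg).cexp.sub_const _).mul_const _).const_add _)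
      simp only [Matrix.smul_apply, Matrix.mul_apply, smul_eq_mul]
      exact ((Differentiable.fun_sum fun l _ => (hZ l).const_mul _).const_mul _).differentiableOn
    · simp only [Function.update_of_ne hx]
      exact (DO Set.univ).algebraMap_mem ((q₁ x).1 p p')
  obtain ⟨i, hi, hz⟩ : ∃ i ∈ Finset.range r, ∀ t, f i t = 0 := by
    by_contra hno
    push Not at hno
    have hcount : (⋃ i ∈ (Finset.range r : Finset ℕ), {t | t ∈ Set.univ ∧ f i t = 0}).Countable :=
      (Finset.range r).countable_toSet.biUnion fun i hi => by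
        obtain ⟨t, ht⟩ := hno i hi
        exact countable_zeros isOpen_univ isPreconnected_univ (hfd i).differentiableOn ⟨t, trivial, ht⟩
    refine not_countable_complex (hcount.mono fun t _ => ?_)
    obtain ⟨i, hi, h⟩ := Finset.prod_eq_zero_iff.1 (hprod t)
    exact Set.mem_biUnion hi ⟨trivial, h⟩
  have hlast := hz i
  have hZi : Zt i = (Complex.exp (κ / r) ^ i) • 1 := by
    simp only [Zt]
    rw [show -((i : ℂ) * κ) = ((-i : ℤ) : ℂ) * (2 * Real.pi * Complex.I) by simp [κ],
      Complex.exp_int_mul_two_pi_mul_I, sub_self, zero_smul, add_zero, mul_div_assoc,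
      Complex.exp_nat_mul]
  simp only [f, hZi, Matrix.mul_smul, mul_one, smul_smul,
    inv_mul_cancel₀ (pow_ne_zero _ (Complex.exp_ne_zero _)), one_smul, toSL_self] at hlast
  rwa [ha, Function.update_eq_self] at hlast

end Vale.Agent.P002.Global
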