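import Vale.Agent.P002.Global.Generic

/-!
Density of tuples with a cyclic generator, then with scalar commutant away from the first handle.
-/

open Matrix Filter Topology Polynomial
open scoped commutatorElement

namespace Vale.Agent.P002.Global

open Vale.Agent.P002.Surface

variable {k s r : ℕ}

/-- The moments of a polynomial of degree at most `m`. -/
noncomputable def moms (B : Mat r) (m : ℕ) : (Fin (m + 1) → ℂ) →ₗ[ℂ] Fin r → ℂ where
  toFun c l := ∑ i, c i * (B ^ (i.1 + l.1)).trace
  map_add' a b := by funext l; simp [add_mul, Finset.sum_add_distrib]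
  map_smul' t a := by funext l; simp [Finset.mul_sum, mul_assoc]

/-- The polynomial with given coefficients. -/
noncomputable def poly {m : ℕ} (c : Fin (m + 1) → ℂ) : ℂ[X] :=
  ∑ i : Fin (m + 1), Polynomial.C (c i) * Polynomial.X ^ i.1

lemma poly_coeff {m : ℕ} (c : Fin (m + 1) → ℂ) (i : Fin (m + 1)) : (poly c).coeff i.1 = c i := by
  simp [poly, coeff_C_mul, coeff_X_pow, Fin.val_inj]

lemma poly_natDegree {m : ℕ} (c : Fin (m + 1) → ℂ) : (poly c).natDegree ≤ m :=
  natDegree_sum_le_of_forall_le _ _ fun i _ =>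
    (natDegree_C_mul_X_pow_le _ _).trans (Nat.le_of_lt_succ i.2)

lemma poly_of_coeff {m : ℕ} {p : ℂ[X]} (h : p.natDegree ≤ m) :
    poly (fun i : Fin (m + 1) => p.coeff i.1) = p := by
  ext n
  rcases Nat.lt_or_ge n (m + 1) with hn | hn
  · exact poly_coeff (fun i : Fin (m + 1) => p.coeff i.1) ⟨n, hn⟩
  · rw [coeff_eq_zero_of_natDegree_lt ((poly_natDegree _).trans_lt hn),
      coeff_eq_zero_of_natDegree_lt (by omega)]

lemma moms_eq (B : Mat r) {m : ℕ} (c : Fin (m + 1) → ℂ) (l : Fin r) :
    moms B m c l = (aeval B (poly c) * B ^ l.1).trace := by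
  simp [moms, poly, Finset.sum_mul, Matrix.trace_sum, Algebra.algebraMap_eq_smul_one, pow_add,
    Matrix.trace_smul]

lemma rad_monic (B : Mat r) : (rad B).Monic := Lagrange.nodal_monic

lemma rad_natDegree (B : Mat r) : (rad B).natDegree = (spec B).card := Lagrange.natDegree_nodal

lemma rad_root (B : Mat r) (f : ℂ[X]) : ∀ l ∈ spec B, (rad B * f).IsRoot l := fun l hl => by
  rw [IsRoot.def, eval_mul, show (rad B).eval l = 0 from Lagrange.eval_nodal_at_node (v := id) hl,
    zero_mul]

lemma card_spec_le (B : Mat r) : (spec B).card ≤ r :=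
  (Multiset.toFinset_card_le _).trans (le_of_eq (by
    rw [IsAlgClosed.card_roots_eq_natDegree, Matrix.charpoly_natDegree_eq_dim, Fintype.card_fin]))

lemma moms_zero {B : Mat r} {m : ℕ} {c : Fin (m + 1) → ℂ} :
    moms B m c = 0 ↔ rad B ∣ poly c := by
  constructor
  · intro h
    have hall : ∀ f : ℂ[X], (aeval B (poly c) * aeval B f).trace = 0 := fun f => by
      rcases Nat.eq_zero_or_pos r with hr | hr
      · subst hr; simp [Matrix.trace]
      rw [← modByMonic_add_div f B.charpoly, map_add, map_mul,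
        Matrix.aeval_self_charpoly, zero_mul, add_zero,
        aeval_eq_sum_range' (n := r) ((natDegree_modByMonic_lt _ B.charpoly_monic (fun h1 => by
          have := congrArg natDegree h1
          rw [Matrix.charpoly_natDegree_eq_dim, natDegree_one, Fintype.card_fin] at this
          omega)).trans_le (by rw [Matrix.charpoly_natDegree_eq_dim, Fintype.card_fin])),
        Finset.mul_sum, Matrix.trace_sum]
      refine Finset.sum_eq_zero fun l hl => ?_
      rw [Finset.mem_range] at hl
      rw [Matrix.mul_smul, Matrix.trace_smul, ← moms_eq B c ⟨l, hl⟩, h]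
      simp
    refine Finset.prod_dvd_of_coprime (fun x _ y _ hxy =>
      (Polynomial.isCoprime_X_sub_C_of_isUnit_sub (sub_ne_zero.2 hxy).isUnit))
      fun l hl => dvd_iff_isRoot.2 ?_
    obtain ⟨d⟩ := exists_eigData hl
    have := hall d.e
    rw [← map_mul, d.trace_of_roots _ fun l' hl' hne => by rw [eval_mul, d.e_other l' hl' hne, mul_zero],
      eval_mul, d.e_self, mul_one, mul_eq_zero] at this
    exact this.resolve_right d.trace_ne_zero
  · rintro ⟨f, hf⟩
    funext l
    rw [moms_eq, hf, ← aeval_X (R := ℂ) B]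
    simp only [aeval_X]
    rw [show B ^ l.1 = aeval B (X ^ l.1 : ℂ[X]) by simp, ← map_mul, mul_assoc]
    exact trace_eq_zero_of_roots (rad_root B _)

lemma moms_rank (B : Mat r) :
    Module.finrank ℂ (LinearMap.range (moms B (spec B).card)) = (spec B).card := by
  set m := (spec B).card
  let v : Fin (m + 1) → ℂ := fun i => (rad B).coeff i.1
  have hv : poly v = rad B := poly_of_coeff (rad_natDegree B).le
  have hv0 : v ≠ 0 := fun h => by
    have := congrFun h ⟨m, by omega⟩
    simp only [v, Pi.zero_apply, m] at this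
    rw [← rad_natDegree B] at this
    exact one_ne_zero ((rad_monic B).symm.trans this)
  have hker : LinearMap.ker (moms B m) = Submodule.span ℂ {v} := by
    ext c
    rw [LinearMap.mem_ker, moms_zero, Submodule.mem_span_singleton]
    constructor
    · rintro ⟨f, hf⟩
      have hf0 : f.natDegree = 0 := by
        by_cases h0 : f = 0
        · simp [h0]
        have h1 : (rad B * f).natDegree ≤ m := hf ▸ poly_natDegree c
        rw [(rad_monic B).natDegree_mul' h0, rad_natDegree] at h1
        omega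
      obtain ⟨a, rfl⟩ := natDegree_eq_zero.1 hf0
      refine ⟨a, funext fun i => ?_⟩
      rw [← poly_coeff c i, hf, mul_comm, coeff_C_mul]
      rfl
    · rintro ⟨a, rfl⟩
      refine ⟨Polynomial.C a, ?_⟩
      rw [← hv]
      simp only [poly, Finset.sum_mul, Pi.smul_apply, smul_eq_mul, Polynomial.C_mul]
      exact Finset.sum_congr rfl fun i _ => by ring
  have h := LinearMap.finrank_range_add_finrank_ker (moms B m)
  rw [hker, finrank_span_singleton hv0, Module.finrank_pi, Fintype.card_fin] at h
  omega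

lemma moms_lt (B : Mat r) {m : ℕ} (h : (spec B).card < m) :
    Module.finrank ℂ (LinearMap.range (moms B m)) < m := by
  let v : Fin (m + 1) → ℂ := fun i => (rad B).coeff i.1
  let w : Fin (m + 1) → ℂ := fun i => (rad B * X).coeff i.1
  have hd : (rad B * X).natDegree = (spec B).card + 1 := by
    rw [natDegree_mul_X (rad_monic B).ne_zero, rad_natDegree]
  have hv : poly v = rad B := poly_of_coeff (by rw [rad_natDegree]; omega)
  have hw : poly w = rad B * X := poly_of_coeff (by omega)
  have hle : Submodule.span ℂ (Set.range ![v, w]) ≤ LinearMap.ker (moms B m) := by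
    rw [Submodule.span_le]
    rintro _ ⟨i, rfl⟩
    fin_cases i
    · exact moms_zero.2 (hv.symm ▸ dvd_rfl)
    · exact moms_zero.2 (hw.symm ▸ dvd_mul_right _ _)
  have hli : LinearIndependent ℂ ![v, w] := by
    rw [LinearIndependent.pair_iff]
    intro a b hab
    have h1 := congrFun hab ⟨(spec B).card + 1, by omega⟩
    have h2 := congrFun hab ⟨(spec B).card, by omega⟩
    have e : (rad B).coeff (spec B).card = 1 := by rw [← rad_natDegree B]; exact rad_monic B
    simp only [v, w, Pi.add_apply, Pi.smul_apply, smul_eq_mul, Pi.zero_apply,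
      coeff_mul_X, e, coeff_eq_zero_of_natDegree_lt
        (show (rad B).natDegree < (spec B).card + 1 by rw [rad_natDegree]; omega)] at h1 h2
    have hb : b = 0 := by simpa using h1
    subst hb
    exact ⟨by simpa using h2, rfl⟩
  have h1 := Submodule.finrank_mono hle
  rw [finrank_span_eq_card hli] at h1
  have h2 := LinearMap.finrank_range_add_finrank_ker (moms B m)
  rw [Module.finrank_pi, Fintype.card_fin] at h2
  simp at h1
  omega

lemma rank_pow (B : Mat r) (n : ℕ) (hn : r ≤ n) : aeval B (rad B) ^ n = 0 := by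
  obtain ⟨e, rfl⟩ := Nat.exists_eq_add_of_le hn
  rw [pow_add, pow_eq_zero_of_roots (fun l hl => by simpa using rad_root B 1 l hl), zero_mul]

/-- The spectral score of a matrix. -/
noncomputable def powRank (B : Mat r) (n : ℕ) : ℕ := (aeval B (rad B) ^ n).rank

/-- Rigid spectral data along a curve give the equations of the tangent vector. -/
lemma rig_of_curve {B u : Mat r} {m : ℕ} (hm : m = (spec B).card) (Bt : ℂ → Mat r)
    (hBt : MD Bt (B * u)) (hB0 : Bt 0 = B) (hmeq : ∀ᶠ t in 𝓝 0, (spec (Bt t)).card = m)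
    (hmd : ∀ c, DifferentiableAt ℂ (fun t => moms (Bt t) m c) 0)
    (hmax : ∀ᶠ t in 𝓝 0, (∀ j ∈ Finset.range r, powRank B j ≤ powRank (Bt t) j) →
      ∀ n, powRank (Bt t) n ≤ powRank B n) :
    ∃ δq : ℂ[X], δq.degree < (m : WithBot ℕ) ∧
      (∀ f : ℂ[X], (aeval B (δq * f)).trace +
        (B * u * aeval B (derivative (rad B * f))).trace = 0) ∧
      ∀ (n : ℕ) (x y : Fin r → ℂ), aeval B (rad B) ^ n *ᵥ x = 0 →
        y ᵥ* aeval B (rad B) ^ n = 0 →
        y ⬝ᵥ ((∑ i ∈ Finset.range n, aeval B (rad B) ^ (n - 1 - i) *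
          (aeval B δq + L B (rad B) (B * u)) * aeval B (rad B) ^ i) *ᵥ x) = 0 := by
  subst hm
  set m := (spec B).card
  obtain ⟨c, hc0, hcd, hct⟩ := exists_section (fun t => moms (Bt t) m) hmd
    (by
      filter_upwards [hmeq] with t ht
      rw [hB0, moms_rank]
      exact ((congrArg (fun n => Module.finrank ℂ (LinearMap.range (moms (Bt t) n))) ht.symm).trans
        ((moms_rank (Bt t)).trans ht)).le)
    (x₀ := fun i : Fin (m + 1) => (rad B).coeff i.1)
    (by rw [hB0]; exact moms_zero.2 (by rw [poly_of_coeff (rad_natDegree B).le]))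
  let top : Fin (m + 1) := ⟨m, by omega⟩
  have hctop : c 0 top = 1 := by
    rw [hc0]
    show (rad B).coeff m = 1
    rw [show m = (rad B).natDegree from (rad_natDegree B).symm]
    exact rad_monic B
  have hcne : ∀ᶠ t in 𝓝 0, c t top ≠ 0 :=
    (differentiableAt_pi.1 hcd top).continuousAt.eventually_ne (by rw [hctop]; exact one_ne_zero)
  let e : ℂ → Fin (m + 1) → ℂ := fun t i => c t i / c t top
  have hed : ∀ i, HasDerivAt (fun t => e t i) (deriv (fun t => e t i) 0) 0 := fun i =>
    ((differentiableAt_pi.1 hcd i).fun_mul ((differentiableAt_pi.1 hcd top).inv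
      (by rw [hctop]; exact one_ne_zero))).hasDerivAt
  have he0 : e 0 = fun i : Fin (m + 1) => (rad B).coeff i.1 := funext fun i => by
    simp [e, hctop, hc0]
  have he : ∀ᶠ t in 𝓝 0, poly (e t) = rad (Bt t) := by
    filter_upwards [hct, hcne, hmeq] with t h1 h2 h3
    obtain ⟨f, hf⟩ := moms_zero.1 h1
    have hd : (rad (Bt t)).natDegree = m := by rw [rad_natDegree, h3]
    have hf0 : f.natDegree = 0 := by
      by_cases h0 : f = 0
      · simp [h0]
      have h4 : (rad (Bt t) * f).natDegree ≤ m := hf ▸ poly_natDegree (c t)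
      rw [(rad_monic _).natDegree_mul' h0, hd] at h4
      omega
    obtain ⟨α, rfl⟩ := natDegree_eq_zero.1 hf0
    have hα : c t top = α := by
      rw [← poly_coeff (c t) top, hf, mul_comm, coeff_C_mul,
        show (rad (Bt t)).coeff top.1 = 1 by
          show (rad (Bt t)).coeff m = 1
          rw [← hd]; exact rad_monic _, mul_one]
    rw [← poly_of_coeff (p := rad (Bt t)) hd.le]
    congr 1
    funext i
    show c t i / c t top = _
    rw [← poly_coeff (c t) i, hf, mul_comm, coeff_C_mul, hα,
      mul_div_cancel_left₀ _ (hα ▸ h2)]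
  let de : Fin (m + 1) → ℂ := fun i => deriv (fun t => e t i) 0
  have hde : de top = 0 := by
    have h1 : (fun t => e t top) =ᶠ[𝓝 0] fun _ => (1 : ℂ) := by
      filter_upwards [hcne] with t ht
      exact div_self ht
    exact h1.deriv_eq.trans (deriv_const 0 1)
  set δq := poly de with hδq
  have hdeg : δq.degree < (m : WithBot ℕ) := by
    rw [degree_lt_iff_coeff_zero]
    intro n hn
    rcases hn.eq_or_lt with h | h
    · rw [← h, hδq]; exact (poly_coeff de top).trans hde
    · exact coeff_eq_zero_of_natDegree_lt ((poly_natDegree de).trans_lt h)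
  set D := aeval B δq + L B (rad B) (B * u)
  have hM : MD (fun t => aeval (Bt t) (rad (Bt t))) D := by
    have h1 := (MD.sum Finset.univ fun (i : Fin (m + 1)) _ =>
      MD.smul ((hed i).sub_const ((rad B).coeff i.1)) (hBt.pow i.1)).add (hBt.aeval (rad B))
    rw [hB0] at h1
    have h2 : D = (∑ i : Fin (m + 1), (deriv (fun t => e t i) 0 • B ^ i.1 +
        (e 0 i - (rad B).coeff i.1) • ∑ j ∈ Finset.range i.1, B ^ (i.1 - 1 - j) *
          (B * u) * B ^ j)) + L B (rad B) (B * u) := by
      simp [D, hδq, poly, de, he0, Algebra.algebraMap_eq_smul_one]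
    rw [h2]
    refine h1.congr ?_
    filter_upwards [he] with t ht
    rw [← ht, show aeval (Bt t) (rad B) = aeval (Bt t) (poly fun i : Fin (m + 1) =>
      (rad B).coeff i.1) by rw [poly_of_coeff (rad_natDegree B).le]]
    simp [poly, sub_smul, Algebra.algebraMap_eq_smul_one]
  refine ⟨δq, hdeg, fun f => ?_, fun n x y hx hy => ?_⟩
  · have h1 := (hM.mul (hBt.aeval f)).trace
    have h2 : HasDerivAt (fun t => (aeval (Bt t) (rad (Bt t)) * aeval (Bt t) f).trace) 0 0 := by
      refine (hasDerivAt_const 0 (0 : ℂ)).congr_of_eventuallyEq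
        (Eventually.of_forall fun t => ?_)
      show (aeval (Bt t) (rad (Bt t)) * aeval (Bt t) f).trace = 0
      rw [← map_mul]
      exact trace_eq_zero_of_roots (rad_root _ f)
    have h3 := h1.unique h2
    simp only [hB0] at h3
    rw [← h3, map_mul]
    simp only [D, add_mul, Matrix.trace_add, add_assoc]
    congr 1
    rw [← Matrix.trace_add, ← L_mul]
    have h5 := trace_L B (rad B * f) (B * u) 1
    rw [mul_one, L_of_commute B _ (Commute.one_right B), one_mul] at h5
    exact h5.symm
  · have hrank : ∀ᶠ t in 𝓝 0, ∀ j ∈ Finset.range r,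
        powRank B j ≤ powRank (Bt t) j := by
      refine (Finset.eventually_all _).2 fun j _ => ?_
      filter_upwards [rank_le_eventually
        (fun t => Matrix.mulVecLin (aeval (Bt t) (rad (Bt t)) ^ j)) 0 fun v =>
          ((hM.pow j).mulVec (hasDerivAt_const 0 v)).continuousAt] with t ht
      rw [hB0] at ht
      exact ht
    have hpow : ∀ᶠ t in 𝓝 0,
        Module.finrank ℂ (LinearMap.range (Matrix.mulVecLin (aeval (Bt t) (rad (Bt t)) ^ n))) ≤
        Module.finrank ℂ (LinearMap.range (Matrix.mulVecLin (aeval (Bt 0) (rad (Bt 0)) ^ n))) := by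
      filter_upwards [hmax, hrank] with t h1 h4
      rw [hB0]
      exact h1 h4 n
    obtain ⟨xt, hx0, hxd, hxt⟩ := exists_section
      (fun t => Matrix.mulVecLin (aeval (Bt t) (rad (Bt t)) ^ n))
      (fun v => ((hM.pow n).mulVec (hasDerivAt_const 0 v)).differentiableAt) hpow (x₀ := x)
      (by rw [hB0]; exact hx)
    have h1 := ((hM.pow n).mulVec hxd.hasDerivAt).unique
      ((hasDerivAt_const (0 : ℂ) (0 : Fin r → ℂ)).congr_of_eventuallyEq hxt)
    simp only [hB0, hx0] at h1
    have h2 := congrArg (fun z => y ⬝ᵥ z) h1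
    simp only [dotProduct_add, dotProduct_zero] at h2
    rwa [Matrix.dotProduct_mulVec y (aeval B (rad B) ^ n), hy, zero_dotProduct, add_zero] at h2


/-- Near any solution there is one whose first `b` has a cyclic vector. -/
theorem exists_cyclic (hk : 2 ≤ k) (C : Fin s → SL r) {W : Set (Idx 1 k s → SL r)}
    (hW : IsOpen W) (hne : (Sol C W).Nonempty) (hS : ∀ q ∈ Sol C W, Schur (evC C q)) :
    ∃ q ∈ Sol C W, ∃ v : Fin r → ℂ,
      LinearIndependent ℂ fun i : Fin r => ((q iB).1 ^ i.1) *ᵥ v := by
  classical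
  obtain ⟨q₁, hq₁, hmax₁⟩ := exists_max_of_le (p := fun q => q ∈ Sol C W)
    (fun q => rk (rowA C q)) (r * r) (fun q _ => rk_le _) hne
  obtain ⟨q₂, ⟨hq₂, hq₂1⟩, hmax₂⟩ := exists_max_of_le
    (p := fun q => q ∈ Sol C W ∧ rk (rowA C q₁) ≤ rk (rowA C q))
    (fun q => (spec (q iB).1).card) r (fun q _ => card_spec_le _) ⟨q₁, hq₁, le_rfl⟩
  obtain ⟨q, ⟨hq, hq1, hqm⟩, hmax₃⟩ := exists_max_of_le
    (p := fun q => q ∈ Sol C W ∧ rk (rowA C q₁) ≤ rk (rowA C q) ∧
      (spec (q₂ iB).1).card ≤ (spec (q iB).1).card)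
    (fun q => ∑ n ∈ Finset.range r, powRank (q iB).1 n) (r * r)
    (fun q _ => (Finset.sum_le_sum fun n _ => Matrix.rank_le_width _).trans (by simp))
    ⟨q₂, hq₂, hq₂1, le_rfl⟩
  have hmaxK : ∀ q' ∈ Sol C W, rk (rowA C q') ≤ rk (rowA C q) := fun q' h =>
    (hmax₁ q' h).trans hq1
  refine ⟨q, hq, ?_⟩
  set b := q iB
  set a := q iA
  let KA : Submodule ℂ (Mat r) :=
    { carrier := {η | ∀ o, Commute (rowA C q o).1 η}
      add_mem' := fun h h' o => (h o).add_right (h' o)
      zero_mem' := fun o => Commute.zero_right _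
      smul_mem' := fun c _ h o => (h o).smul_right c }
  have hno : ∀ P ∈ KA, P * P = P → P = 0 ∨ P = 1 := fun P hP hPP =>
    no_idem hk C hW hq (hS q hq) hmaxK hPP hP
  have hKmul : ∀ A ∈ KA, ∀ A' ∈ KA, A * A' ∈ KA := fun A h A' h' o => (h o).mul_right (h' o)
  have hK1 : (1 : Mat r) ∈ KA := fun o => Commute.one_right _
  let S : Submodule ℂ (Mat r) :=
    { carrier := {η | η ∈ KA ∧ η.trace = 0 ∧ Commute b.1 (ad a η)}
      add_mem' := fun h h' => ⟨KA.add_mem h.1 h'.1, by rw [Matrix.trace_add, h.2.1, h'.2.1, add_zero],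
        by rw [ad_add]; exact h.2.2.add_right h'.2.2⟩
      zero_mem' := ⟨KA.zero_mem, Matrix.trace_zero _ _, by rw [ad_zero]; exact Commute.zero_right _⟩
      smul_mem' := fun c _ h => ⟨KA.smul_mem c h.1, by rw [Matrix.trace_smul, h.2.1, smul_zero],
        by rw [ad_smul]; exact h.2.2.smul_right c⟩ }
  have hnil : ∀ η ∈ S, IsNilpotent η := fun η hη =>
    nilpotent_of_no_idem KA hK1 hKmul hno hη.1 hη.2.1
  have hSmul : ∀ A ∈ S, ∀ A' ∈ S, A * A' ∈ S := by
    intro A hA A' hA'
    refine ⟨hKmul A hA.1 A' hA'.1, ?_, ?_⟩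
    · by_contra htr
      -- a product with nonzero trace would be invertible
      have h1 := hKmul A hA.1 A' hA'.1
      set X := A * A' with hX
      have hr0 : (r : ℂ) ≠ 0 := fun h => htr (by
        have h0 : r = 0 := by exact_mod_cast h
        subst h0; simp [Matrix.trace])
      have h2 : IsNilpotent (tl X) := nilpotent_of_no_idem KA hK1 hKmul hno
        (KA.sub_mem h1 (KA.smul_mem _ hK1)) (trace_tl X)
      have hu : IsUnit X := by
        have e : X = (X.trace / r) • (1 : Mat r) + tl X := by rw [tl_apply]; abel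
        rw [e]
        refine IsNilpotent.isUnit_add_left_of_commute h2 ?_ ((Commute.one_right _).smul_right _)
        rw [← Algebra.algebraMap_eq_smul_one]
        exact (isUnit_iff_ne_zero.2 (div_ne_zero htr hr0)).map _
      have hdet := (Matrix.isUnit_iff_isUnit_det X).1 hu
      obtain ⟨N, hN⟩ := hnil A hA
      have hdA : A.det ^ N = 0 := by
        rw [← Matrix.det_pow, hN]
        rcases Nat.eq_zero_or_pos r with h0 | h0
        · subst h0; simp at hr0
        · have : Nonempty (Fin r) := ⟨⟨0, h0⟩⟩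
          exact Matrix.det_zero
      rw [hX, Matrix.det_mul, eq_zero_of_pow_eq_zero hdA, zero_mul] at hdet
      exact not_isUnit_zero hdet
    · have e : ad a (A * A') = ad a A * ad a A' := by
        simp only [ad, Matrix.mul_assoc]
        rw [← Matrix.mul_assoc a.1 (a⁻¹).1, val_mul_inv, one_mul]
      rw [e]
      exact hA.2.2.mul_right hA'.2.2
  refine cyclic_of_rigid b a S hSmul hnil (fun η hη => hη.1 none) (fun η hη => hη.2.2)
    {u | ∃ δ : Tg k s r, dR C q δ = 0 ∧ u = tl (Matrix.of (δ iB))} ?_ ?_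
  · intro Ω hΩ
    obtain ⟨η, h1, h2, h3, h4⟩ := dual_b C q hq.2 fun δ hδ => hΩ _ ⟨δ, hδ, rfl⟩
    have hsc : ∀ M : SL r, ∀ c : ℂ, ad M (c • 1 : Mat r) = c • 1 := fun M c => by
      rw [ad_smul, show ad M (1 : Mat r) = 1 by rw [ad, mul_one, val_inv_mul]]
    refine ⟨tl η, ⟨fun o => ?_, trace_tl η, ?_⟩, ?_⟩
    · refine commute_tl ?_
      rcases o with _ | x
      · exact h2
      · exact h1 x
    · rw [tl_apply, ad_sub, hsc]
      exact h3.sub_right ((Commute.one_right _).smul_right _)
    · rw [h4, tl_apply η, ad_sub, hsc]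
      abel
  · rintro u ⟨δ, hδ, rfl⟩
    obtain ⟨γ, hγ0, hγ, hγW⟩ := exists_curve C hW hq (hS q hq) hδ
    set B := b.1
    set m := (spec B).card with hm
    let Bt : ℂ → Mat r := fun t => (γ t iB).1
    have hBt : MD Bt (B * tl (Matrix.of (δ iB))) := MD.of_hasJet (hγ iB)
    have hB0 : Bt 0 = B := by simp [Bt, hγ0, B, b]
    have hrk : ∀ᶠ t in 𝓝 0, rk (rowA C q₁) ≤ rk (rowA C (γ t)) := by
      have hp : ∀ o, HasJet (fun t => rowA C (γ t) o) (match o with
          | none => ⟨q iB, tl (Matrix.of (δ iB))⟩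
          | some x => evC (fun j => Jet.zero (C j))
              (fun x => (⟨q x, tl (Matrix.of (δ x))⟩ : Jet r)) (Sum.inr x)) := by
        rintro (_ | x)
        · exact hγ iB
        · exact hasJet_evC C hγ (Sum.inr x)
      filter_upwards [rank_le_eventually (fun t => cm (rowA C (γ t))) 0
        fun c => (cm_diff hp c).continuousAt] with t ht
      rw [hγ0] at ht
      exact hq1.trans ht
    have hmd : ∀ c, DifferentiableAt ℂ (fun t => moms (Bt t) m c) 0 := fun c =>
      differentiableAt_pi.2 fun l => by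
        show DifferentiableAt ℂ (fun t => ∑ i, c i * ((Bt t) ^ (i.1 + l.1)).trace) 0
        exact DifferentiableAt.fun_sum fun i _ => ((hBt.pow _).trace.differentiableAt).const_mul _
    have hmge : ∀ᶠ t in 𝓝 0, m ≤ (spec (Bt t)).card := by
      filter_upwards [rank_le_eventually (fun t => moms (Bt t) m) 0
        fun c => (hmd c).continuousAt] with t ht
      by_contra hlt
      push Not at hlt
      have := moms_lt (Bt t) hlt
      have h2 := moms_rank B
      rw [← hm] at h2
      rw [hB0, h2] at ht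
      omega
    have hmeq : ∀ᶠ t in 𝓝 0, (spec (Bt t)).card = m := by
      filter_upwards [hrk, hmge, hγW] with t h1 h2 h3
      exact le_antisymm ((hmax₂ _ ⟨h3, h1⟩).trans hqm) h2
    refine rig_of_curve hm Bt hBt hB0 hmeq hmd ?_
    filter_upwards [hrk, hmge, hγW] with t h1 h2 h3 h4 n
    rcases Nat.lt_or_ge n r with hn | hn
    · by_contra hlt
      push Not at hlt
      have hsum : ∑ j ∈ Finset.range r, powRank B j < ∑ j ∈ Finset.range r, powRank (Bt t) j :=
        Finset.sum_lt_sum h4 ⟨n, Finset.mem_range.2 hn, hlt⟩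
      exact absurd (hmax₃ _ ⟨h3, h1, hqm.trans h2⟩) (not_le.2 hsum)
    · simp [powRank, rank_pow _ n hn]

/-- The values away from the first handle. -/
def rowR (C : Fin s → SL r) (q : Idx 1 k s → SL r) : Rest k s → SL r :=
  evR C fun y => q (Sum.inr y)

/-- At a point where a generator of a further handle is cyclic and the commutant away from the
first handle is minimal, this commutant is scalar. -/
theorem rest_scalar (hk : 2 ≤ k) (C : Fin s → SL r) {W : Set (Idx 1 k s → SL r)} (hW : IsOpen W)
    {q : Idx 1 k s → SL r} (hq : q ∈ Sol C W) (hS : Schur (evC C q))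
    (hmax : ∀ q' ∈ Sol C W, rk (rowR C q') ≤ rk (rowR C q)) (i0 : Fin k) (hi0 : i0.1 = 0)
    (hcyc : ∃ v : Fin r → ℂ, LinearIndependent ℂ fun i : Fin r =>
      ((q (Sum.inr (Sum.inl (i0, true)))).1 ^ i.1) *ᵥ v)
    {ξ : Mat r} (hξ : ∀ x, Commute (rowR C q x).1 ξ) : ∃ c : ℂ, ξ = c • 1 := by
  by_contra hno
  push Not at hno
  obtain ⟨k, rfl⟩ : ∃ l, k = l + 1 := ⟨k - 1, by omega⟩
  obtain rfl : i0 = 0 := Fin.ext hi0
  set z := fun x => q (Sum.inr x)
  set p0 := z (Sum.inl (0, false))
  set q0 := z (Sum.inl (0, true))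
  have hz : ∀ x, Commute (z (Sum.inl x)).1 ξ := fun x => hξ (Sum.inl x)
  let g : (Gens (k + 1) → Mat r) →ₗ[ℂ] Mat r := (dR C q).comp emb
  let A : (Gens (k + 1) → Mat r) →ₗ[ℂ] Gens (k + 1) → Mat r := (br ξ).compLeft _
  let cc := LinearMap.ker (br ξ)
  let T : Mat r →ₗ[ℂ] Mat r :=
    { toFun := fun δ => ad q0 δ - δ
      map_add' := fun a b => by simp; abel
      map_smul' := fun c a => by simp [smul_sub] }
  let D : Mat r →ₗ[ℂ] Gens (k + 1) → Mat r :=
    { toFun := fun δ x => ad (z (Sum.inl x)) δ - δ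
      map_add' := fun a b => by funext x; simp; abel
      map_smul' := fun c a => by funext x; simp [smul_sub] }
  let S' := (LinearMap.range (br ξ)).comap T
  have hle : (LinearMap.ker g).map A ≤ S'.map D := by
    rintro _ ⟨u, hu, rfl⟩
    obtain ⟨γ, hγ0, hγ, hγW⟩ := exists_curve C hW hq hS (δ := emb u) hu
    obtain ⟨δ, hδ⟩ := first_order (fun t => rowR C (γ t)) _
      (fun x => hasJet_evC C hγ (Sum.inr x))
      (hγW.mono fun t ht => by rw [hγ0]; exact hmax _ ht) (ξ := ξ)
      (fun x => by rw [hγ0]; exact hξ x)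
    have h1 : ∀ x, br ξ (u x) = ad (z (Sum.inl x)) δ - δ := fun x => by
      have h2 : br ξ (tl (u x)) = ad (z (Sum.inl x)) δ - δ := hδ (Sum.inl x)
      rw [← h2, tl_apply, map_sub, map_smul]
      simp [br_apply]
    exact ⟨δ, ⟨u (0, true), h1 (0, true)⟩, funext fun x => (h1 x).symm⟩
  have hr0 : 1 ≤ r := by
    rcases Nat.eq_zero_or_pos r with h | h
    · subst h; exact absurd (Subsingleton.elim ξ _) (hno 0)
    · exact h
  let tr : Mat r →ₗ[ℂ] ℂ := Matrix.traceLinearMap (Fin r) ℂ ℂ
  have htr : LinearMap.range g ≤ LinearMap.ker tr := by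
    rintro _ ⟨u, rfl⟩
    show ((dR C q) (emb u)).trace = 0
    rw [dR_apply]
    exact (hasJet_R C q _ (fun t : ℂ => shift q (t • emb u)) (hasJet_shift q (emb u))).trace_eq
  have htrk : Module.finrank ℂ (LinearMap.ker tr) + 1 = r * r := by
    have h1 := LinearMap.finrank_range_add_finrank_ker tr
    have h2 : LinearMap.range tr = ⊤ := LinearMap.range_eq_top.2 fun c =>
      ⟨single ⟨0, hr0⟩ ⟨0, hr0⟩ c, by simp [tr]⟩
    rw [h2, finrank_top, Module.finrank_self, Module.finrank_matrix, Module.finrank_self,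
      Fintype.card_fin, mul_one] at h1
    omega
  have hT : Module.finrank ℂ (LinearMap.ker T) ≤ r := by
    obtain ⟨v, hv⟩ := hcyc
    let ev : LinearMap.ker T →ₗ[ℂ] (Fin r → ℂ) :=
      { toFun := fun X => (X : Mat r) *ᵥ v
        map_add' := fun a b => Matrix.add_mulVec _ _ v
        map_smul' := fun c a => Matrix.smul_mulVec _ _ v }
    have hinj : Function.Injective ev := by
      refine LinearMap.ker_eq_bot.1 (LinearMap.ker_eq_bot'.2 fun ⟨X, hX⟩ hXv => ?_)
      have hc : Commute q0.1 X := ad_eq_self_iff.1 (sub_eq_zero.1 hX)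
      have hXp : ∀ i : Fin r, X *ᵥ ((q0.1 ^ i.1) *ᵥ v) = 0 := fun i => by
        rw [Matrix.mulVec_mulVec, ← (hc.pow_left i.1).eq, ← Matrix.mulVec_mulVec,
          show X *ᵥ v = 0 from hXv, Matrix.mulVec_zero]
      have : Nonempty (Fin r) := ⟨⟨0, hr0⟩⟩
      let bs := basisOfLinearIndependentOfCardEqFinrank hv (by simp [Module.finrank_pi])
      have h0 : Matrix.mulVecLin X = 0 := bs.ext fun i => by
        simp only [bs, coe_basisOfLinearIndependentOfCardEqFinrank]
        exact hXp i
      exact Subtype.ext (Matrix.toLin'.injective (by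
        rw [Matrix.toLin'_apply', h0]; simp))
    refine (LinearMap.finrank_le_finrank_of_injective hinj).trans ?_
    simp [Module.finrank_pi]
  -- dimension of `S'`
  let TS : S' →ₗ[ℂ] LinearMap.range (br ξ) :=
    (T.comp S'.subtype).codRestrict _ fun δ => δ.2
  have hS' : Module.finrank ℂ S' ≤ Module.finrank ℂ (LinearMap.range (br ξ)) + r := by
    rw [← LinearMap.finrank_range_add_finrank_ker TS]
    refine add_le_add (Submodule.finrank_le _) ?_
    let j : LinearMap.ker TS →ₗ[ℂ] LinearMap.ker T :=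
      ((S'.subtype).comp (LinearMap.ker TS).subtype).codRestrict _ fun x =>
        congrArg Subtype.val x.2
    refine (LinearMap.finrank_le_finrank_of_injective (f := j) fun a b h => ?_).trans hT
    exact Subtype.ext (Subtype.ext (congrArg Subtype.val h :))
  -- the kernel inside the centraliser
  let ι : (Gens (k + 1) → cc) →ₗ[ℂ] Gens (k + 1) → Mat r := cc.subtype.compLeft _
  let Tc : cc →ₗ[ℂ] Mat r := T.comp cc.subtype
  have hTc : Module.finrank ℂ (LinearMap.range Tc) ≤ Module.finrank ℂ (LinearMap.range (g.comp ι)) := by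
    let M := (relR (evR C z))
    let M' := List.ofFn (fun l : Fin k => ⁅z (Sum.inl (l.succ, false)), z (Sum.inl (l.succ, true))⁆)
    let N : SL r := p0⁻¹ * q0⁻¹ * (M'.prod *
      (List.ofFn fun j => evR C z (Sum.inr j)).prod)
    let adN : Mat r →ₗ[ℂ] Mat r :=
      { toFun := fun X => ad N X, map_add' := ad_add N, map_smul' := ad_smul N }
    have hinj : Function.Injective adN := fun a b h => by
      have := congrArg (ad N⁻¹) (show ad N a = ad N b from h)
      rwa [ad_ad_inv', ad_ad_inv'] at this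
    have hle2 : (LinearMap.range Tc).map adN ≤ LinearMap.range (g.comp ι) := by
      rintro _ ⟨_, ⟨w, rfl⟩, rfl⟩
      refine ⟨fun x => if x = (0, false) then w else 0, ?_⟩
      show dR C q (emb fun x => ((if x = (0, false) then w else 0 : cc) : Mat r)) =
        ad N (T (w : Mat r))
      rw [rest_dR]
      have hv : ∀ x : Gens (k + 1), tl ((if x = (0, false) then w else 0 : cc) : Mat r) =
          if x = (0, false) then tl (w : Mat r) else 0 := fun x => by split_ifs <;> simp
      simp only [hv]
      rw [relRJ, evR_jets]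
      have e2 : (List.ofFn fun j => Sum.elim (fun x : Gens (k + 1) =>
          (⟨q (Sum.inr (Sum.inl x)), if x = (0, false) then tl (w : Mat r) else 0⟩ : Jet r))
            (fun j => Jet.zero (evR C z (Sum.inr j))) (Sum.inr j)).prod =
          Jet.zero (List.ofFn fun j => evR C z (Sum.inr j)).prod := by
        rw [map_list_prod, List.map_ofFn]; rfl
      have e1 : rel ((Sum.elim (fun x : Gens (k + 1) =>
          (⟨q (Sum.inr (Sum.inl x)), if x = (0, false) then tl (w : Mat r) else 0⟩ : Jet r))
            fun j => Jet.zero (evR C z (Sum.inr j))) ∘ Sum.inl) =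
          ⁅(⟨p0, tl (w : Mat r)⟩ : Jet r), (⟨q0, 0⟩ : Jet r)⁆ * Jet.zero M'.prod := by
        simp only [rel, List.ofFn_succ, List.prod_cons, Function.comp_apply, Sum.elim_inl, M']
        congr 1
        · rw [map_list_prod, List.map_ofFn]
          congr 2
          funext l
          simp only [Prod.mk.injEq, Fin.succ_ne_zero, false_and, if_false, Function.comp_apply,
            map_commutatorElement]
          rfl
      rw [relR, e2, e1, Jet.mul_v, Jet.mul_v, comm_v]
      simp only [Jet.zero_apply, add_zero, ad_zero, sub_zero, N, ← ad_mul, ← ad_sub]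
      have : ad q0 (tl (w : Mat r)) - tl (w : Mat r) = T (w : Mat r) := by
        have h1 : ad q0 (1 : Mat r) = 1 := by rw [ad, mul_one, val_inv_mul]
        simp [T, tl_apply, h1]
      simp only [ad_mul, ← ad_sub, this]
    exact (LinearEquiv.finrank_eq (Submodule.equivMapOfInjective adN hinj _)).le.trans
      (Submodule.finrank_mono hle2)
  -- counting
  have n1 := LinearMap.finrank_range_add_finrank_ker g
  have n2 := LinearMap.finrank_range_add_finrank_ker (A.comp (LinearMap.ker g).subtype)
  have n3 := LinearMap.finrank_range_add_finrank_ker (g.comp ι)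
  have n4 := LinearMap.finrank_range_add_finrank_ker Tc
  have n5 : Module.finrank ℂ (LinearMap.range (A.comp (LinearMap.ker g).subtype)) ≤
      Module.finrank ℂ S' := by
    rw [LinearMap.range_comp, Submodule.range_subtype]
    exact (Submodule.finrank_mono hle).trans (Submodule.finrank_map_le _ _)
  have n6 : Module.finrank ℂ (LinearMap.ker (A.comp (LinearMap.ker g).subtype)) ≤
      Module.finrank ℂ (LinearMap.ker (g.comp ι)) := by
    let j : LinearMap.ker (A.comp (LinearMap.ker g).subtype) →ₗ[ℂ] Gens (k + 1) → cc :=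
      LinearMap.pi fun x => (((LinearMap.proj x).comp (LinearMap.ker g).subtype).comp
        (LinearMap.ker (A.comp (LinearMap.ker g).subtype)).subtype).codRestrict cc
          fun u => congrFun u.2 x
    refine LinearMap.finrank_le_finrank_of_injective (f := j.codRestrict _ fun u => ?_) fun a b h => ?_
    · exact u.1.2
    · exact Subtype.ext (Subtype.ext (funext fun x =>
        congrArg (fun f : LinearMap.ker (g.comp ι) => ((f : Gens (k + 1) → cc) x : Mat r)) h))
  have n7 : Module.finrank ℂ (LinearMap.ker Tc) ≤ r := by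
    let j : LinearMap.ker Tc →ₗ[ℂ] LinearMap.ker T :=
      (cc.subtype.comp (LinearMap.ker Tc).subtype).codRestrict _ fun x => x.2
    refine (LinearMap.finrank_le_finrank_of_injective (f := j) fun a b h => ?_).trans hT
    exact Subtype.ext (Subtype.ext (congrArg Subtype.val h :))
  have n8 := LinearMap.finrank_range_add_finrank_ker (br ξ)
  have n9 := Submodule.finrank_mono htr
  have n10 := rank_br ξ hno
  have hfun : Module.finrank ℂ (Gens (k + 1) → Mat r) = (k + 1) * 2 * (r * r) := by
    rw [Module.finrank_pi_fintype, Finset.sum_const, Finset.card_univ, Fintype.card_prod,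
      Fintype.card_fin, Fintype.card_bool, smul_eq_mul, Module.finrank_matrix, Module.finrank_self,
      Fintype.card_fin, mul_one]
  have hfunc : Module.finrank ℂ (Gens (k + 1) → cc) = (k + 1) * 2 * Module.finrank ℂ cc := by
    rw [Module.finrank_pi_fintype, Finset.sum_const, Finset.card_univ, Fintype.card_prod,
      Fintype.card_fin, Fintype.card_bool, smul_eq_mul]
  rw [Module.finrank_matrix, Module.finrank_self, Fintype.card_fin, mul_one] at n8
  have hcc : Module.finrank ℂ cc = Module.finrank ℂ (LinearMap.ker (br ξ)) := rfl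
  rw [hcc] at n4
  rw [hfun] at n1
  rw [hfunc, hcc] at n3
  have hmul : 4 * Module.finrank ℂ (LinearMap.range (br ξ)) ≤
      (k + 1) * 2 * Module.finrank ℂ (LinearMap.range (br ξ)) :=
    Nat.mul_le_mul_right _ (by omega)
  rw [← n8, mul_add] at n1
  omega

/-- A point where the commutant away from the first handle is scalar lets the first handle move
freely; so every polynomial condition on the pair that can be met is met nearby. -/
theorem exists_good_pair (C : Fin s → SL r) {W : Set (Idx 1 k s → SL r)} (hW : IsOpen W)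
    {q : Idx 1 k s → SL r} (hq : q ∈ Sol C W)
    (hscal : ∀ ξ : Mat r, (∀ x, Commute (rowR C q x).1 ξ) → ∃ c : ℂ, ξ = c • 1)
    {G : (Bool → SL r) → ℂ} (hG : G ∈ PolyFun Bool r) (hG0 : ∃ y, G y ≠ 0) :
    ∃ q' ∈ Sol C W, G (fun c => q' (Sum.inl (0, c))) ≠ 0 := by
  classical
  obtain ⟨y, hy⟩ := hG0
  choose γ hγ hγ0 hγ1 using fun c : Bool =>
    exists_path (r := r) ((q (Sum.inl (0, c)))⁻¹ * y c)
  let E := (Rest k s → Coord r) × ℂ
  let Φ : E → Idx 1 k s → SL r := fun e => Sum.elim
    (fun x => q (Sum.inl (0, x.2)) * γ x.2 e.2) fun x => q (Sum.inr x) * expm (Matrix.of (e.1 x))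
  have hΦ : ∀ x, (fun e => Φ e x) ∈ entGroup (C1 E) := by
    rintro (x | x)
    · exact (entGroup _).mul_mem (const_mem _ _) fun i j =>
        show ContDiff ℂ 1 _ from (show ContDiff ℂ 1 (ent (γ x.2) i j) from hγ x.2 i j).comp contDiff_snd
    · exact (entGroup _).mul_mem (const_mem _ _) (expm_mem _ fun i j =>
        show ContDiff ℂ 1 _ from (contDiff_apply_apply ℂ ℂ i j).comp
          ((contDiff_apply ℂ (Coord r) x).comp contDiff_fst))
  have hΦ0 : Φ 0 = q := by
    funext x
    rcases x with ⟨i, c⟩ | x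
    · simp only [Φ, Sum.elim_inl, Prod.snd_zero, hγ0, mul_one]
      rw [Fin.fin_one_eq_zero i]
    · simp only [Φ, Sum.elim_inr, Prod.fst_zero, Pi.zero_apply]
      rw [show (Matrix.of (0 : Coord r) : Mat r) = 0 from rfl, expm_zero, mul_one]
  have hfd : ∀ (e : Rest k s → Coord r) (x : Idx 1 k s), fd (fun e => Φ e x) (e, 0) =
      Sum.elim (fun _ => (0 : Mat r)) (fun x => tl (Matrix.of (e x))) x := fun e x => by
    refine fd_eq_of_hasJet (hΦ x) (p := ⟨q x, _⟩) ?_
    rcases x with ⟨i, c⟩ | x
    · convert hasJet_const (q (Sum.inl (i, c))) using 1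
      funext t
      have h0 : (t • ((e, 0) : E)).2 = 0 := smul_zero t
      simp [Φ, h0, hγ0, Fin.fin_one_eq_zero i]
    · have h := (hasJet_const (q (Sum.inr x))).mul (hasJet_expm (Matrix.of (e x)))
      rw [show (⟨q (Sum.inr x), 0⟩ : Jet r) * ⟨1, tl (Matrix.of (e x))⟩ =
        ⟨q (Sum.inr x), tl (Matrix.of (e x))⟩ from Jet.ext (mul_one _) (by simp)] at h
      exact h
  let gR : (Rest k s → Coord r) →ₗ[ℂ] Mat r :=
    (dR C q).comp (σ₁₂ := RingHom.id ℂ)
      { toFun := fun e => Sum.elim 0 e
        map_add' := fun a b => by funext x; rcases x with x | x <;> simp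
        map_smul' := fun c a => by funext x; rcases x with x | x <;> simp }
  have hgR : ∀ e, gR e = (relRJ C (fun x => q (Sum.inr x)) fun x => tl (Matrix.of (e x))).v :=
    fun e => by
      show dR C q (Sum.elim 0 e) = _
      rw [dR_apply, relJ_split, Jet.mul_v]
      simp only [Sum.elim_inl, Sum.elim_inr, Pi.zero_apply]
      rw [show (Matrix.of (0 : Coord r) : Mat r) = 0 from rfl, map_zero, comm_v]
      simp
  have hsurj : ∀ X : Mat r, X.trace = 0 → ∃ e, gR e = X := by
    intro X hX
    by_contra hno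
    obtain ⟨ψ, hψX, hψ⟩ := Submodule.exists_dual_map_eq_bot_of_notMem
      (show X ∉ LinearMap.range gR from hno) inferInstance
    obtain ⟨η, hη⟩ := exists_trace_rep ψ
    obtain ⟨c, rfl⟩ := hscal η (rest_perp C _ fun δ => by
      have := Submodule.mem_map_of_mem (f := ψ) (LinearMap.mem_range_self gR fun x => flat (δ x))
      rw [hψ, Submodule.mem_bot, hη, hgR] at this
      exact this)
    exact hψX (by rw [hη, Matrix.smul_mul, one_mul, Matrix.trace_smul, hX, smul_zero])
  obtain ⟨ψ, hψ0, hψd, hψ⟩ := exists_lift C Φ hΦ (by rw [hΦ0]; exact hq.2)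
    (LinearMap.snd ℂ (Rest k s → Coord r) ℂ) fun X hX w => by
      let vw := (relJ C (Φ 0) fun x => fd (fun e => Φ e x) ((0 : Rest k s → Coord r), w)).v
      have hvw : vw.trace = 0 :=
        (hasJet_R C (Φ 0) _ (fun t : ℂ => Φ (t • ((0 : Rest k s → Coord r), w)))
          (fun x => hasJet_line (hΦ x) _)).trace_eq
      obtain ⟨e, he⟩ := hsurj (X - vw) (by rw [Matrix.trace_sub, hX, hvw, sub_zero])
      refine ⟨(e, w), ?_, rfl⟩
      let Φr : E → SL r := fun e => R C (Φ e)
      have hlin : ∀ v : E, fd Φr v = (relJ C (Φ 0) fun x => fd (fun e => Φ e x) v).v := fun v =>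
        fd_eq_of_hasJet (R_mem C Φ hΦ)
          (hasJet_R C (Φ 0) _ (fun t : ℂ => Φ (t • v)) fun x => hasJet_line (hΦ x) v)
      rw [← hlin, show ((e, w) : E) = (e, 0) + (0, w) by simp, map_add, hlin, hlin]
      show _ + vw = X
      rw [show (relJ C (Φ 0) fun x => fd (fun e => Φ e x) (e, (0 : ℂ))).v = gR e by
        rw [hgR]
        simp only [hfd, hΦ0]
        rw [relJ_split, Jet.mul_v]
        simp only [Sum.elim_inl, Sum.elim_inr, comm_v, ad_zero, add_zero, sub_zero, zero_add], he]
      abel
  let P : ℂ → ℂ := fun t => G fun c => q (Sum.inl (0, c)) * γ c t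
  have hP : Differentiable ℂ P := (show ContDiff ℂ 1 P from polyFun_comp (C1 ℂ)
    (fun t c => q (Sum.inl (0, c)) * γ c t)
    (fun c => (entGroup _).mul_mem (const_mem _ _) (hγ c)) hG).differentiable one_ne_zero
  have hcont : ContinuousAt (fun t => Φ (ψ t)) 0 := continuousAt_pi.2 fun x =>
    continuousAt_of_ent fun i j =>
      ((show ContDiff ℂ 1 (ent (fun e => Φ e x) i j) from hΦ x i j).continuous.continuousAt).comp
        hψd.continuousAt
  by_contra hno
  push Not at hno
  have hz : P =ᶠ[𝓝 0] fun _ => 0 := by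
    filter_upwards [hψ, hcont.preimage_mem_nhds
      (by rw [hψ0, hΦ0]; exact hW.mem_nhds hq.1)] with t ht htW
    have h1 := hno _ ⟨htW, ht.1⟩
    have h2 : (ψ t).2 = t := ht.2
    rw [← h1]
    simp [P, Φ, h2]
  have h1 := congrFun ((Complex.analyticOnNhd_univ_iff_differentiable.2 hP).eq_of_eventuallyEq
    analyticOnNhd_const hz) 1
  refine hy ?_
  rw [← h1]
  simp [P, hγ1]

end Vale.Agent.P002.Global
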