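import Vale.Agent.P002.Global.Generic

/-!
Semisimple representations are limits, along polynomial curves and torus twists, of representations
with scalar commutant.

Paper proof (`Y = evC C q`, all values of a representation, `R C q = 1`):

0. `SS Y` gives idempotents `P 1 .. P m`, nonzero, `P i * P j = 0`, sum `1`, each commuting with all
   `Y x`, each range irreducible (complement recursion). Induction on `m`: `m = 1` is `Schur`
   (`schur_of_irr`); `r = 0` is trivial.
1. Merge two blocks `P1, P2` of ranks `N1, N2` (`trace_idem`). Twist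
   `T z = 1 + (z^N2 - 1) P1 + (z^-N1 - 1) P2` (determinant one by `det_idem`), central for the
   block-diagonal values. Replace `a := q iA` by `a * T z` and
   `p0 := q (inr (inl (i0, false)))` by `p0 * T w` (`i0 : Fin k` exists as `1 <= k`): relation
   and blocks persist. `F` of the twisted point is a Laurent polynomial in each variable, so it
   is enough that it vanishes, for cofinitely many `w`, at infinitely many `z` (then at 1).
2. Take `w` with `p0 * T w` having disjoint spectra on the blocks (excludes finitely many `w`):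
   then `P1` and `P2` are polynomials in it on the range of `P1 + P2`.
3. For `n >= 1` let `b' = b * a^n`; then `[a, b'] = [a, b]`. After the `z`-twist the eigenvalues
   mu, nu of `b a^n` on the two blocks move to `z^(n N2) mu`, `z^(-n N1) nu`: equal for
   `n (N1 + N2)` values of `z`, so for infinitely many `z` some `n` gives a shared eigenvalue.
4. With right eigenvectors `u i` in the range of `P i` and left ones `phi i` (`phi i P i = phi i`),
   `h s = (1 + s u1 phi2) (1 + s u2 phi1)` commutes with `b'`, has determinant one, is the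
   identity on the other blocks, commutes with `P1 + P2`. Put `a s = a * h s`,
   `b s = b' * (a s)^(-n)`: the commutator is unchanged, everything is polynomial in `s`, `s = 0`
   is the twisted point. It suffices to vanish for `s != 0`, by the induction hypothesis with
   blocks `P1 + P2, P 3, ..`.
5. Irreducibility of the merged block, `s != 0`: an invariant `W` is `W1 + W2` (step 2) and is
   invariant under `a h` and `b'`. `h v = v + s (phi2 v) u1` on block 2,
   `h v = v + s (phi1 v) u2 + s^2 c (phi1 v) u1` on block 1 (`c = phi2 u2`). So `W2` is invariant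
   under `a, b'`, hence is 0 or `V2`. If `V2`: `a u1` is in `W1`, hence `W1` is nonzero and
   invariant under `a`, so `V1`. If 0: `phi1 = 0` on `W1`, so `W1` is invariant under `a`, hence
   0 (it is not `V1`).
-/

open Matrix Filter Topology Polynomial
open scoped commutatorElement

namespace Vale.Agent.P002.Global

open Vale.Agent.P002.Surface

variable {k s r : ℕ}

/-- Every invariant subspace has an invariant complement. -/
def SS (Y : Idx 1 k s → SL r) : Prop :=
  ∀ W : Submodule ℂ (Fin r → ℂ), (∀ x, ∀ v ∈ W, (Y x).1 *ᵥ v ∈ W) →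
    ∃ W' : Submodule ℂ (Fin r → ℂ), (∀ x, ∀ v ∈ W', (Y x).1 *ᵥ v ∈ W') ∧ IsCompl W W'

lemma schur_of_irr (Y : Idx 1 k s → SL r)
    (h : ∀ W : Submodule ℂ (Fin r → ℂ), (∀ x, ∀ v ∈ W, (Y x).1 *ᵥ v ∈ W) → W = ⊥ ∨ W = ⊤) :
    Schur Y := by
  intro ξ hξ
  rcases Nat.eq_zero_or_pos r with hr | hr
  · subst hr; exact ⟨0, Subsingleton.elim _ _⟩
  have : Nonempty (Fin r) := ⟨⟨0, hr⟩⟩
  obtain ⟨c, hc⟩ := Module.End.exists_eigenvalue (Matrix.toLin' ξ)
  refine ⟨c, ?_⟩
  have hinv : ∀ x, ∀ v ∈ Module.End.eigenspace (Matrix.toLin' ξ) c,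
      (Y x).1 *ᵥ v ∈ Module.End.eigenspace (Matrix.toLin' ξ) c := fun x v hv => by
    rw [Module.End.mem_eigenspace_iff, Matrix.toLin'_apply] at hv ⊢
    rw [Matrix.mulVec_mulVec, ← (hξ x).eq, ← Matrix.mulVec_mulVec, hv, Matrix.mulVec_smul]
  rcases h _ hinv with h0 | h1
  · exact absurd h0 hc
  · refine Matrix.toLin'.injective (LinearMap.ext fun v => ?_)
    have hv : v ∈ Module.End.eigenspace (Matrix.toLin' ξ) c := h1 ▸ trivial
    rw [Module.End.mem_eigenspace_iff] at hv
    rw [hv]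
    simp

/-- The vectors fixed by an idempotent. -/
def rg (P : Mat r) : Submodule ℂ (Fin r → ℂ) where
  carrier := {v | P *ᵥ v = v}
  add_mem' {v w} hv hw := show P *ᵥ (v + w) = v + w by
    rw [Matrix.mulVec_add, show P *ᵥ v = v from hv, show P *ᵥ w = w from hw]
  zero_mem' := Matrix.mulVec_zero P
  smul_mem' c v hv := show P *ᵥ (c • v) = c • v by
    rw [Matrix.mulVec_smul, show P *ᵥ v = v from hv]

lemma mem_rg {P : Mat r} {v : Fin r → ℂ} : v ∈ rg P ↔ P *ᵥ v = v := Iff.rfl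

lemma proj_rg {P : Mat r} (hP : P * P = P) (v : Fin r → ℂ) : P *ᵥ v ∈ rg P := by
  rw [mem_rg, Matrix.mulVec_mulVec, hP]

/-- The group elements preserving a subspace. -/
def St (W : Submodule ℂ (Fin r → ℂ)) : Subgroup (SL r) where
  carrier := {M | ∀ v ∈ W, M.1 *ᵥ v ∈ W}
  one_mem' := fun v hv => by simpa using hv
  mul_mem' := fun {A B} hA hB v hv => by
    show (A.1 * B.1) *ᵥ v ∈ W
    rw [← Matrix.mulVec_mulVec]
    exact hA _ (hB _ hv)
  inv_mem' := fun {M} hM v hv => by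
    let f : W →ₗ[ℂ] W := (Matrix.toLin' M.1).restrict (p := W) (q := W) fun x hx => hM x hx
    have hinj : Function.Injective f := fun x y hxy => by
      have hxy' : M.1 *ᵥ (x : Fin r → ℂ) = M.1 *ᵥ (y : Fin r → ℂ) := congrArg Subtype.val hxy
      have h2 := congrArg (fun z => (M⁻¹).1 *ᵥ z) hxy'
      simp only [Matrix.mulVec_mulVec, val_inv_mul, Matrix.one_mulVec] at h2
      exact Subtype.ext h2
    obtain ⟨w, hw⟩ := LinearMap.injective_iff_surjective.1 hinj ⟨v, hv⟩
    have hwv : M.1 *ᵥ (w : Fin r → ℂ) = v := congrArg Subtype.val hw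
    rw [← hwv, Matrix.mulVec_mulVec, val_inv_mul, Matrix.one_mulVec]
    exact w.2

lemma mem_St {W : Submodule ℂ (Fin r → ℂ)} {M : SL r} : M ∈ St W ↔ ∀ v ∈ W, M.1 *ᵥ v ∈ W :=
  Iff.rfl

lemma aeval_mem {W : Submodule ℂ (Fin r → ℂ)} {M : Mat r} (hM : ∀ v ∈ W, M *ᵥ v ∈ W) (f : ℂ[X]) :
    ∀ v ∈ W, aeval M f *ᵥ v ∈ W := by
  induction f using Polynomial.induction_on' with
  | add a b ha hb =>
    intro v hv
    rw [map_add, Matrix.add_mulVec]
    exact W.add_mem (ha v hv) (hb v hv)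
  | monomial n c =>
    intro v hv
    rw [Polynomial.aeval_monomial, ← Algebra.smul_def, Matrix.smul_mulVec]
    refine W.smul_mem c ?_
    induction n generalizing v with
    | zero => simpa using hv
    | succ n ih => rw [pow_succ, ← Matrix.mulVec_mulVec]; exact ih _ (hM v hv)

/-- A decomposition into invariant blocks. -/
structure Dec (Y : Idx 1 k s → SL r) {m : ℕ} (P : Fin m → Mat r) : Prop where
  idem : ∀ i, P i * P i = P i
  orth : ∀ i j, i ≠ j → P i * P j = 0
  sum : ∑ i, P i = 1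
  ne : ∀ i, P i ≠ 0
  comm : ∀ i x, Commute (Y x).1 (P i)

/-- All blocks are irreducible. -/
def Irr (Y : Idx 1 k s → SL r) {m : ℕ} (P : Fin m → Mat r) : Prop :=
  ∀ i (W : Submodule ℂ (Fin r → ℂ)), W ≤ rg (P i) → (∀ x, Y x ∈ St W) → W = ⊥ ∨ W = rg (P i)

lemma Dec.le {Y : Idx 1 k s → SL r} {m : ℕ} {P : Fin m → Mat r} (h : Dec Y P) : m ≤ r := by
  choose N hN hN0 using fun i => trace_idem (h.idem i)
  have h1 : (∑ i, N i) = r := by
    have := congrArg Matrix.trace h.sum
    rw [Matrix.trace_sum, Matrix.trace_one, Fintype.card_fin] at this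
    simp only [hN] at this
    exact_mod_cast this
  calc m = ∑ _i : Fin m, 1 := by simp
    _ ≤ ∑ i, N i := Finset.sum_le_sum fun i _ =>
        Nat.one_le_iff_ne_zero.2 fun e => h.ne i (hN0 i e)
    _ = r := h1

/-- A block with a proper invariant subspace splits. -/
lemma Dec.split {Y : Idx 1 k s → SL r} (hss : SS Y) {m : ℕ} {P : Fin m → Mat r} (h : Dec Y P)
    {i : Fin m} {W : Submodule ℂ (Fin r → ℂ)} (hW : W ≤ rg (P i)) (hinv : ∀ x, Y x ∈ St W)
    (h0 : W ≠ ⊥) (h1 : W ≠ rg (P i)) : ∃ P' : Fin (m + 1) → Mat r, Dec Y P' := by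
  obtain ⟨W', hW', hc⟩ := hss W hinv
  set π : Mat r := LinearMap.toMatrix' (W.projection W' hc) with hπd
  have hπ : ∀ v, π *ᵥ v = W.projection W' hc v := fun v => by
    rw [hπd, ← Matrix.toLin'_apply, Matrix.toLin'_toMatrix']
  have hπW : ∀ v ∈ W, π *ᵥ v = v := fun v hv => by rw [hπ, Submodule.projection_apply_of_mem_left hc hv]
  have hmem : ∀ v, π *ᵥ v ∈ W := fun v => by rw [hπ]; exact Submodule.projection_apply_mem hc v
  have hπY : ∀ x, Commute (Y x).1 π := fun x => by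
    refine Matrix.toLin'.injective (LinearMap.ext fun v => ?_)
    simp only [Matrix.toLin'_apply, ← Matrix.mulVec_mulVec]
    obtain ⟨a, ha, b, hb, rfl⟩ : ∃ a ∈ W, ∃ b ∈ W', a + b = v :=
      Submodule.mem_sup.1 (by rw [hc.sup_eq_top]; trivial)
    have hb0 : π *ᵥ b = 0 := by rw [hπ, (Submodule.projection_apply_eq_zero_iff hc).2 hb]
    have hb1 : π *ᵥ ((Y x).1 *ᵥ b) = 0 := by
      rw [hπ, (Submodule.projection_apply_eq_zero_iff hc).2 (hW' x b hb)]
    simp only [Matrix.mulVec_add, hπW a ha, hb0, hb1, add_zero,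
      hπW _ (hinv x a ha)]
  set A := π * P i with hAd
  have hAP : A * P i = A := by rw [hAd, Matrix.mul_assoc, h.idem]
  have hPA : P i * A = A := by
    refine Matrix.toLin'.injective (LinearMap.ext fun v => ?_)
    simp only [Matrix.toLin'_apply, hAd, ← Matrix.mulVec_mulVec]
    exact hW (hmem _)
  have hππ : π * π = π := by
    refine Matrix.toLin'.injective (LinearMap.ext fun v => ?_)
    simp only [Matrix.toLin'_apply, ← Matrix.mulVec_mulVec, hπW _ (hmem v)]
  have hAA : A * A = A := by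
    calc A * A = π * (P i * A) := by rw [hAd, Matrix.mul_assoc]
      _ = A := by rw [hPA, hAd, ← Matrix.mul_assoc, hππ]
  have hA0 : A ≠ 0 := fun e => h0 <| (Submodule.eq_bot_iff W).2 fun v hv => by
    have : A *ᵥ v = v := by
      rw [hAd, ← Matrix.mulVec_mulVec, show P i *ᵥ v = v from hW hv, hπW v hv]
    rw [← this, e, Matrix.zero_mulVec]
  have hB0 : P i - A ≠ 0 := fun e => h1 <| le_antisymm hW fun v hv => by
    rw [← show P i *ᵥ v = v from hv, sub_eq_zero.1 e, hAd, ← Matrix.mulVec_mulVec]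
    exact hmem _
  have hAj : ∀ j, j ≠ i → A * P j = 0 ∧ P j * A = 0 := fun j hj =>
    ⟨by rw [← hAP, Matrix.mul_assoc, h.orth i j (Ne.symm hj), mul_zero],
      by rw [← hPA, ← Matrix.mul_assoc, h.orth j i hj, zero_mul]⟩
  refine ⟨Fin.cons A (Function.update P i (P i - A)), ⟨fun j => ?_, fun j l hjl => ?_, ?_,
    fun j => ?_, fun j x => ?_⟩⟩
  · refine Fin.cases ?_ (fun j => ?_) j
    · simpa using hAA
    · rcases eq_or_ne j i with rfl | hj
      · simp [sub_mul, mul_sub, h.idem, hAP, hPA, hAA]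
      · simp [hj, h.idem]
  · revert hjl
    refine Fin.cases ?_ (fun j => ?_) j <;> refine Fin.cases ?_ (fun l => ?_) l <;> intro hjl
    · exact absurd rfl hjl
    · rcases eq_or_ne l i with rfl | hl
      · simp [mul_sub, hAP, hAA]
      · simp [hl, (hAj l hl).1]
    · rcases eq_or_ne j i with rfl | hj
      · simp [sub_mul, hPA, hAA]
      · simp [hj, (hAj j hj).2]
    · have hjl' : j ≠ l := fun e => hjl (congrArg Fin.succ e)
      rcases eq_or_ne j i with rfl | hj
      · simp [Ne.symm hjl', sub_mul, h.orth _ _ hjl', (hAj l (Ne.symm hjl')).1]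
      · rcases eq_or_ne l i with rfl | hl
        · simp [hj, mul_sub, h.orth _ _ hjl', (hAj j hj).2]
        · simp [hj, hl, h.orth _ _ hjl']
  · rw [Fin.sum_univ_succ]
    simp only [Fin.cons_zero, Fin.cons_succ]
    rw [Finset.sum_update_of_mem (Finset.mem_univ i), ← add_assoc, add_sub_cancel,
      Finset.sdiff_singleton_eq_erase, Finset.add_sum_erase _ _ (Finset.mem_univ i)]
    exact h.sum
  · refine Fin.cases ?_ (fun j => ?_) j
    · simpa using hA0
    · rcases eq_or_ne j i with rfl | hj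
      · simpa using hB0
      · simpa [hj] using h.ne j
  · have hA : Commute (Y x).1 A := (hπY x).mul_right (h.comm i x)
    refine Fin.cases ?_ (fun j => ?_) j
    · simpa using hA
    · rcases eq_or_ne j i with rfl | hj
      · simpa using (h.comm _ x).sub_right hA
      · simpa [hj] using h.comm j x

lemma exists_dec (Y : Idx 1 k s → SL r) (hss : SS Y) :
    ∃ m, ∃ P : Fin m → Mat r, Dec Y P ∧ Irr Y P := by
  obtain ⟨m, ⟨P, hP⟩, hmax⟩ := exists_max_of_le
    (p := fun m => ∃ P : Fin m → Mat r, Dec Y P) id r (fun m hm => hm.elim fun P hP => hP.le) <| by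
    rcases Nat.eq_zero_or_pos r with hr | hr
    · subst hr
      exact ⟨0, Fin.elim0, fun i => i.elim0, fun i => i.elim0, Subsingleton.elim _ _,
        fun i => i.elim0, fun i => i.elim0⟩
    · have : Nonempty (Fin r) := ⟨⟨0, hr⟩⟩
      exact ⟨1, fun _ => 1, fun _ => mul_one 1, fun i j h => absurd (Subsingleton.elim i j) h,
        by simp, fun _ => one_ne_zero, fun _ x => Commute.one_right _⟩
  refine ⟨m, P, hP, fun i W hW hinv => ?_⟩
  by_contra hne
  rw [not_or] at hne
  obtain ⟨P', hP'⟩ := hP.split hss hW hinv hne.1 hne.2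
  exact absurd (hmax (m + 1) ⟨P', hP'⟩) (by simp)

/-- Laurent polynomials on the units. -/
def Lau : Subalgebra ℂ (ℂˣ → ℂ) :=
  Algebra.adjoin ℂ {(fun z => (z : ℂ) : ℂˣ → ℂ), fun z => ((z⁻¹ : ℂˣ) : ℂ)}

/-- A Laurent polynomial with arbitrarily many zeros is zero. -/
lemma lau_zero {f : ℂˣ → ℂ} (hf : f ∈ Lau)
    (h : ∀ B : ℕ, ∃ S : Finset ℂ, B < S.card ∧ ∀ x ∈ S, ∃ u : ℂˣ, (u : ℂ) = x ∧ f u = 0) :
    ∀ u, f u = 0 := by
  obtain ⟨D, p, hp⟩ : ∃ (D : ℕ) (p : ℂ[X]), ∀ z : ℂˣ, f z * (z : ℂ) ^ D = p.eval (z : ℂ) := by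
    clear h
    induction hf using Algebra.adjoin_induction with
    | mem g hg =>
      rcases hg with rfl | rfl
      · exact ⟨0, Polynomial.X, fun z => by simp⟩
      · exact ⟨1, 1, fun z => by simp⟩
    | algebraMap c => exact ⟨0, Polynomial.C c, fun z => by simp⟩
    | add g g' _ _ h h' =>
      obtain ⟨D, p, hp⟩ := h
      obtain ⟨D', p', hp'⟩ := h'
      exact ⟨D + D', p * Polynomial.X ^ D' + p' * Polynomial.X ^ D, fun z => by
        simp [← hp, ← hp', pow_add]; ring⟩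
    | mul g g' _ _ h h' =>
      obtain ⟨D, p, hp⟩ := h
      obtain ⟨D', p', hp'⟩ := h'
      exact ⟨D + D', p * p', fun z => by simp [← hp, ← hp', pow_add]; ring⟩
  obtain ⟨S, hS, hS'⟩ := h p.natDegree
  have hp0 : p = 0 := by
    by_contra hne
    refine absurd ((Finset.card_le_card (t := p.roots.toFinset) fun x hx => ?_).trans
      ((Multiset.toFinset_card_le _).trans (Polynomial.card_roots' p))) (not_le.2 hS)
    obtain ⟨u, hu, hu0⟩ := hS' x hx
    rw [Multiset.mem_toFinset, Polynomial.mem_roots hne, Polynomial.IsRoot.def, ← hu, ← hp, hu0,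
      zero_mul]
  intro u
  have := hp u
  rw [hp0, Polynomial.eval_zero, mul_eq_zero] at this
  exact this.resolve_right (pow_ne_zero _ u.ne_zero)

/-- The determinant of `1 + (w - 1) P`, for an idempotent of trace `N`. -/
lemma det_idem_pow {P : Mat r} (hP : P * P = P) {N : ℕ} (hN : P.trace = N) {w : ℂ} (hw : w ≠ 0) :
    (1 + (w - 1) • P).det = w ^ N := by
  have := det_idem hP (Complex.log w)
  rwa [Complex.exp_log hw, hN, mul_comm, Complex.exp_nat_mul, Complex.exp_log hw] at this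

/-- The twist of two blocks. -/
noncomputable def tw (P1 P2 : Mat r) (N1 N2 : ℕ) (z : ℂˣ) : Mat r :=
  (1 + ((z : ℂ) ^ N2 - 1) • P1) * (1 + (((z⁻¹ : ℂˣ) : ℂ) ^ N1 - 1) • P2)

/-- Two orthogonal idempotents of given traces. -/
structure Two (P1 P2 : Mat r) (N1 N2 : ℕ) : Prop where
  h1 : P1 * P1 = P1
  h2 : P2 * P2 = P2
  h12 : P1 * P2 = 0
  h21 : P2 * P1 = 0
  t1 : P1.trace = N1
  t2 : P2.trace = N2

namespace Two

variable {P1 P2 : Mat r} {N1 N2 : ℕ}

lemma det_tw (h : Two P1 P2 N1 N2) (z : ℂˣ) : (tw P1 P2 N1 N2 z).det = 1 := by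
  rw [tw, Matrix.det_mul, det_idem_pow h.h1 h.t1 (pow_ne_zero _ z.ne_zero),
    det_idem_pow h.h2 h.t2 (pow_ne_zero _ (Units.ne_zero _)), ← pow_mul, ← pow_mul, mul_comm N2 N1,
    ← mul_pow, ← Units.val_mul, mul_inv_cancel, Units.val_one, one_pow]

/-- The twist in the special linear group. -/
noncomputable def T (h : Two P1 P2 N1 N2) (z : ℂˣ) : SL r := ⟨tw P1 P2 N1 N2 z, h.det_tw z⟩

lemma T_val (h : Two P1 P2 N1 N2) (z : ℂˣ) : (h.T z).1 = tw P1 P2 N1 N2 z := rfl

lemma T_one (h : Two P1 P2 N1 N2) : h.T 1 = 1 := Subtype.ext (by simp [T_val, tw])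

lemma T_commute (h : Two P1 P2 N1 N2) (z : ℂˣ) {M : Mat r} (h1 : Commute M P1)
    (h2 : Commute M P2) : Commute M (h.T z).1 :=
  ((Commute.one_right M).add_right (h1.smul_right _)).mul_right
    ((Commute.one_right M).add_right (h2.smul_right _))

lemma T_left (h : Two P1 P2 N1 N2) (z : ℂˣ) : (h.T z).1 * P1 = ((z : ℂ) ^ N2) • P1 := by
  rw [T_val, tw, Matrix.mul_assoc, add_mul 1 _ P1, one_mul, Matrix.smul_mul, h.h21, smul_zero,
    add_zero, add_mul, one_mul, Matrix.smul_mul, h.h1, sub_smul, one_smul, add_sub_cancel]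

lemma T_right (h : Two P1 P2 N1 N2) (z : ℂˣ) :
    (h.T z).1 * P2 = (((z⁻¹ : ℂˣ) : ℂ) ^ N1) • P2 := by
  have e : (1 + ((((z⁻¹ : ℂˣ) : ℂ) ^ N1) - 1) • P2) * P2 = (((z⁻¹ : ℂˣ) : ℂ) ^ N1) • P2 := by
    rw [add_mul, one_mul, Matrix.smul_mul, h.h2, sub_smul, one_smul, add_sub_cancel]
  rw [T_val, tw, Matrix.mul_assoc, e, Matrix.mul_smul, add_mul, one_mul, Matrix.smul_mul, h.h12,
    smul_zero, add_zero]

lemma T_other (h : Two P1 P2 N1 N2) (z : ℂˣ) {Q : Mat r} (q1 : P1 * Q = 0) (q2 : P2 * Q = 0) :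
    (h.T z).1 * Q = Q := by
  rw [T_val, tw, Matrix.mul_assoc, add_mul 1 _ Q, one_mul, Matrix.smul_mul, q2, smul_zero,
    add_zero, add_mul, one_mul, Matrix.smul_mul, q1, smul_zero, add_zero]

lemma T_mem (h : Two P1 P2 N1 N2) : (fun z => h.T z) ∈ entGroup Lau := by
  have hpow : ∀ (g : ℂˣ → ℂ), g ∈ Lau → ∀ N : ℕ, ∀ P : Mat r,
      MatMem Lau fun z => 1 + (g z ^ N - 1) • P := fun g hg N P =>
    (MatMem.const Lau 1).add (MatMem.smul (f := fun z => g z ^ N - 1)
      (sub_mem (pow_mem hg N) (one_mem _)) (MatMem.const Lau P))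
  exact fun i j => ((hpow _ (Algebra.subset_adjoin (Set.mem_insert _ _)) N2 P1).mul
    (hpow _ (Algebra.subset_adjoin (Set.mem_insert_of_mem _ rfl)) N1 P2)) i j

end Two

/-- Equal commutators and conjugators give equal relations. -/
lemma R_congr (C : Fin s → SL r) {q q' : Idx 1 k s → SL r}
    (h0 : ⁅q' iA, q' iB⁆ = ⁅q iA, q iB⁆)
    (h1 : ∀ i : Fin k, ⁅q' (Sum.inr (Sum.inl (i, false))), q' (Sum.inr (Sum.inl (i, true)))⁆ =
      ⁅q (Sum.inr (Sum.inl (i, false))), q (Sum.inr (Sum.inl (i, true)))⁆)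
    (h2 : ∀ j, q' (Sum.inr (Sum.inr j)) = q (Sum.inr (Sum.inr j))) : R C q' = R C q := by
  rw [R_split, R_split, h0]
  congr 1
  simp only [relR, rel, evR, Function.comp_apply, Sum.elim_inl, Sum.elim_inr, h1, h2]

lemma comm_mul_left {G : Type*} [Group G] {a b t : G} (h : Commute t b) :
    ⁅a * t, b⁆ = ⁅a, b⁆ := by
  simp only [commutatorElement_def]
  calc a * t * b * (a * t)⁻¹ * b⁻¹ = a * (t * b) * (a * t)⁻¹ * b⁻¹ := by group
    _ = a * (b * t) * (a * t)⁻¹ * b⁻¹ := by rw [h.eq]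
    _ = _ := by group

lemma comm_mul_right_pow {G : Type*} [Group G] (a b : G) (n : ℕ) :
    ⁅a, b * a ^ n⁆ = ⁅a, b⁆ := by
  simp only [commutatorElement_def]
  group

lemma commute_SL {A B : SL r} (h : Commute A.1 B.1) : Commute A B := Subtype.ext h.eq

lemma evC_update_inl (C : Fin s → SL r) (q : Idx 1 k s → SL r) (x : Gens 1) (v : SL r) :
    evC C (Function.update q (Sum.inl x) v) = Function.update (evC C q) (Sum.inl x) v := by
  funext y
  rcases y with y | y | j
  · by_cases h : y = x <;> simp [evC, h]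
  · rw [Function.update_of_ne (by simp)]
    show Function.update q (Sum.inl x) v (Sum.inr (Sum.inl y)) = q (Sum.inr (Sum.inl y))
    rw [Function.update_of_ne (by simp)]
  · rw [Function.update_of_ne (by simp)]
    show Function.update q (Sum.inl x) v (Sum.inr (Sum.inr j)) * C j *
      (Function.update q (Sum.inl x) v (Sum.inr (Sum.inr j)))⁻¹ = _
    rw [Function.update_of_ne (by simp)]
    rfl

lemma evC_update_hand (C : Fin s → SL r) (q : Idx 1 k s → SL r) (x : Gens k) (v : SL r) :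
    evC C (Function.update q (Sum.inr (Sum.inl x)) v) =
      Function.update (evC C q) (Sum.inr (Sum.inl x)) v := by
  funext y
  rcases y with y | y | j
  · rw [Function.update_of_ne (by simp)]
    show Function.update q (Sum.inr (Sum.inl x)) v (Sum.inl y) = q (Sum.inl y)
    rw [Function.update_of_ne (by simp)]
  · show Function.update q (Sum.inr (Sum.inl x)) v (Sum.inr (Sum.inl y)) = _
    by_cases h : y = x
    · subst h; rw [Function.update_self, Function.update_self]
    · rw [Function.update_of_ne (by simp [h]), Function.update_of_ne (by simp [h])]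
      rfl
  · rw [Function.update_of_ne (by simp)]
    show Function.update q (Sum.inr (Sum.inl x)) v (Sum.inr (Sum.inr j)) * C j *
      (Function.update q (Sum.inr (Sum.inl x)) v (Sum.inr (Sum.inr j)))⁻¹ = _
    rw [Function.update_of_ne (by simp)]
    rfl

/-- Twisting one value by an element that is scalar on each block. -/
lemma twist_dec {Y : Idx 1 k s → SL r} {m : ℕ} {P : Fin m → Mat r} (hD : Dec Y P) (hI : Irr Y P)
    (x : Idx 1 k s) {T : SL r} (hTc : ∀ i, Commute T.1 (P i))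
    (hT : ∀ i, ∃ c : ℂ, T.1 * P i = c • P i) :
    Dec (Function.update Y x (Y x * T)) P ∧ Irr (Function.update Y x (Y x * T)) P := by
  refine ⟨⟨hD.idem, hD.orth, hD.sum, hD.ne, fun i y => ?_⟩, fun i W hW hinv => hI i W hW fun y => ?_⟩
  · by_cases h : y = x
    · subst h
      rw [Function.update_self]
      exact (hD.comm i y).mul_left (hTc i)
    · rw [Function.update_of_ne h]
      exact hD.comm i y
  · have := hinv y
    by_cases h : y = x
    · subst h
      rw [Function.update_self] at this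
      refine ((St W).mul_mem_cancel_right ?_).1 this
      intro v hv
      obtain ⟨c, hc⟩ := hT i
      rw [← show P i *ᵥ v = v from hW hv, Matrix.mulVec_mulVec, hc, Matrix.smul_mulVec]
      exact W.smul_mem c (by rwa [show P i *ᵥ v = v from hW hv])
    · rwa [Function.update_of_ne h] at this

lemma pow_mul_idem {A P : Mat r} {a : ℂ} (hP : P * P = P) (hA : A * P = a • P) :
    ∀ n : ℕ, A ^ n * P = a ^ n • P
  | 0 => by simp
  | n + 1 => by
    rw [pow_succ', Matrix.mul_assoc, pow_mul_idem hP hA n, Matrix.mul_smul, hA, smul_smul, pow_succ]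

lemma aeval_block {A B P : Mat r} (hA : A * P = B * P) (hc' : Commute B P)
    (f : ℂ[X]) : aeval A f * P = aeval B f * P := by
  induction f using Polynomial.induction_on with
  | C a => simp
  | add p q hp hq => simp [add_mul, hp, hq]
  | monomial n a hn =>
    rw [pow_succ, ← mul_assoc, map_mul (aeval A) (C a * X ^ n), map_mul (aeval B) (C a * X ^ n),
      aeval_X, aeval_X, Matrix.mul_assoc, hA, hc'.eq,
      ← Matrix.mul_assoc, hn, Matrix.mul_assoc, ← hc'.eq, ← Matrix.mul_assoc]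

/-- The number of excluded parameters is finite. -/
lemma exists_many {R₀ : Finset ℂ} {N : ℕ} (hN : 0 < N) (B : ℕ) :
    ∃ S : Finset ℂ, B < S.card ∧ ∀ x ∈ S, ∃ u : ℂˣ, (u : ℂ) = x ∧ (u : ℂ) ^ N ∉ R₀ := by
  classical
  let f : ℕ → ℂ := fun n => ((n : ℂ) + 1)
  have hf : Function.Injective f := fun a b h => by simpa [f] using h
  have hf' : Function.Injective fun n => f n ^ N := fun a b h => by
    have h' : (a + 1) ^ N = (b + 1) ^ N := by
      have e : ((((a + 1) ^ N : ℕ)) : ℂ) = (((b + 1) ^ N : ℕ) : ℂ) := by push_cast; exact h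
      exact_mod_cast e
    simpa using Nat.pow_left_injective hN.ne' h'
  let bad := R₀.preimage _ hf'.injOn
  refine ⟨((Finset.range (B + 1 + bad.card)) \ bad).image f, ?_, ?_⟩
  · rw [Finset.card_image_of_injective _ hf]
    have := Finset.le_card_sdiff bad (Finset.range (B + 1 + bad.card))
    rw [Finset.card_range] at this
    omega
  · intro x hx
    obtain ⟨n, hn, rfl⟩ := Finset.mem_image.1 hx
    rw [Finset.mem_sdiff, Finset.mem_preimage] at hn
    exact ⟨Units.mk0 _ (Nat.cast_add_one_ne_zero n), rfl, hn.2⟩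

/-- For all but finitely many twists two blocks are separated by a polynomial. -/
lemma exists_sep {P1 P2 : Mat r} {N1 N2 : ℕ} (h : Two P1 P2 N1 N2) (M : SL r)
    (h1 : Commute M.1 P1) (h2 : Commute M.1 P2) :
    ∃ R₀ : Finset ℂ, ∀ z : ℂˣ, (z : ℂ) ^ (N2 + N1) ∉ R₀ →
      ∃ f : ℂ[X], aeval (M * h.T z).1 f * (P1 + P2) = P1 := by
  classical
  refine ⟨(spec M.1 ×ˢ spec M.1).image fun p => p.2 / p.1, fun z hz => ?_⟩
  set a : ℂ := (z : ℂ) ^ N2
  set b : ℂ := ((z⁻¹ : ℂˣ) : ℂ) ^ N1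
  have ha : a ≠ 0 := pow_ne_zero _ z.ne_zero
  have hb : b ≠ 0 := pow_ne_zero _ (Units.ne_zero _)
  have hroot : ∀ c : ℂ, c ≠ 0 → ∀ μ, (c • M.1).charpoly.IsRoot μ → μ / c ∈ spec M.1 := by
    intro c hc μ hμ
    obtain ⟨x, hx0, hx⟩ := exists_eigvec (spec_iff.2 hμ)
    rw [spec_iff, Polynomial.IsRoot.def, Matrix.eval_charpoly]
    refine Matrix.exists_mulVec_eq_zero_iff.1 ⟨x, hx0, ?_⟩
    rw [Matrix.smul_mulVec] at hx
    rw [Matrix.sub_mulVec, Matrix.scalar_apply, ← Matrix.smul_one_eq_diagonal, Matrix.smul_mulVec,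
      Matrix.one_mulVec, sub_eq_zero, div_eq_inv_mul, ← smul_smul, ← hx, smul_smul,
      inv_mul_cancel₀ hc, one_smul]
  obtain ⟨u, v, huv⟩ : IsCoprime (a • M.1).charpoly (b • M.1).charpoly := by
    refine (Polynomial.isCoprime_iff_aeval_ne_zero_of_isAlgClosed ℂ ℂ _ _).2 fun μ => ?_
    by_contra hcon
    rw [not_or, not_not, not_not] at hcon
    simp only [Polynomial.coe_aeval_eq_eval] at hcon
    have e1 := hroot a ha μ hcon.1
    have e2 := hroot b hb μ hcon.2
    refine hz (Finset.mem_image.2 ⟨(μ / a, μ / b), Finset.mem_product.2 ⟨e1, e2⟩, ?_⟩)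
    have hμ : μ ≠ 0 := by
      rintro rfl
      rw [zero_div] at e1
      obtain ⟨x, hx0, hx⟩ := exists_eigvec e1
      rw [zero_smul] at hx
      refine hx0 ?_
      rw [← Matrix.one_mulVec x, ← val_inv_mul M, ← Matrix.mulVec_mulVec, hx, Matrix.mulVec_zero]
    have hab : b * (z : ℂ) ^ N1 = 1 := by
      simp only [b]; rw [← mul_pow, ← Units.val_mul, inv_mul_cancel, Units.val_one, one_pow]
    show μ / b / (μ / a) = (z : ℂ) ^ (N2 + N1)
    rw [pow_add]
    field_simp
    linear_combination (-a) * hab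
  refine ⟨v * (b • M.1).charpoly, ?_⟩
  have e1 : (M * h.T z).1 * P1 = (a • M.1) * P1 := by
    show M.1 * (h.T z).1 * P1 = _
    rw [Matrix.mul_assoc, h.T_left, Matrix.mul_smul, Matrix.smul_mul]
  have e2 : (M * h.T z).1 * P2 = (b • M.1) * P2 := by
    show M.1 * (h.T z).1 * P2 = _
    rw [Matrix.mul_assoc, h.T_right, Matrix.mul_smul, Matrix.smul_mul]
  rw [mul_add, aeval_block e1 (h1.smul_left a), aeval_block e2 (h2.smul_left b)]
  have k1 : aeval (b • M.1) (v * (b • M.1).charpoly) = 0 := by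
    rw [map_mul, Matrix.aeval_self_charpoly, mul_zero]
  have k2 : aeval (a • M.1) (v * (b • M.1).charpoly) = 1 := by
    have := congrArg (aeval (a • M.1)) huv
    rw [map_add, map_mul (aeval (a • M.1)) u, Matrix.aeval_self_charpoly, mul_zero, zero_add,
      map_one] at this
    exact this
  rw [k1, k2, one_mul, zero_mul, add_zero]

/-- Right and left eigenvectors in a block with the same eigenvalue. -/
lemma exists_pair {P : Mat r} (hP : P * P = P) (h0 : P ≠ 0) (M : SL r) (hc : Commute M.1 P) :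
    ∃ (μ : ℂ) (u φ : Fin r → ℂ), μ ≠ 0 ∧ u ≠ 0 ∧ φ ≠ 0 ∧ P *ᵥ u = u ∧ M.1 *ᵥ u = μ • u ∧
      φ ᵥ* P = φ ∧ φ ᵥ* M.1 = μ • φ := by
  have hinv : ∀ v ∈ rg P, M.1 *ᵥ v ∈ rg P := fun v hv => by
    rw [mem_rg, Matrix.mulVec_mulVec, ← hc.eq, ← Matrix.mulVec_mulVec, mem_rg.1 hv]
  have : Nontrivial (rg P) := by
    refine Submodule.nontrivial_iff_ne_bot.2 fun e => h0 ?_
    refine Matrix.toLin'.injective (LinearMap.ext fun v => ?_)
    have : P *ᵥ v ∈ rg P := by rw [mem_rg, Matrix.mulVec_mulVec, hP]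
    rw [e, Submodule.mem_bot] at this
    simpa using this
  obtain ⟨μ, hμ⟩ :=
    Module.End.exists_eigenvalue ((Matrix.toLin' M.1).restrict (p := rg P) (q := rg P) hinv)
  obtain ⟨⟨u, hu⟩, hu1, hu0⟩ := hμ.exists_hasEigenvector
  have hMu : M.1 *ᵥ u = μ • u := congrArg Subtype.val (Module.End.mem_eigenspace_iff.1 hu1)
  have hu0' : u ≠ 0 := fun e => hu0 (Subtype.ext e)
  have hμ0 : μ ≠ 0 := by
    rintro rfl
    rw [zero_smul] at hMu
    exact hu0' (by rw [← Matrix.one_mulVec u, ← val_inv_mul M, ← Matrix.mulVec_mulVec, hMu,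
      Matrix.mulVec_zero])
  let N : Mat r := (M.1 - μ • 1) * P + (1 - P)
  have hN : N.det = 0 := Matrix.exists_mulVec_eq_zero_iff.1 ⟨u, hu0', by
    simp [N, Matrix.add_mulVec, Matrix.sub_mulVec, ← Matrix.mulVec_mulVec, mem_rg.1 hu, hMu,
      Matrix.smul_mulVec]⟩
  obtain ⟨φ, hφ0, hφ⟩ := Matrix.exists_vecMul_eq_zero_iff.2 hN
  have hφP : φ ᵥ* P = φ := by
    have e : N * (1 - P) = 1 - P := by
      simp only [N, add_mul, Matrix.mul_assoc]
      rw [mul_sub, mul_one, hP, sub_self, mul_zero, zero_add, sub_mul, one_mul, mul_sub, mul_one,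
        hP, sub_self, sub_zero]
    have := congrArg (φ ᵥ* ·) e
    simp only [← Matrix.vecMul_vecMul, hφ, Matrix.zero_vecMul, Matrix.vecMul_sub,
      Matrix.vecMul_one, sub_self] at this
    exact (sub_eq_zero.1 this.symm).symm
  refine ⟨μ, u, φ, hμ0, hu0', hφ0, hu, hMu, hφP, ?_⟩
  have e : N * P = P * (M.1 - μ • 1) := by
    simp only [N, add_mul, Matrix.mul_assoc, hP]
    rw [sub_mul 1 P P, one_mul, hP, sub_self, add_zero,
      (hc.sub_left ((Commute.one_left P).smul_left μ)).eq]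
  have := congrArg (φ ᵥ* ·) e
  simp only [← Matrix.vecMul_vecMul, hφ, Matrix.zero_vecMul, hφP, Matrix.vecMul_sub] at this
  rw [Matrix.vecMul_smul, Matrix.vecMul_one] at this
  exact sub_eq_zero.1 this.symm

lemma det_one_add_smul_vmv (c : ℂ) {u φ : Fin r → ℂ} (h : φ ⬝ᵥ u = 0) :
    (1 + c • Matrix.vecMulVec u φ).det = 1 := by
  rw [← Matrix.smul_vecMulVec, Matrix.vecMulVec_eq (Fin 1),
    Matrix.det_one_add_replicateCol_mul_replicateRow, dotProduct_smul, h, smul_zero, add_zero]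

/-- The mixing matrix. -/
noncomputable def mix (u1 u2 φ1 φ2 : Fin r → ℂ) (t : ℂ) : Mat r :=
  (1 + t • Matrix.vecMulVec u1 φ2) * (1 + t • Matrix.vecMulVec u2 φ1)

/-- Eigenvector pairs in two blocks with a common eigenvalue of `M`. -/
structure Pair (P1 P2 M : Mat r) (u1 u2 φ1 φ2 : Fin r → ℂ) (l : ℂ) : Prop where
  h12 : P1 * P2 = 0
  h21 : P2 * P1 = 0
  p1 : P1 *ᵥ u1 = u1
  p2 : P2 *ᵥ u2 = u2
  q1 : φ1 ᵥ* P1 = φ1
  q2 : φ2 ᵥ* P2 = φ2
  m1 : M *ᵥ u1 = l • u1
  m2 : M *ᵥ u2 = l • u2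
  n1 : φ1 ᵥ* M = l • φ1
  n2 : φ2 ᵥ* M = l • φ2

namespace Pair

variable {P1 P2 M : Mat r} {u1 u2 φ1 φ2 : Fin r → ℂ} {l : ℂ}

lemma dot21 (h : Pair P1 P2 M u1 u2 φ1 φ2 l) : φ2 ⬝ᵥ u1 = 0 := by
  rw [← h.q2, ← Matrix.dotProduct_mulVec, ← h.p1, Matrix.mulVec_mulVec, h.h21, Matrix.zero_mulVec,
    dotProduct_zero]

lemma dot12 (h : Pair P1 P2 M u1 u2 φ1 φ2 l) : φ1 ⬝ᵥ u2 = 0 := by
  rw [← h.q1, ← Matrix.dotProduct_mulVec, ← h.p2, Matrix.mulVec_mulVec, h.h12, Matrix.zero_mulVec,
    dotProduct_zero]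

/-- The mixing element. -/
noncomputable def H (h : Pair P1 P2 M u1 u2 φ1 φ2 l) (t : ℂ) : SL r :=
  ⟨mix u1 u2 φ1 φ2 t, by
    rw [mix, Matrix.det_mul, det_one_add_smul_vmv t h.dot21, det_one_add_smul_vmv t h.dot12,
      one_mul]⟩

lemma H_zero (h : Pair P1 P2 M u1 u2 φ1 φ2 l) : h.H 0 = 1 :=
  Subtype.ext (by simp [H, mix])

lemma H_val (h : Pair P1 P2 M u1 u2 φ1 φ2 l) (t : ℂ) : (h.H t).1 = mix u1 u2 φ1 φ2 t := rfl

lemma H_mulVec (h : Pair P1 P2 M u1 u2 φ1 φ2 l) (t : ℂ) (v : Fin r → ℂ) :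
    (h.H t).1 *ᵥ v = v + (t * (φ1 ⬝ᵥ v)) • u2 +
      (t * (φ2 ⬝ᵥ v) + t * (t * (φ1 ⬝ᵥ v)) * (φ2 ⬝ᵥ u2)) • u1 := by
  rw [H_val, mix, ← Matrix.mulVec_mulVec]
  simp only [Matrix.add_mulVec, Matrix.one_mulVec, Matrix.smul_mulVec, Matrix.vecMulVec_mulVec,
    op_smul_eq_smul, smul_smul, dotProduct_add, dotProduct_smul, smul_eq_mul]
  rw [add_assoc]
  module

lemma H_commute (h : Pair P1 P2 M u1 u2 φ1 φ2 l) (t : ℂ) : Commute M (h.H t).1 := by
  have hv : ∀ {u φ : Fin r → ℂ}, M *ᵥ u = l • u → φ ᵥ* M = l • φ →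
      Commute M (Matrix.vecMulVec u φ) := fun hu hφ => by
    rw [commute_iff_eq, Matrix.mul_vecMulVec, hu, Matrix.vecMulVec_mul, hφ, Matrix.smul_vecMulVec,
      Matrix.vecMulVec_smul]
  exact ((Commute.one_right M).add_right ((hv h.m1 h.n2).smul_right t)).mul_right
    ((Commute.one_right M).add_right ((hv h.m2 h.n1).smul_right t))

lemma H_commute_of (h : Pair P1 P2 M u1 u2 φ1 φ2 l) (t : ℂ) {Q : Mat r} {c : ℂ}
    (a1 : Q *ᵥ u1 = c • u1) (a2 : Q *ᵥ u2 = c • u2) (b1 : φ1 ᵥ* Q = c • φ1)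
    (b2 : φ2 ᵥ* Q = c • φ2) : Commute Q (h.H t).1 := by
  have hv : ∀ {u φ : Fin r → ℂ}, Q *ᵥ u = c • u → φ ᵥ* Q = c • φ →
      Commute Q (Matrix.vecMulVec u φ) := fun hu hφ => by
    rw [commute_iff_eq, Matrix.mul_vecMulVec, hu, Matrix.vecMulVec_mul, hφ, Matrix.smul_vecMulVec,
      Matrix.vecMulVec_smul]
  exact ((Commute.one_right Q).add_right ((hv a1 b2).smul_right t)).mul_right
    ((Commute.one_right Q).add_right ((hv a2 b1).smul_right t))

lemma H_mem (h : Pair P1 P2 M u1 u2 φ1 φ2 l) :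
    (fun t => h.H t) ∈ entGroup (Algebra.adjoin ℂ {(id : ℂ → ℂ)}) := by
  have hl : ∀ V : Mat r, MatMem (Algebra.adjoin ℂ {(id : ℂ → ℂ)}) fun t => 1 + t • V := fun V =>
    (MatMem.const _ 1).add (MatMem.smul (f := fun t : ℂ => t) polyLine_id (MatMem.const _ V))
  exact fun i j => ((hl (Matrix.vecMulVec u1 φ2)).mul (hl (Matrix.vecMulVec u2 φ1))) i j

end Pair

lemma two_of_dec {Y : Idx 1 k s → SL r} {m : ℕ} {P : Fin (m + 2) → Mat r} (hD : Dec Y P) :
    ∃ N1 N2 : ℕ, 0 < N2 + N1 ∧ Two (P 0) (P 1) N1 N2 := by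
  obtain ⟨N1, hN1, hN10⟩ := trace_idem (hD.idem 0)
  obtain ⟨N2, hN2, -⟩ := trace_idem (hD.idem 1)
  have : N1 ≠ 0 := fun e => hD.ne 0 (hN10 e)
  exact ⟨N1, N2, by omega, hD.idem 0, hD.idem 1, hD.orth 0 1 (by simp), hD.orth 1 0 (by simp),
    hN1, hN2⟩

lemma scalar_blocks {Y : Idx 1 k s → SL r} {m : ℕ} {P : Fin (m + 2) → Mat r} (hD : Dec Y P)
    {N1 N2 : ℕ} (h : Two (P 0) (P 1) N1 N2) (z : ℂˣ) :
    (∀ i, Commute (h.T z).1 (P i)) ∧ ∀ i, ∃ c : ℂ, (h.T z).1 * P i = c • P i := by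
  refine ⟨fun i => (h.T_commute z ?_ ?_).symm, fun i => ?_⟩
  · rcases eq_or_ne i 0 with rfl | hi
    · exact Commute.refl _
    · rw [commute_iff_eq, hD.orth i 0 hi, hD.orth 0 i hi.symm]
  · rcases eq_or_ne i 1 with rfl | hi
    · exact Commute.refl _
    · rw [commute_iff_eq, hD.orth i 1 hi, hD.orth 1 i hi.symm]
  · rcases eq_or_ne i 0 with rfl | hi
    · exact ⟨_, h.T_left z⟩
    rcases eq_or_ne i 1 with rfl | hi'
    · exact ⟨_, h.T_right z⟩
    exact ⟨1, by rw [h.T_other z (hD.orth 0 i hi.symm) (hD.orth 1 i hi'.symm), one_smul]⟩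

/-- Merging of two blocks with a shared eigenvalue. -/
lemma merge_step {C : Fin s → SL r} {m : ℕ} {q : Idx 1 k s → SL r} (hq : R C q = 1)
    {P : Fin (m + 2) → Mat r} (hD : Dec (evC C q) P) (hI : Irr (evC C q) P) (i0 : Fin k)
    {f : ℂ[X]} (hf : aeval (q (Sum.inr (Sum.inl (i0, false)))).1 f * (P 0 + P 1) = P 0)
    (n : ℕ) {u1 u2 φ1 φ2 : Fin r → ℂ} {l : ℂ}
    (h : Pair (P 0) (P 1) (q iB * q iA ^ n).1 u1 u2 φ1 φ2 l)
    (hu1 : u1 ≠ 0) (hu2 : u2 ≠ 0) (hφ1 : φ1 ≠ 0) (hφ2 : φ2 ≠ 0) {F : (Idx 1 k s → SL r) → ℂ}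
    (hF : F ∈ PolyFun (Idx 1 k s) r)
    (ih : ∀ (q' : Idx 1 k s → SL r) (P' : Fin (m + 1) → Mat r), R C q' = 1 →
      Dec (evC C q') P' → Irr (evC C q') P' → F q' = 0) : F q = 0 := by
  set a := q iA with had
  set M := q iB * a ^ n with hMd
  let A : ℂ → SL r := fun t => a * h.H t
  let B : ℂ → SL r := fun t => M * ((A t) ^ n)⁻¹
  let Φ : ℂ → Idx 1 k s → SL r := fun t => Function.update (Function.update q iA (A t)) iB (B t)
  let S : Subalgebra ℂ (ℂ → ℂ) := Algebra.adjoin ℂ {(id : ℂ → ℂ)}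
  have hne : (iB : Idx 1 k s) ≠ iA := by simp
  have hA : ∀ t, Φ t iA = A t := fun t => by simp [Φ, hne.symm]
  have hB : ∀ t, Φ t iB = B t := fun t => by simp [Φ]
  have hoth : ∀ t x, x ≠ iA → x ≠ iB → Φ t x = q x := fun t x h1 h2 => by simp [Φ, h1, h2]
  have hΦ : ∀ x, (fun t => Φ t x) ∈ entGroup S := by
    intro x
    have hAm : (fun t => A t) ∈ entGroup S := (entGroup S).mul_mem (const_mem S a) h.H_mem
    by_cases h1 : x = iB
    · subst h1
      simp only [hB]
      exact (entGroup S).mul_mem (const_mem S M) ((entGroup S).inv_mem ((entGroup S).pow_mem hAm n))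
    by_cases h2 : x = iA
    · subst h2
      simp only [hA]
      exact hAm
    simp only [hoth _ x h2 h1]
    exact const_mem S (q x)
  have hΦ0 : Φ 0 = q := by
    funext x
    by_cases h1 : x = iB
    · subst h1
      rw [hB]
      simp [B, A, h.H_zero, hMd, mul_assoc]
    by_cases h2 : x = iA
    · subst h2
      rw [hA]
      simp [A, h.H_zero, had]
    exact hoth 0 x h2 h1
  have hR : ∀ t, R C (Φ t) = 1 := by
    intro t
    rw [← hq]
    refine R_congr C ?_ (fun i => ?_) fun j => hoth t _ (by simp) (by simp)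
    · rw [hA, hB, show B t = M * (A t ^ n)⁻¹ from rfl]
      have e : ⁅A t, M * (A t ^ n)⁻¹⁆ = ⁅A t, M⁆ := by
        have := comm_mul_right_pow (A t) (M * (A t ^ n)⁻¹) n
        rwa [inv_mul_cancel_right, eq_comm] at this
      rw [e, comm_mul_left (commute_SL (h.H_commute t)).symm, comm_mul_right_pow]
    · rw [hoth t _ (by simp) (by simp), hoth t _ (by simp) (by simp)]
  have hY : ∀ t, evC C (Φ t) = Function.update (Function.update (evC C q) iA (A t)) iB (B t) :=
    fun t => by simp only [Φ, evC_update_inl]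
  -- the new blocks
  let P' : Fin (m + 1) → Mat r := Fin.cons (P 0 + P 1) fun i => P i.succ.succ
  have hne0 : ∀ i : Fin m, i.succ.succ ≠ (0 : Fin (m + 2)) := fun i => Fin.succ_ne_zero _
  have hne1 : ∀ i : Fin m, i.succ.succ ≠ (1 : Fin (m + 2)) := fun i => by
    rw [← Fin.succ_zero_eq_one]
    exact fun e => Fin.succ_ne_zero i (Fin.succ_injective _ e)
  have hP'0 : P' 0 = P 0 + P 1 := rfl
  have hP's : ∀ i : Fin m, P' i.succ = P i.succ.succ := fun i => Fin.cons_succ _ _ i
  have hP'H : ∀ t i, Commute (h.H t).1 (P' i) := by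
    intro t i
    refine Fin.cases ?_ (fun i => ?_) i
    · rw [hP'0]
      refine (h.H_commute_of t (c := 1) ?_ ?_ ?_ ?_).symm
      · rw [Matrix.add_mulVec, h.p1, ← h.p1, Matrix.mulVec_mulVec, h.h21, Matrix.zero_mulVec,
          add_zero, h.p1, one_smul]
      · rw [Matrix.add_mulVec, h.p2, ← h.p2, Matrix.mulVec_mulVec, h.h12, Matrix.zero_mulVec,
          zero_add, h.p2, one_smul]
      · rw [Matrix.vecMul_add, h.q1, ← h.q1, Matrix.vecMul_vecMul, h.h12, Matrix.vecMul_zero,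
          add_zero, h.q1, one_smul]
      · rw [Matrix.vecMul_add, h.q2, ← h.q2, Matrix.vecMul_vecMul, h.h21, Matrix.vecMul_zero,
          zero_add, h.q2, one_smul]
    · rw [hP's]
      refine (h.H_commute_of t (c := 0) ?_ ?_ ?_ ?_).symm
      · rw [← h.p1, Matrix.mulVec_mulVec, hD.orth _ _ (hne0 i), Matrix.zero_mulVec, zero_smul]
      · rw [← h.p2, Matrix.mulVec_mulVec, hD.orth _ _ (hne1 i), Matrix.zero_mulVec, zero_smul]
      · rw [← h.q1, Matrix.vecMul_vecMul, hD.orth _ _ (hne0 i).symm, Matrix.vecMul_zero, zero_smul]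
      · rw [← h.q2, Matrix.vecMul_vecMul, hD.orth _ _ (hne1 i).symm, Matrix.vecMul_zero, zero_smul]
  have hP'c : ∀ i x, Commute (evC C q x).1 (P' i) := by
    intro i x
    refine Fin.cases ?_ (fun i => ?_) i
    · rw [hP'0]; exact (hD.comm 0 x).add_right (hD.comm 1 x)
    · rw [hP's]; exact hD.comm _ x
  have hdec : ∀ t, Dec (evC C (Φ t)) P' := by
    intro t
    refine ⟨fun i => ?_, fun i j hij => ?_, ?_, fun i => ?_, fun i x => ?_⟩
    · refine Fin.cases ?_ (fun i => ?_) i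
      · rw [hP'0]; simp [add_mul, mul_add, hD.idem, h.h12, h.h21]
      · rw [hP's]; exact hD.idem _
    · revert hij
      refine Fin.cases ?_ (fun i => ?_) i <;> refine Fin.cases ?_ (fun j => ?_) j <;> intro hij
      · exact absurd rfl hij
      · rw [hP'0, hP's, add_mul, hD.orth _ _ (hne0 j).symm, hD.orth _ _ (hne1 j).symm, add_zero]
      · rw [hP'0, hP's, mul_add, hD.orth _ _ (hne0 i), hD.orth _ _ (hne1 i), add_zero]
      · rw [hP's, hP's]
        exact hD.orth _ _ fun e => hij (by rw [Fin.succ_injective _ e])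
    · rw [← hD.sum, Fin.sum_univ_succ, Fin.sum_univ_succ (n := m + 1), Fin.sum_univ_succ]
      simp only [hP'0, hP's, Fin.succ_zero_eq_one, add_assoc]
    · refine Fin.cases ?_ (fun i => ?_) i
      · rw [hP'0]
        intro e
        refine hD.ne 0 ?_
        have := congrArg (P 0 * ·) e
        simpa [mul_add, hD.idem, h.h12] using this
      · rw [hP's]; exact hD.ne _
    · let K : Subgroup (SL r) :=
        { carrier := {X | Commute X.1 (P' i)}
          one_mem' := Commute.one_left _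
          mul_mem' := fun hX hY => Commute.mul_left hX hY
          inv_mem' := fun {X} hX => ad_eq_self_iff.1 (by
            conv_lhs => rw [← ad_eq_self_iff.2 hX, ad_ad_inv']) }
      have hcA : A t ∈ K := K.mul_mem (show a ∈ K from hP'c i iA) (hP'H t i)
      have hcB : B t ∈ K :=
        K.mul_mem (K.mul_mem (hP'c i iB) (K.pow_mem (hP'c i iA) n)) (K.inv_mem (K.pow_mem hcA n))
      rw [hY]
      by_cases h1 : x = iB
      · subst h1; rw [Function.update_self]; exact hcB
      by_cases h2 : x = iA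
      · subst h2; rw [Function.update_of_ne hne.symm, Function.update_self]; exact hcA
      rw [Function.update_of_ne h1, Function.update_of_ne h2]
      exact hP'c i x
  -- recovering the old generators on an invariant subspace
  have back : ∀ W : Submodule ℂ (Fin r → ℂ), a ∈ St W → M ∈ St W →
      (∀ x, x ≠ iA → x ≠ iB → evC C q x ∈ St W) → ∀ x, evC C q x ∈ St W := by
    intro W ha hM ho x
    by_cases h1 : x = iB
    · subst h1
      show q iB ∈ St W
      have : q iB = M * (a ^ n)⁻¹ := by simp [hMd]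
      rw [this]
      exact (St W).mul_mem hM ((St W).inv_mem ((St W).pow_mem ha n))
    by_cases h2 : x = iA
    · subst h2; exact ha
    exact ho x h2 h1
  have hirr : ∀ t, t ≠ 0 → Irr (evC C (Φ t)) P' := by
    intro t ht i W hW hinv
    have hAW : A t ∈ St W := by
      have := hinv iA
      rwa [hY, Function.update_of_ne hne.symm, Function.update_self] at this
    have hBW : B t ∈ St W := by
      have := hinv iB
      rwa [hY, Function.update_self] at this
    have hMW : M ∈ St W := by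
      have := (St W).mul_mem hBW ((St W).pow_mem hAW n)
      rwa [show B t = M * (A t ^ n)⁻¹ from rfl, inv_mul_cancel_right] at this
    have hoW : ∀ x, x ≠ iA → x ≠ iB → evC C q x ∈ St W := fun x h1 h2 => by
      have := hinv x
      rwa [hY, Function.update_of_ne h2, Function.update_of_ne h1] at this
    revert hW
    refine Fin.cases ?_ (fun i => ?_) i
    · intro hW
      rw [hP'0] at hW ⊢
      have hproj : ∀ v ∈ W, P 0 *ᵥ v ∈ W := fun v hv => by
        rw [← hf, ← Matrix.mulVec_mulVec, show (P 0 + P 1) *ᵥ v = v from hW hv]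
        exact aeval_mem (hoW (Sum.inr (Sum.inl (i0, false))) (by simp) (by simp)) f v hv
      have hsum : ∀ v ∈ W, P 0 *ᵥ v + P 1 *ᵥ v = v := fun v hv => by
        rw [← Matrix.add_mulVec]; exact hW hv
      have hproj1 : ∀ v ∈ W, P 1 *ᵥ v ∈ W := fun v hv => by
        rw [eq_sub_of_add_eq' (hsum v hv)]
        exact W.sub_mem hv (hproj v hv)
      set W1 := W ⊓ rg (P 0)
      set W2 := W ⊓ rg (P 1)
      have hcv : ∀ (i : Fin (m + 2)) (X : SL r), Commute X.1 (P i) → ∀ v ∈ rg (P i),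
          X.1 *ᵥ v ∈ rg (P i) := fun i X hX v hv => by
        rw [mem_rg, Matrix.mulVec_mulVec, ← hX.eq, ← Matrix.mulVec_mulVec, mem_rg.1 hv]
      have hMc : ∀ i, Commute M.1 (P i) := fun i =>
        (hD.comm i iB).mul_left (Subgroup.pow_mem
          { carrier := {X : SL r | Commute X.1 (P i)}
            one_mem' := Commute.one_left _
            mul_mem' := fun hX hY => Commute.mul_left hX hY
            inv_mem' := fun {X} hX => ad_eq_self_iff.1 (by
              conv_lhs => rw [← ad_eq_self_iff.2 hX, ad_ad_inv']) }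
          (hD.comm i iA) n)
      have hrest : ∀ (i : Fin (m + 2)), a ∈ St (W ⊓ rg (P i)) →
          ∀ x, evC C q x ∈ St (W ⊓ rg (P i)) := fun i ha => back _ ha
        (fun v hv => ⟨hMW v hv.1, hcv i M (hMc i) v hv.2⟩)
        fun x h1 h2 v hv => ⟨hoW x h1 h2 v hv.1, hcv i _ (hD.comm i x) v hv.2⟩
      have hAv : ∀ v, (A t).1 *ᵥ v = a.1 *ᵥ v + (t * (φ1 ⬝ᵥ v)) • (a.1 *ᵥ u2) +
          (t * (φ2 ⬝ᵥ v) + t * (t * (φ1 ⬝ᵥ v)) * (φ2 ⬝ᵥ u2)) • (a.1 *ᵥ u1) := fun v => by
        show (a.1 * (h.H t).1) *ᵥ v = _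
        rw [← Matrix.mulVec_mulVec, h.H_mulVec]
        simp [Matrix.mulVec_add, Matrix.mulVec_smul]
      have ha0 : ∀ v ∈ rg (P 0), P 0 *ᵥ (a.1 *ᵥ v) = a.1 *ᵥ v ∧ P 1 *ᵥ (a.1 *ᵥ v) = 0 :=
        fun v hv => by
          have := hcv 0 a (hD.comm 0 iA) v hv
          refine ⟨this, ?_⟩
          rw [← mem_rg.1 this, Matrix.mulVec_mulVec, h.h21, Matrix.zero_mulVec]
      have ha1 : ∀ v ∈ rg (P 1), P 1 *ᵥ (a.1 *ᵥ v) = a.1 *ᵥ v ∧ P 0 *ᵥ (a.1 *ᵥ v) = 0 :=
        fun v hv => by
          have := hcv 1 a (hD.comm 1 iA) v hv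
          refine ⟨this, ?_⟩
          rw [← mem_rg.1 this, Matrix.mulVec_mulVec, h.h12, Matrix.zero_mulVec]
      have hzero : ∀ v ∈ rg (P 1), φ1 ⬝ᵥ v = 0 := fun v hv => by
        rw [← h.q1, ← Matrix.dotProduct_mulVec, ← mem_rg.1 hv, Matrix.mulVec_mulVec, h.h12,
          Matrix.zero_mulVec, dotProduct_zero]
      have hzero' : ∀ v ∈ rg (P 0), φ2 ⬝ᵥ v = 0 := fun v hv => by
        rw [← h.q2, ← Matrix.dotProduct_mulVec, ← mem_rg.1 hv, Matrix.mulVec_mulVec, h.h21,
          Matrix.zero_mulVec, dotProduct_zero]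
      have hinj : ∀ v, a.1 *ᵥ v = 0 → v = 0 := fun v hv => by
        rw [← Matrix.one_mulVec v, ← val_inv_mul a, ← Matrix.mulVec_mulVec, hv, Matrix.mulVec_zero]
      have hW2 : a ∈ St W2 := fun v hv => by
        have h1 := hproj1 _ (hAW v hv.1)
        rw [hAv, hzero v hv.2] at h1
        simp only [mul_zero, zero_smul, add_zero, zero_mul, Matrix.mulVec_add, Matrix.mulVec_smul,
          (ha1 v hv.2).1, (ha0 u1 h.p1).2, smul_zero] at h1
        exact ⟨h1, (ha1 v hv.2).1⟩
      rcases hI 1 W2 inf_le_right (hrest 1 hW2) with e2 | e2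
      · left
        have hφW : ∀ v ∈ W1, φ1 ⬝ᵥ v = 0 := fun v hv => by
          have h1 : P 1 *ᵥ ((A t).1 *ᵥ v) ∈ W2 :=
            ⟨hproj1 _ (hAW v hv.1), proj_rg (hD.idem 1) _⟩
          rw [e2, Submodule.mem_bot, hAv] at h1
          simp only [Matrix.mulVec_add, Matrix.mulVec_smul, (ha0 v hv.2).2, (ha1 u2 h.p2).1,
            (ha0 u1 h.p1).2, smul_zero, zero_add, add_zero] at h1
          rcases smul_eq_zero.1 h1 with h2 | h2
          · exact (mul_eq_zero.1 h2).resolve_left ht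
          · exact absurd (hinj _ h2) hu2
        have hW1 : a ∈ St W1 := fun v hv => by
          have h1 := hAW v hv.1
          rw [hAv, hφW v hv, hzero' v hv.2] at h1
          simp only [mul_zero, zero_smul, add_zero, zero_mul] at h1
          exact ⟨h1, (ha0 v hv.2).1⟩
        rcases hI 0 W1 inf_le_right (hrest 0 hW1) with e1 | e1
        · refine (Submodule.eq_bot_iff W).2 fun v hv => ?_
          have h1 : P 0 *ᵥ v ∈ W1 := ⟨hproj v hv, proj_rg (hD.idem 0) v⟩
          have h2 : P 1 *ᵥ v ∈ W2 := ⟨hproj1 v hv, proj_rg (hD.idem 1) v⟩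
          rw [e1, Submodule.mem_bot] at h1
          rw [e2, Submodule.mem_bot] at h2
          rw [← hsum v hv, h1, h2, add_zero]
        · refine absurd ?_ hφ1
          refine funext fun j => ?_
          have := hφW (P 0 *ᵥ Pi.single j 1)
            (e1.symm ▸ (proj_rg (hD.idem 0) (Pi.single j 1)))
          rwa [Matrix.dotProduct_mulVec, h.q1, dotProduct_single, mul_one] at this
      · right
        obtain ⟨v, hv, hv0⟩ : ∃ v ∈ rg (P 1), φ2 ⬝ᵥ v ≠ 0 := by
          by_contra hno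
          push Not at hno
          refine hφ2 (funext fun j => ?_)
          have := hno (P 1 *ᵥ Pi.single j 1) (proj_rg (hD.idem 1) _)
          rwa [Matrix.dotProduct_mulVec, h.q2, dotProduct_single, mul_one] at this
        have hvW : v ∈ W2 := e2.symm ▸ hv
        have hau : a.1 *ᵥ u1 ∈ W1 := by
          refine ⟨?_, (ha0 u1 h.p1).1⟩
          have h1 := hproj _ (hAW v hvW.1)
          rw [hAv, hzero v hv] at h1
          simp only [mul_zero, zero_smul, add_zero, zero_mul, Matrix.mulVec_add, Matrix.mulVec_smul,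
            (ha1 v hv).2, (ha0 u1 h.p1).1, zero_add] at h1
          exact (Submodule.smul_mem_iff W (mul_ne_zero ht hv0)).1 h1
        have hW1 : a ∈ St W1 := fun w hw => by
          have h1 := hproj _ (hAW w hw.1)
          rw [hAv, hzero' w hw.2] at h1
          simp only [Matrix.mulVec_add, Matrix.mulVec_smul, (ha0 w hw.2).1, (ha1 u2 h.p2).2,
            (ha0 u1 h.p1).1, smul_zero, add_zero] at h1
          exact ⟨(W.add_mem_iff_left (W.smul_mem _ hau.1)).1 h1, (ha0 w hw.2).1⟩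
        rcases hI 0 W1 inf_le_right (hrest 0 hW1) with e1 | e1
        · exact absurd (hinj _ ((Submodule.eq_bot_iff _).1 e1 _ hau)) hu1
        · refine le_antisymm hW fun w hw => ?_
          rw [← show (P 0 + P 1) *ᵥ w = w from hw, Matrix.add_mulVec]
          refine W.add_mem ?_ ?_
          · exact (show P 0 *ᵥ w ∈ W1 from
              e1.symm ▸ (proj_rg (hD.idem 0) (w))).1
          · exact (show P 1 *ᵥ w ∈ W2 from
              e2.symm ▸ (proj_rg (hD.idem 1) (w))).1
    · intro hW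
      rw [hP's] at hW ⊢
      refine hI _ W hW (back W ?_ hMW hoW)
      have : h.H t ∈ St W := fun v hv => by
        have hz : ∀ {φ : Fin r → ℂ} {j : Fin (m + 2)}, φ ᵥ* P j = φ → j ≠ i.succ.succ →
            φ ⬝ᵥ v = 0 := fun hφ hj => by
          rw [← hφ, ← Matrix.dotProduct_mulVec, ← show P _ *ᵥ v = v from hW hv,
            Matrix.mulVec_mulVec, hD.orth _ _ hj, Matrix.zero_mulVec, dotProduct_zero]
        rw [h.H_mulVec, hz h.q1 (hne0 i).symm, hz h.q2 (hne1 i).symm]
        simpa using hv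
      exact ((St W).mul_mem_cancel_right this).1 hAW
  -- vanishing along the curve
  have hp : (fun t => F (Φ t)) ∈ S := polyFun_comp S Φ hΦ hF
  obtain ⟨p, hp'⟩ : ∃ p : ℂ[X], ∀ t, p.eval t = F (Φ t) := by
    simp only [S, Algebra.adjoin_singleton_eq_range_aeval] at hp
    obtain ⟨p, hp⟩ := hp
    refine ⟨p, fun t => ?_⟩
    rw [← congrFun hp t]
    clear hp
    induction p using Polynomial.induction_on' with
    | add a b ha hb =>
      rw [map_add, Pi.add_apply, ← ha, ← hb, Polynomial.eval_add]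
    | monomial n c => simp [Polynomial.eval_monomial]
  have hp0 : p = 0 := by
    refine Polynomial.eq_zero_of_infinite_isRoot p
      (Set.Infinite.mono ?_ (Set.finite_singleton (0 : ℂ)).infinite_compl)
    intro t ht
    show p.eval t = 0
    rw [hp']
    exact ih _ P' (hR t) (hdec t) (hirr t ht)
  rw [← hΦ0, ← hp', hp0, Polynomial.eval_zero]

/-- Two blocks can be merged. -/
lemma merge_two {C : Fin s → SL r} {m : ℕ} {q : Idx 1 k s → SL r} (hq : R C q = 1)
    {P : Fin (m + 2) → Mat r} (hD : Dec (evC C q) P) (hI : Irr (evC C q) P) (i0 : Fin k)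
    {f : ℂ[X]} (hf : aeval (q (Sum.inr (Sum.inl (i0, false)))).1 f * (P 0 + P 1) = P 0)
    {F : (Idx 1 k s → SL r) → ℂ} (hF : F ∈ PolyFun (Idx 1 k s) r)
    (ih : ∀ (q' : Idx 1 k s → SL r) (P' : Fin (m + 1) → Mat r), R C q' = 1 →
      Dec (evC C q') P' → Irr (evC C q') P' → F q' = 0) : F q = 0 := by
  classical
  obtain ⟨N1, N2, hN, h⟩ := two_of_dec hD
  let Φ : ℂˣ → Idx 1 k s → SL r := fun z => Function.update q iA (q iA * h.T z)
  have hΦ : ∀ x, (fun z => Φ z x) ∈ entGroup Lau := by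
    intro x
    by_cases hx : x = iA
    · subst hx
      simp only [Φ, Function.update_self]
      exact (entGroup Lau).mul_mem (const_mem Lau _) h.T_mem
    · simp only [Φ, Function.update_of_ne hx]
      exact const_mem Lau _
  have h1 : Φ 1 = q := by simp [Φ, h.T_one]
  rw [← h1]
  refine lau_zero (polyFun_comp Lau Φ hΦ hF) (fun D => ?_) 1
  -- a common eigenvalue of `b a ^ n`
  set n := D + 1
  set M := q iB * q iA ^ n with hMd
  have hMc : ∀ i, Commute M.1 (P i) := fun i => (hD.comm i iB).mul_left (by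
    rw [Matrix.SpecialLinearGroup.coe_pow]; exact (hD.comm i iA).pow_left n)
  obtain ⟨μ, u1, φ1, hμ, hu1, hφ1, pu1, Mu1, pφ1, Mφ1⟩ := exists_pair (hD.idem 0) (hD.ne 0) M (hMc 0)
  obtain ⟨ν, u2, φ2, hν, hu2, hφ2, pu2, Mu2, pφ2, Mφ2⟩ := exists_pair (hD.idem 1) (hD.ne 1) M (hMc 1)
  have hNn : 0 < (N2 + N1) * n := Nat.mul_pos hN (by omega)
  set S := ((Polynomial.X ^ ((N2 + N1) * n) - Polynomial.C (ν / μ) : ℂ[X])).roots.toFinset with hSd
  have hsep : (Polynomial.X ^ ((N2 + N1) * n) - Polynomial.C (ν / μ) : ℂ[X]).Separable :=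
    Polynomial.separable_X_pow_sub_C _ (by exact_mod_cast hNn.ne') (div_ne_zero hν hμ)
  refine ⟨S, ?_, fun x hx => ?_⟩
  · rw [hSd, Multiset.toFinset_card_of_nodup (Polynomial.nodup_roots hsep),
      IsAlgClosed.card_roots_eq_natDegree, Polynomial.natDegree_X_pow_sub_C]
    calc D < n := Nat.lt_succ_self D
      _ = 1 * n := (one_mul n).symm
      _ ≤ (N2 + N1) * n := Nat.mul_le_mul_right n hN
  rw [hSd, Multiset.mem_toFinset, Polynomial.mem_roots (Polynomial.X_pow_sub_C_ne_zero hNn _),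
    Polynomial.IsRoot.def, Polynomial.eval_sub, Polynomial.eval_pow, Polynomial.eval_X,
    Polynomial.eval_C, sub_eq_zero] at hx
  have hx0 : x ≠ 0 := by
    rintro rfl
    rw [zero_pow hNn.ne'] at hx
    exact div_ne_zero hν hμ hx.symm
  refine ⟨Units.mk0 x hx0, rfl, ?_⟩
  set z := Units.mk0 x hx0
  obtain ⟨hTc, hTs⟩ := scalar_blocks hD h z
  have hY : evC C (Φ z) = Function.update (evC C q) iA (evC C q iA * h.T z) := by
    simp only [Φ, evC_update_inl]
    rfl
  obtain ⟨hD', hI'⟩ := twist_dec hD hI iA hTc hTs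
  rw [← hY] at hD' hI'
  have hR : R C (Φ z) = 1 := by
    rw [← hq]
    refine R_congr C ?_ (fun i => by simp [Φ]) fun j => by simp [Φ]
    simp only [Φ, Function.update_self, Function.update_of_ne (show (iB : Idx 1 k s) ≠ iA by simp)]
    exact comm_mul_left (commute_SL
      (h.T_commute z (hD.comm 0 iB) (hD.comm 1 iB)).symm)
  set M' := Φ z iB * Φ z iA ^ n
  have hM' : M' = M * h.T z ^ n := by
    simp only [M', Φ, Function.update_self, hMd,
      Function.update_of_ne (show (iB : Idx 1 k s) ≠ iA by simp)]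
    have hc : Commute (q iA) (h.T z) := commute_SL (h.T_commute z (hD.comm 0 iA) (hD.comm 1 iA))
    rw [hc.mul_pow, mul_assoc]
  have hpow : ∀ {i} {c : ℂ}, (h.T z).1 * P i = c • P i → (h.T z ^ n).1 * P i = c ^ n • P i := by
    intro i c hc
    rw [Matrix.SpecialLinearGroup.coe_pow]
    exact pow_mul_idem (hD.idem i) hc n
  have key : ∀ {i : Fin (m + 2)} {c e : ℂ} {u φ : Fin r → ℂ}, (h.T z).1 * P i = c • P i →
      P i *ᵥ u = u → M.1 *ᵥ u = e • u → φ ᵥ* P i = φ → φ ᵥ* M.1 = e • φ →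
      M'.1 *ᵥ u = (c ^ n * e) • u ∧ φ ᵥ* M'.1 = (c ^ n * e) • φ := by
    intro i c e u φ hc hu hMu hφ hMφ
    have hTn := hpow hc
    have hTn' : Commute (h.T z ^ n).1 (P i) := by
      rw [Matrix.SpecialLinearGroup.coe_pow]; exact (hTc i).pow_left n
    rw [hM']
    constructor
    · show (M.1 * (h.T z ^ n).1) *ᵥ u = _
      rw [← hu, Matrix.mulVec_mulVec, Matrix.mul_assoc, hTn, Matrix.mul_smul, Matrix.smul_mulVec,
        ← Matrix.mulVec_mulVec, hu, hMu, smul_smul]
    · show φ ᵥ* (M.1 * (h.T z ^ n).1) = _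
      rw [← Matrix.vecMul_vecMul, hMφ, Matrix.smul_vecMul, ← hφ, Matrix.vecMul_vecMul, ← hTn'.eq,
        hTn, Matrix.vecMul_smul, hφ, smul_smul, mul_comm]
  obtain ⟨a1, b1⟩ := key (h.T_left z) pu1 Mu1 pφ1 Mφ1
  obtain ⟨a2, b2⟩ := key (h.T_right z) pu2 Mu2 pφ2 Mφ2
  have hl : ((((z⁻¹ : ℂˣ) : ℂ)) ^ N1) ^ n * ν = ((z : ℂ) ^ N2) ^ n * μ := by
    have e : ν = x ^ ((N2 + N1) * n) * μ := by rw [hx, div_mul_cancel₀ _ hμ]
    have e' : ((z⁻¹ : ℂˣ) : ℂ) * x = 1 := by
      rw [show x = (z : ℂ) from rfl, ← Units.val_mul, inv_mul_cancel, Units.val_one]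
    rw [e, show (z : ℂ) = x from rfl, ← pow_mul, ← pow_mul,
      show (N2 + N1) * n = N1 * n + N2 * n by ring, pow_add, ← mul_assoc, ← mul_assoc, ← mul_pow,
      e', one_pow, one_mul]
  rw [hl] at a2 b2
  refine merge_step hR hD' hI' i0 (f := f) (by simpa [Φ] using hf) n
    ⟨h.h12, h.h21, pu1, pu2, pφ1, pφ2, a1, a2, b1, b2⟩ hu1 hu2 hφ1 hφ2 hF ih

/-- Semisimple representations by induction on the number of blocks. -/
lemma merge_aux (hk : 1 ≤ k) (C : Fin s → SL r) {F : (Idx 1 k s → SL r) → ℂ}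
    (hF : F ∈ PolyFun (Idx 1 k s) r) (h : ∀ q, R C q = 1 → Schur (evC C q) → F q = 0) :
    ∀ (m : ℕ) (q : Idx 1 k s → SL r) (P : Fin m → Mat r), R C q = 1 → Dec (evC C q) P →
      Irr (evC C q) P → F q = 0 := by
  intro m
  induction m with
  | zero =>
    intro q P hq hD _
    refine h q hq fun ξ _ => ⟨0, ?_⟩
    have h01 : (0 : Mat r) = 1 := by simpa using hD.sum
    rw [zero_smul, ← mul_one ξ, ← h01, mul_zero]
  | succ m ih =>
    rcases m with _ | m
    · intro q P hq hD hI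
      have hP : P 0 = 1 := by simpa using hD.sum
      refine h q hq (schur_of_irr _ fun W hW => ?_)
      rcases hI 0 W (fun v _ => by rw [mem_rg, hP, Matrix.one_mulVec]) hW with e | e
      · exact Or.inl e
      · exact Or.inr (e.trans (eq_top_iff.2 fun v _ => by rw [mem_rg, hP, Matrix.one_mulVec]))
    intro q P hq hD hI
    obtain ⟨N1, N2, hN, ht⟩ := two_of_dec hD
    let i0 : Fin k := ⟨0, hk⟩
    let x0 : Idx 1 k s := Sum.inr (Sum.inl (i0, false))
    let Φ : ℂˣ → Idx 1 k s → SL r := fun w => Function.update q x0 (q x0 * ht.T w)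
    have hΦ : ∀ x, (fun w => Φ w x) ∈ entGroup Lau := by
      intro x
      by_cases hx : x = x0
      · subst hx
        simp only [Φ, Function.update_self]
        exact (entGroup Lau).mul_mem (const_mem Lau _) ht.T_mem
      · simp only [Φ, Function.update_of_ne hx]
        exact const_mem Lau _
    have h1 : Φ 1 = q := by simp [Φ, ht.T_one]
    rw [← h1]
    refine lau_zero (polyFun_comp Lau Φ hΦ hF) (fun B => ?_) 1
    obtain ⟨R₀, hR₀⟩ := exists_sep ht (q x0) (hD.comm 0 x0) (hD.comm 1 x0)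
    obtain ⟨S, hS, hS'⟩ := exists_many (R₀ := R₀) hN B
    refine ⟨S, hS, fun x hx => ?_⟩
    obtain ⟨w, hw, hw'⟩ := hS' x hx
    refine ⟨w, hw, ?_⟩
    obtain ⟨f, hf⟩ := hR₀ w hw'
    obtain ⟨hTc, hTs⟩ := scalar_blocks hD ht w
    have hY : evC C (Φ w) = Function.update (evC C q) x0 (evC C q x0 * ht.T w) := by
      simp only [Φ, x0, evC_update_hand]
      rfl
    obtain ⟨hD', hI'⟩ := twist_dec hD hI x0 hTc hTs
    rw [← hY] at hD' hI'
    have hR : R C (Φ w) = 1 := by
      rw [← hq]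
      refine R_congr C (by simp [Φ, x0]) (fun i => ?_) fun j => by simp [Φ, x0]
      by_cases hi : i = i0
      · subst hi
        simp only [Φ, x0, Function.update_self, Function.update_of_ne
          (show (Sum.inr (Sum.inl (i0, true)) : Idx 1 k s) ≠ Sum.inr (Sum.inl (i0, false)) by simp)]
        exact comm_mul_left (commute_SL (ht.T_commute w
          (hD.comm 0 (Sum.inr (Sum.inl (i0, true))))
          (hD.comm 1 (Sum.inr (Sum.inl (i0, true))))).symm)
      · simp [Φ, x0, hi]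
    exact merge_two hR hD' hI' i0 (f := f) (by simpa [Φ, x0] using hf) hF fun q' P' => ih q' P'

theorem merge_semisimple (hk : 1 ≤ k) (C : Fin s → SL r) {F : (Idx 1 k s → SL r) → ℂ}
    (hF : F ∈ PolyFun (Idx 1 k s) r)
    (h : ∀ q, R C q = 1 → Schur (evC C q) → F q = 0)
    {q : Idx 1 k s → SL r} (hq : R C q = 1) (hss : SS (evC C q)) : F q = 0 := by
  obtain ⟨m, P, hD, hI⟩ := exists_dec _ hss
  exact merge_aux hk C hF h m q P hq hD hI

end Vale.Agent.P002.Global
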