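import Vale.Agent.P002.Global.Irr
import Vale.Agent.P002.Global.Merge
import Vale.Agent.P002.Global.Absorb1
import Vale.Agent.P002.Surface.Assemble

/-!
Integral points are dense among all semisimple representations of a punctured surface group with
prescribed quasi-unipotent classes.
-/

open Matrix Filter Topology
open scoped commutatorElement

namespace Vale.Agent.P002.Global

open Vale.Agent.P002.Surface

variable {g k s r : ℕ}

/-- A subspace invariant under all generators is invariant under all words. -/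
lemma inv_words {X : Type} (y : X → SL r) (W : Submodule ℂ (Fin r → ℂ))
    (h : ∀ x, ∀ v ∈ W, (y x).1 *ᵥ v ∈ W) (w : FreeGroup X) :
    ∀ v ∈ W, (FreeGroup.lift y w).1 *ᵥ v ∈ W := by
  induction w using FreeGroup.induction_on with
  | C1 => intro v hv; simpa using hv
  | of x => simpa using h x
  | inv_of x hx =>
    intro v hv
    rw [FreeGroup.lift_apply_of] at hx
    rw [map_inv, FreeGroup.lift_apply_of]
    let T : W →ₗ[ℂ] W := ((Matrix.toLin' (y x).1).domRestrict W).codRestrict W fun v => hx v.1 v.2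
    have hT : Function.Injective T := fun a b hab => Subtype.ext (by
      have h1 : (y x).1 *ᵥ a.1 = (y x).1 *ᵥ b.1 := congrArg Subtype.val hab
      have h2 := congrArg (fun u => ((y x)⁻¹).1 *ᵥ u) h1
      simpa only [Matrix.mulVec_mulVec, val_inv_mul, Matrix.one_mulVec] using h2)
    obtain ⟨u, hu⟩ := LinearMap.surjective_of_injective hT ⟨v, hv⟩
    rw [show v = (y x).1 *ᵥ u.1 from (congrArg Subtype.val hu).symm, Matrix.mulVec_mulVec,
      val_inv_mul, Matrix.one_mulVec]
    exact u.2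
  | mul a b ha hb =>
    intro v hv
    rw [map_mul, val_mul, ← Matrix.mulVec_mulVec]
    exact ha _ (hb v hv)

/-- No invariant subspaces. -/
def Irred {X : Type} (y : X → SL r) : Prop :=
  ∀ W : Submodule ℂ (Fin r → ℂ), (∀ x, ∀ v ∈ W, (y x).1 *ᵥ v ∈ W) → W = ⊥ ∨ W = ⊤

/-- Every invariant subspace has an invariant complement. -/
def Cr {X : Type} (y : X → SL r) : Prop :=
  ∀ W : Submodule ℂ (Fin r → ℂ), (∀ x, ∀ v ∈ W, (y x).1 *ᵥ v ∈ W) →
    ∃ W' : Submodule ℂ (Fin r → ℂ), (∀ x, ∀ v ∈ W', (y x).1 *ᵥ v ∈ W') ∧ IsCompl W W'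

lemma Irred.cr {X : Type} {y : X → SL r} (h : Irred y) : Cr y := fun W hW => by
  rcases h W hW with rfl | rfl
  · exact ⟨⊤, fun x v _ => Submodule.mem_top, isCompl_bot_top⟩
  · exact ⟨⊥, fun x v hv => by simp [(Submodule.mem_bot ℂ).1 hv], isCompl_top_bot⟩

lemma det_mem' {E ι : Type} [Fintype ι] [DecidableEq ι] (S : Subalgebra ℂ (E → ℂ))
    (F : ι → ι → E → ℂ) (hF : ∀ i j, F i j ∈ S) :
    (fun x => (Matrix.of fun i j => F i j x).det) ∈ S := by
  have e : (fun x => (Matrix.of fun i j => F i j x).det) =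
      ∑ σ : Equiv.Perm ι, algebraMap ℂ (E → ℂ) ((Equiv.Perm.sign σ : ℤ) : ℂ) *
        ∏ i, F (σ i) i := by
    funext x
    rw [Matrix.det_apply', Finset.sum_apply]
    refine Finset.sum_congr rfl fun σ _ => ?_
    simp [Finset.prod_apply]
  rw [e]
  exact sum_mem fun σ _ => mul_mem (S.algebraMap_mem _) (prod_mem fun i _ => hF _ _)

/-- A polynomial, nonzero at the base point, which detects irreducibility. -/
theorem exists_irr_poly (hr : 2 ≤ r) (K : Fin g → SL r) (i1 i2 : Fin g)
    (h1 : K i1 = el ⟨0, by omega⟩ (nxt ⟨0, by omega⟩) 1) (h2 : K i2 = cyc r)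
    (z₀ : Rest k s → SL r) :
    ∃ H ∈ PolyFun (Idx g k s) r, H (sliceT K z₀) ≠ 0 ∧
      ∀ y : Idx g k s → SL r, H y ≠ 0 → Irred y := by
  classical
  obtain ⟨b, hb, hspan, hli⟩ := exists_linearIndependent ℂ
    (Set.range fun w : FreeGroup (Fin g) => (fun a b => (FreeGroup.lift K w).1 a b :
      Fin r → Fin r → ℂ))
  rw [span_words hr K i1 i2 h1 h2] at hspan
  have : Fintype b := @Fintype.ofFinite _ hli.finite
  let B := Module.Basis.mk hli (by rw [Subtype.range_coe, hspan])
  let e : Fin r × Fin r ≃ b := Fintype.equivOfCardEq (by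
    rw [← Module.finrank_eq_card_basis B]
    simp [Module.finrank_pi_fintype])
  choose w hw using fun t : b => hb t.2
  let emb : FreeGroup (Fin g) →* FreeGroup (Idx g k s) := FreeGroup.map fun i => Sum.inl (i, false)
  let row : (Idx g k s → SL r) → Fin r × Fin r → Fin r × Fin r → ℂ := fun y t p =>
    (FreeGroup.lift y (emb (w (e t)))).1 p.1 p.2
  refine ⟨fun y => (Matrix.of (row y)).det, det_mem' _ (fun t p y => row y t p) fun t p =>
    lift_mem (entGroup (PolyFun (Idx g k s) r)) (fun x (y : Idx g k s → SL r) => y x) proj_mem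
      (emb (w (e t))) p.1 p.2, ?_, ?_⟩
  · have hrow : row (sliceT K z₀) = fun t p => (e t : Fin r → Fin r → ℂ) p.1 p.2 := by
      funext t p
      have : (FreeGroup.lift (sliceT K z₀)).comp emb = FreeGroup.lift K :=
        FreeGroup.ext_hom _ _ fun i => by simp [emb, sliceT]
      rw [← hw (e t)]
      exact congrArg (fun M : SL r => M.1 p.1 p.2) (DFunLike.congr_fun this _)
    show (Matrix.of (row (sliceT K z₀))).det ≠ 0
    rw [hrow]
    have hli' : LinearIndependent ℂ fun t : Fin r × Fin r =>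
        fun p : Fin r × Fin r => (e t : Fin r → Fin r → ℂ) p.1 p.2 := by
      refine LinearIndependent.map' (hli.comp e e.injective)
        ({ toFun := fun M p => M p.1 p.2, map_add' := fun _ _ => rfl, map_smul' := fun _ _ => rfl } :
          (Fin r → Fin r → ℂ) →ₗ[ℂ] Fin r × Fin r → ℂ) ?_
      rw [LinearMap.ker_eq_bot]
      intro M N h
      funext i j
      exact congrFun h (i, j)
    have hu := Matrix.linearIndependent_rows_iff_isUnit.1
      (show LinearIndependent ℂ (Matrix.of fun t (p : Fin r × Fin r) =>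
        (e t : Fin r → Fin r → ℂ) p.1 p.2).row from hli')
    exact isUnit_iff_ne_zero.1 ((Matrix.isUnit_iff_isUnit_det _).1 hu)
  · intro y hy W hW
    let Stab : Submodule ℂ (Fin r × Fin r → ℂ) :=
      { carrier := {M | ∀ v ∈ W, (Matrix.of fun i j => M (i, j)) *ᵥ v ∈ W}
        add_mem' := fun {A A'} hA hA' v hv => by
          rw [show (Matrix.of fun i j => (A + A') (i, j) : Mat r) =
            (Matrix.of fun i j => A (i, j)) + Matrix.of fun i j => A' (i, j) from rfl,
            Matrix.add_mulVec]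
          exact W.add_mem (hA v hv) (hA' v hv)
        zero_mem' := fun v _ => by
          rw [show (Matrix.of fun i j => (0 : Fin r × Fin r → ℂ) (i, j) : Mat r) = 0 from rfl,
            Matrix.zero_mulVec]
          exact W.zero_mem
        smul_mem' := fun c A hA v hv => by
          rw [show (Matrix.of fun i j => (c • A) (i, j) : Mat r) =
            c • Matrix.of fun i j => A (i, j) from rfl, Matrix.smul_mulVec]
          exact W.smul_mem c (hA v hv) }
    have hlin : LinearIndependent ℂ (Matrix.of (row y)).row :=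
      Matrix.linearIndependent_rows_iff_isUnit.2
        ((Matrix.isUnit_iff_isUnit_det _).2 (isUnit_iff_ne_zero.2 hy))
    have htop : Stab = ⊤ := by
      rw [eq_top_iff, ← hlin.span_eq_top_of_card_eq_finrank' (by simp),
        Submodule.span_le]
      rintro _ ⟨t, rfl⟩ v hv
      exact inv_words y W hW (emb (w (e t))) v hv
    rw [or_iff_not_imp_left]
    intro hne
    obtain ⟨v, hv, hv0⟩ := Submodule.exists_mem_ne_zero_of_ne_bot hne
    obtain ⟨j, hj⟩ := Function.ne_iff.1 hv0
    rw [eq_top_iff]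
    intro u _
    have hu := (htop ▸ Submodule.mem_top :
      (fun p : Fin r × Fin r => if p.2 = j then u p.1 / v j else 0) ∈ Stab) v hv
    convert hu using 1
    funext i
    simp only [Matrix.mulVec, dotProduct, Matrix.of_apply, ite_mul, zero_mul, Finset.sum_ite_eq',
      Finset.mem_univ, if_true]
    rw [div_mul_cancel₀ _ hj]

/-- The generators of a surface, split at any handle. -/
def regr (n k s : ℕ) : Gens (n + k) ⊕ Fin s ≃ Idx n k s :=
  (((finSumFinEquiv.symm.prodCongr (Equiv.refl Bool)).trans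
    (Equiv.sumProdDistrib _ _ _)).sumCongr (Equiv.refl _)).trans (Equiv.sumAssoc _ _ _)

lemma relT_regr {G : Type} [Group G] {n : ℕ} (y : Idx n k s → G) :
    relT y = rel (fun x => y (regr n k s (Sum.inl x))) *
      (List.ofFn fun j => y (regr n k s (Sum.inr j))).prod := by
  have h1 : ∀ (i : Fin n) c,
      regr n k s (Sum.inl (Fin.castAdd k i, c)) = Sum.inl (i, c) := fun i c => by simp [regr]
  have h2 : ∀ (i : Fin k) c,
      regr n k s (Sum.inl (Fin.natAdd n i, c)) = Sum.inr (Sum.inl (i, c)) := fun i c => by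
    simp [regr]
  have h3 : ∀ j, regr n k s (Sum.inr j) = Sum.inr (Sum.inr j) := fun j => by simp [regr]
  have e : rel (fun x => y (regr n k s (Sum.inl x))) =
      rel (y ∘ Sum.inl) * rel ((y ∘ Sum.inr) ∘ Sum.inl) := by
    simp only [rel, ← List.prod_append, ← List.ofFn_fin_append]
    congr 2
    funext i
    induction i using Fin.addCases with
    | left i => simp [h1]
    | right i => simp [h2]
  rw [e, relT, relR, mul_assoc]
  simp only [h3]
  rfl

lemma rel_cast {G : Type} [Group G] {m m' : ℕ} (h : m = m') (y : Gens m' → G) :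
    rel (fun x : Gens m => y (Fin.cast h x.1, x.2)) = rel y := by
  subst h; rfl

/-- The same generators split at the first handle. -/
def split (k s : ℕ) : Idx 1 (k + 2) s ≃ Idx 3 k s :=
  (regr 1 (k + 2) s).symm.trans ((((finCongr (by omega : 1 + (k + 2) = 3 + k)).prodCongr
    (Equiv.refl Bool)).sumCongr (Equiv.refl _)).trans (regr 3 k s))

lemma split_inr (j : Fin s) : split k s (Sum.inr (Sum.inr j)) = Sum.inr (Sum.inr j) := by
  simp [split, regr]

lemma relT_split {G : Type} [Group G] (y : Idx 3 k s → G) : relT (y ∘ split k s) = relT y := by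
  rw [relT_regr, relT_regr y, ← rel_cast (by omega : 1 + (k + 2) = 3 + k)
    (fun x => y (regr 3 k s (Sum.inl x)))]
  congr 1
  · congr 1
    funext x
    simp [split, finCongr, Prod.map]

/-- Representations with the given classes. -/
def Pt (C : Fin s → SL r) (y : Idx g k s → SL r) : Prop := relT y = 1 ∧ InClass C y ∧ Cr y

/-- Vanishing near an irreducible point spreads to all semisimple points. -/
theorem spread [NeZero r] (C : Fin s → SL r) {U : Set (Amb 3 k s r)} (hU : IsOpen U)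
    (hne : ∃ y : Idx 3 k s → SL r, relT y = 1 ∧ InClass C y ∧ crd y ∈ U)
    (hirr : ∀ y : Idx 3 k s → SL r, crd y ∈ U → Irred y)
    {F : (Idx 3 k s → SL r) → ℂ} (hF : F ∈ PolyFun (Idx 3 k s) r)
    (hF0 : ∀ y, relT y = 1 → InClass C y → crd y ∈ U → F y = 0)
    {y : Idx 3 k s → SL r} (hy : Pt C y) : F y = 0 := by
  let Φ : (Idx 1 (k + 2) s → SL r) → Idx 3 k s → SL r := fun q x =>
    evC C q ((split k s).symm x)
  have hΦe : ∀ q, Φ q ∘ split k s = evC C q := fun q => funext fun x => by simp [Φ]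
  have hΦR : ∀ q, relT (Φ q) = R C q := fun q => by rw [← relT_split, hΦe]; rfl
  have hΦC : ∀ q, InClass C (Φ q) := fun q j => by
    refine ⟨q (Sum.inr (Sum.inr j)), ?_⟩
    show evC C q ((split k s).symm _) = _
    rw [← split_inr (k := k) j, Equiv.symm_apply_apply]
    rfl
  have hΦinv : ∀ q (W : Submodule ℂ (Fin r → ℂ)), (∀ x, ∀ v ∈ W, (Φ q x).1 *ᵥ v ∈ W) ↔
      ∀ x, ∀ v ∈ W, (evC C q x).1 *ᵥ v ∈ W := fun q W => by
    rw [← hΦe]
    exact ((split k s).forall_congr_left (p := fun x =>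
      ∀ v ∈ W, ((Φ q ∘ split k s) x).1 *ᵥ v ∈ W)).trans (by simp) |>.symm
  have hlift : ∀ y : Idx 3 k s → SL r, InClass C y → ∃ q, Φ q = y := fun y hy => by
    choose P hP using hy
    refine ⟨Sum.elim (fun x => y (split k s (Sum.inl x)))
      (Sum.elim (fun x => y (split k s (Sum.inr (Sum.inl x)))) P), funext fun x => ?_⟩
    obtain ⟨x', rfl⟩ := (split k s).surjective x
    show evC C _ _ = _
    rw [Equiv.symm_apply_apply]
    rcases x' with x' | x' | j
    · rfl
    · rfl
    · rw [split_inr]; exact (hP j).symm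
  have hent : ∀ x, (fun q => Φ q x) ∈ entGroup (PolyFun (Idx 1 (k + 2) s) r) := fun x =>
    evC_ent C _
  let W : Set (Idx 1 (k + 2) s → SL r) := {q | crd (Φ q) ∈ U}
  have hW : IsOpen W := hU.preimage (continuous_pi fun x => continuous_pi fun i =>
    continuous_pi fun j => (continuous_ent x i j).comp (continuous_family hent))
  obtain ⟨y₀, hy₀, hy₀C, hy₀U⟩ := hne
  obtain ⟨q₀, hq₀⟩ := hlift y₀ hy₀C
  have hne' : (Sol C W).Nonempty :=
    ⟨q₀, by show crd (Φ q₀) ∈ U; rwa [hq₀], by rw [← hΦR, hq₀, hy₀]⟩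
  have hS : ∀ q ∈ Sol C W, Schur (evC C q) := fun q hq => schur_of_irr _ fun V hV =>
    hirr (Φ q) hq.1 V ((hΦinv q V).2 hV)
  have hG : (fun q => F (Φ q)) ∈ PolyFun (Idx 1 (k + 2) s) r := polyFun_comp _ Φ hent hF
  obtain ⟨q, rfl⟩ := hlift y hy.2.1
  refine merge_semisimple (F := fun q => F (Φ q)) (k := k + 2) (by omega) C hG
    (fun p hp hpS => irr_identity (by omega) C hW hne' hS hG
      (fun p' hp' => hF0 _ ((hΦR p').trans hp'.2) (hΦC p') hp'.1) hp hpS)
    ((hΦR q).symm.trans hy.1) fun V hV => ?_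
  obtain ⟨V', h', hc⟩ := hy.2.2 V ((hΦinv q V).2 hV)
  exact ⟨V', (hΦinv q V').1 h', hc⟩

/-- Integral points are dense among all semisimple points, which form an irreducible set. -/
theorem exists_dense_all (hr : 2 ≤ r) (hks : 1 ≤ k ∨ s = 0) (C : Fin s → SL r)
    (hC : ∀ j, QuasiUnipotent (C j)) :
    ∃ n : ℕ, 0 < n ∧ (s = 0 → n = 1) ∧
      (∃ y : Idx 3 k s → SL r, Pt C y ∧ Irred y) ∧
      (∀ F ∈ PolyFun (Idx 3 k s) r,
        (∀ y, IsInt (rootRing n) y → Pt C y → F y = 0) → ∀ y, Pt C y → F y = 0) ∧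
      ∀ F ∈ PolyFun (Idx 3 k s) r, ∀ G ∈ PolyFun (Idx 3 k s) r,
        (∀ y, Pt C y → F y * G y = 0) →
        (∀ y, Pt C y → F y = 0) ∨ ∀ y, Pt C y → G y = 0 := by
  have : NeZero r := ⟨by omega⟩
  obtain ⟨n, hn, hn1, z, hz, hz1, hzC⟩ : ∃ n : ℕ, 0 < n ∧ (s = 0 → n = 1) ∧
      ∃ z : Rest k s → SL r, IsInt (rootRing n) z ∧ relR z = 1 ∧
        ∀ j, ∃ Q : SL r, z (Sum.inr j) = Q * C j * Q⁻¹ := by
    rcases Nat.eq_zero_or_pos s with rfl | hs
    · exact ⟨1, one_pos, fun _ => rfl, fun _ => 1, fun _ => one_mem _, by simp [relR, rel],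
        fun j => j.elim0⟩
    · obtain ⟨k, rfl⟩ : ∃ l, k = l + 1 := ⟨k - 1, by omega⟩
      obtain ⟨n, hn, h⟩ := exists_absorb_one hr k C hC
      exact ⟨n, hn, fun h0 => absurd h0 hs.ne', h⟩
  let K : Fin (2 + 1) → SL r := baseK 3 hr
  have h1 : K ⟨1, by omega⟩ = el ⟨0, by omega⟩ (nxt ⟨0, by omega⟩) 1 := by simp [K, baseK]
  have h2 : K ⟨2, by omega⟩ = cyc r := by simp [K, baseK]
  have h0 : K 0 = 1 := by simp [K, baseK]
  obtain ⟨H, hH, hHb, hHirr⟩ := exists_irr_poly hr K ⟨1, by omega⟩ ⟨2, by omega⟩ h1 h2 z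
  have hind : Topology.IsInducing (crd (g := 3) (k := k) (s := s) (r := r)) :=
    Topology.IsInducing.piMap fun _ : Idx 3 k s =>
      (⟨rfl⟩ : Topology.IsInducing fun M : SL r => (M.1 : Fin r → Fin r → ℂ))
  obtain ⟨U₂, hU₂, hU₂e⟩ := hind.isOpen_iff.1
    (isOpen_ne_fun (continuous_poly hH) continuous_const : IsOpen {y | H y ≠ 0})
  obtain ⟨U, hU, hx, hUU, hvan, hprime⟩ := vanishing_nhd (g := 2) le_rfl hr h0 h1 h2 hz hz1 hzC
    hU₂ (show sliceT K z ∈ crd ⁻¹' U₂ by rw [hU₂e]; exact hHb)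
  have hHU : ∀ y : Idx 3 k s → SL r, crd y ∈ U → H y ≠ 0 := fun y hy => by
    have : y ∈ crd ⁻¹' U₂ := hUU hy
    rwa [hU₂e] at this
  have hirr : ∀ y : Idx 3 k s → SL r, crd y ∈ U → Irred y := fun y hy => hHirr y (hHU y hy)
  have hne : ∃ y : Idx 3 k s → SL r, relT y = 1 ∧ InClass C y ∧ crd y ∈ U :=
    ⟨sliceT K z, (relT_sliceT K z).trans hz1, hzC, hx⟩
  refine ⟨n, hn, hn1, ?_, fun F hF hF0 y hy => spread C hU hne hirr hF (fun p hp hpC hpU => ?_) hy,
    fun F hF G hG hFG => ?_⟩
  · obtain ⟨y, hy1, hyC, hyU⟩ := hne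
    exact ⟨y, ⟨hy1, hyC, (hirr y hyU).cr⟩, hirr y hyU⟩
  · refine (mul_eq_zero.1 (hvan p hp hpC hpU (fun y => F y * H y) ⟨mul_mem hF hH,
      fun y hy hy1 hyC => ?_⟩)).resolve_right (hHU p hpU)
    show F y * H y = 0
    by_cases h : H y = 0
    · rw [h, mul_zero]
    · rw [hF0 y hy ⟨hy1, hyC, (hHirr y h).cr⟩, zero_mul]
  · rcases hprime F hF G hG fun y hy hyC hyU => hFG y ⟨hy, hyC, (hirr y hyU).cr⟩ with h | h
    · exact Or.inl fun y hy => spread C hU hne hirr hF h hy
    · exact Or.inr fun y hy => spread C hU hne hirr hG h hy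

end Vale.Agent.P002.Global
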