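import Vale.Agent.P002.Global.Linear

/-!
A matrix whose spectral data are rigid along the tangent space is cyclic.
-/

open Matrix Polynomial

namespace Vale.Agent.P002.Global

open Vale.Agent.P002.Surface

variable {r : ℕ}

/-- The point `B` with tangent `X'`. -/
noncomputable def dual (B X' : Mat r) : DualNumber (Mat r) :=
  TrivSqZeroExt.inl B + TrivSqZeroExt.inr X'

/-- The derivative of `A ↦ p(A)` at `B`. -/
noncomputable def L (B : Mat r) (p : ℂ[X]) (X' : Mat r) : Mat r :=
  TrivSqZeroExt.snd (aeval (dual B X') p)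

lemma fst_aeval (B : Mat r) (p : ℂ[X]) (X' : Mat r) :
    TrivSqZeroExt.fst (aeval (dual B X') p) = aeval B p := by
  have := aeval_algHom_apply (TrivSqZeroExt.fstHom ℂ (Mat r) (Mat r)) (dual B X') p
  simp only [TrivSqZeroExt.fstHom_apply] at this
  rw [← this]
  simp [dual]

lemma L_mul (B : Mat r) (p p' : ℂ[X]) (X' : Mat r) :
    L B (p * p') X' = L B p X' * aeval B p' + aeval B p * L B p' X' := by
  simp only [L, map_mul, TrivSqZeroExt.snd_mul, fst_aeval, smul_eq_mul, op_smul_eq_mul]
  rw [add_comm]

lemma L_add (B : Mat r) (p p' : ℂ[X]) (X' : Mat r) :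
    L B (p + p') X' = L B p X' + L B p' X' := by simp [L]

@[simp] lemma L_C (B : Mat r) (a : ℂ) (X' : Mat r) : L B (C a) X' = 0 := by
  rw [L, aeval_C, Algebra.algebraMap_eq_smul_one]
  simp

@[simp] lemma L_X (B : Mat r) (X' : Mat r) : L B X X' = X' := by simp [L, dual]

lemma MD.aeval {f : ℂ → Mat r} {d : Mat r} (h : MD f d) (p : ℂ[X]) :
    MD (fun t => aeval (f t) p) (L (f 0) p d) := by
  induction p using Polynomial.induction_on with
  | C a => simpa using MD.const (algebraMap ℂ (Mat r) a)
  | add p q hp hq => simpa [L_add] using hp.add hq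
  | monomial n a hn =>
    have := hn.mul h
    rw [pow_succ, ← mul_assoc, L_mul, L_X, aeval_X]
    simpa using this

lemma L_of_commute (B : Mat r) (p : ℂ[X]) {X' : Mat r} (h : Commute B X') :
    L B p X' = X' * aeval B (derivative p) := by
  induction p using Polynomial.induction_on with
  | C a => simp
  | add p q hp hq => simp [L_add, hp, hq, mul_add]
  | monomial n a hn =>
    have hc : Commute X' (aeval B (C a * X ^ n)) := by
      rw [map_mul, aeval_C, map_pow, aeval_X]
      exact ((Algebra.commute_algebraMap_left a X').symm).mul_right (h.symm.pow_right n)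
    rw [pow_succ, ← mul_assoc, L_mul, L_X, aeval_X, hn, derivative_mul (f := C a * X ^ n),
      derivative_X, mul_one,
      map_add (aeval B), map_mul (aeval B) (derivative (C a * X ^ n)) X, aeval_X, mul_add,
      Matrix.mul_assoc, hc.eq]

lemma L_left_mul (B : Mat r) (p : ℂ[X]) (X' : Mat r) : L B p (B * X') = B * L B p X' := by
  induction p using Polynomial.induction_on with
  | C a => simp
  | add p q hp hq => simp [L_add, hp, hq, mul_add]
  | monomial n a hn =>
    have hc : Commute (aeval B (C a * X ^ n)) B :=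
      (aeval_X (R := ℂ) B).subst ((Commute.all (C a * X ^ n : ℂ[X]) X).map (aeval B))
    rw [pow_succ, ← mul_assoc, L_mul B (C a * X ^ n), L_X, L_mul B (C a * X ^ n), L_X, aeval_X, hn,
      mul_add, Matrix.mul_assoc,
      ← Matrix.mul_assoc _ B X', hc.eq, Matrix.mul_assoc]

lemma trace_L (B : Mat r) (p : ℂ[X]) :
    ∀ X' Γ : Mat r, (L B p X' * Γ).trace = (X' * L B p Γ).trace := by
  induction p using Polynomial.induction_on with
  | C a => simp
  | add p q hp hq => intro X' Γ; simp [L_add, add_mul, mul_add, hp, hq]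
  | monomial n a hn =>
    intro X' Γ
    rw [pow_succ, ← mul_assoc, L_mul, L_X, aeval_X]
    conv_rhs => rw [mul_comm (C a * X ^ n) X, L_mul, L_X, aeval_X]
    rw [add_mul, mul_add, Matrix.trace_add, Matrix.trace_add, Matrix.mul_assoc, hn, L_left_mul]
    rw [Matrix.mul_assoc, Matrix.trace_mul_comm (aeval B _), Matrix.mul_assoc, add_comm]

/-- The distinct eigenvalues. -/
noncomputable def spec (B : Mat r) : Finset ℂ := B.charpoly.roots.toFinset

/-- The product of `X - λ` over the distinct eigenvalues. -/
noncomputable def rad (B : Mat r) : ℂ[X] := Lagrange.nodal (spec B) id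

lemma spec_iff {B : Mat r} {l : ℂ} : l ∈ spec B ↔ B.charpoly.IsRoot l := by
  simp [spec, Multiset.mem_toFinset, Polynomial.mem_roots B.charpoly_monic.ne_zero]

lemma charpoly_splits (B : Mat r) :
    B.charpoly = (B.charpoly.roots.map fun a => X - C a).prod :=
  ((IsAlgClosed.splits B.charpoly).eq_prod_roots_of_monic B.charpoly_monic)

lemma pow_eq_zero_of_roots {B : Mat r} {f : ℂ[X]} (h : ∀ l ∈ spec B, f.IsRoot l) :
    aeval B f ^ r = 0 := by
  have hd : rad B ∣ f := by
    refine Finset.prod_dvd_of_coprime ?_ fun l hl => dvd_iff_isRoot.2 (h l hl)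
    exact fun x _ y _ hxy => (Polynomial.isCoprime_X_sub_C_of_isUnit_sub (sub_ne_zero.2 hxy).isUnit)
  have h2 : B.charpoly ∣ f ^ r := by
    have hcard : Multiset.card B.charpoly.roots = r := by
      rw [IsAlgClosed.card_roots_eq_natDegree, Matrix.charpoly_natDegree_eq_dim, Fintype.card_fin]
    rw [charpoly_splits B, show f ^ r = f ^ Multiset.card B.charpoly.roots by rw [hcard],
      ← Multiset.prod_replicate, ← Multiset.map_const']
    refine Multiset.prod_dvd_prod_of_dvd _ _ fun a ha => ?_
    exact dvd_iff_isRoot.2 (h a (Multiset.mem_toFinset.2 ha))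
  obtain ⟨g, hg⟩ := h2
  rw [← map_pow, hg, map_mul, Matrix.aeval_self_charpoly, zero_mul]

lemma isNilpotent_of_roots {B : Mat r} {f : ℂ[X]} (h : ∀ l ∈ spec B, f.IsRoot l) :
    IsNilpotent (aeval B f) :=
  ⟨r, pow_eq_zero_of_roots h⟩

lemma trace_eq_zero_of_roots {B : Mat r} {f : ℂ[X]} (h : ∀ l ∈ spec B, f.IsRoot l) :
    (aeval B f).trace = 0 :=
  (Matrix.isNilpotent_trace_of_isNilpotent (isNilpotent_of_roots h)).eq_zero

lemma exists_eigvec {B : Mat r} {l : ℂ} (hl : l ∈ spec B) :
    ∃ x : Fin r → ℂ, x ≠ 0 ∧ B *ᵥ x = l • x := by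
  have hdet : (Matrix.scalar (Fin r) l - B).det = 0 :=
    (Matrix.eval_charpoly B l).symm.trans (spec_iff.1 hl)
  obtain ⟨x, hx, hx0⟩ := Matrix.exists_mulVec_eq_zero_iff.2 hdet
  refine ⟨x, hx, ?_⟩
  rw [Matrix.sub_mulVec, sub_eq_zero, Matrix.scalar_apply, ← Matrix.smul_one_eq_diagonal,
    Matrix.smul_mulVec, Matrix.one_mulVec] at hx0
  exact hx0.symm

lemma aeval_eigvec {B : Mat r} {l : ℂ} {x : Fin r → ℂ} (h : B *ᵥ x = l • x) (p : ℂ[X]) :
    aeval B p *ᵥ x = p.eval l • x := by
  induction p using Polynomial.induction_on with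
  | C a => simp [Algebra.algebraMap_eq_smul_one, Matrix.smul_mulVec]
  | add p q hp hq => simp [Matrix.add_mulVec, hp, hq, add_smul]
  | monomial n a hn =>
    rw [pow_succ, ← mul_assoc, map_mul, aeval_X, ← Matrix.mulVec_mulVec, h, Matrix.mulVec_smul, hn,
      smul_smul]
    congr 1
    simp
    ring

/-- The data of one eigenvalue. -/
structure EigData (B : Mat r) (l : ℂ) where
  /-- The index. -/
  s : ℕ
  hs : 0 < s
  /-- The projector. -/
  e : ℂ[X]
  e_self : e.eval l = 1
  e_other : ∀ l' ∈ spec B, l' ≠ l → e.eval l' = 0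
  idem : aeval B e * aeval B e = aeval B e
  dvd_other : ∀ f : ℂ[X], (X - C l) ^ s ∣ f → aeval B (e * f) = 0
  not_dvd : ∀ f : ℂ[X], f.eval l ≠ 0 → aeval B (e * (X - C l) ^ (s - 1) * f) ≠ 0

lemma exists_eigData {B : Mat r} {l : ℂ} (hl : l ∈ spec B) : Nonempty (EigData B l) := by
  have hint : IsIntegral ℂ B := ⟨B.charpoly, B.charpoly_monic, Matrix.aeval_self_charpoly B⟩
  set μ := minpoly ℂ B
  have hμ0 : μ ≠ 0 := minpoly.ne_zero hint
  have hroot : ∀ l' ∈ spec B, μ.IsRoot l' := fun l' hl' => by
    obtain ⟨x, hx, hxl⟩ := exists_eigvec hl'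
    have := aeval_eigvec hxl μ
    rw [minpoly.aeval, Matrix.zero_mulVec, eq_comm] at this
    exact (smul_eq_zero.1 this).resolve_right hx
  obtain ⟨h, hh, hhl⟩ := exists_eq_pow_rootMultiplicity_mul_and_not_dvd μ hμ0 l
  set s := μ.rootMultiplicity l
  have hs : 0 < s := (rootMultiplicity_pos hμ0).2 (hroot l hl)
  obtain ⟨u, v, huv⟩ : IsCoprime ((X - C l) ^ s) h :=
    ((prime_X_sub_C l).irreducible.coprime_iff_not_dvd.2 hhl).pow_left
  have he : (v * h).eval l = 1 := by
    have := congrArg (eval l) huv
    simpa [hs.ne'] using this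
  have hkill : ∀ f : ℂ[X], (X - C l) ^ s ∣ f → aeval B (v * h * f) = 0 := fun f hf => by
    obtain ⟨f', rfl⟩ := hf
    rw [show v * h * ((X - C l) ^ s * f') = μ * (v * f') by rw [hh]; ring, map_mul, minpoly.aeval,
      zero_mul]
  refine ⟨⟨s, hs, v * h, he, fun l' hl' hne => ?_, ?_, hkill, fun f hf h0 => hf ?_⟩⟩
  · have := hroot l' hl'
    rw [hh, IsRoot.def, eval_mul, eval_pow, eval_sub, eval_X, eval_C] at this
    rw [eval_mul, (mul_eq_zero.1 this).resolve_left (pow_ne_zero _ (sub_ne_zero.2 hne)), mul_zero]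
  · rw [← map_mul, show v * h * (v * h) = v * h - v * h * (u * (X - C l) ^ s) by
      linear_combination (v * h) * huv, map_sub, hkill _ (dvd_mul_left _ _), sub_zero]
  · have h1 : μ ∣ v * h * (X - C l) ^ (s - 1) * f := minpoly.dvd ℂ B h0
    have h2 : (X - C l) ^ s ∣ (X - C l) ^ (s - 1) * (v * h * f) := by
      refine (Dvd.intro h hh.symm).trans (h1.trans (dvd_of_eq (by ring)))
    rw [show s = s - 1 + 1 by omega, pow_succ] at h2
    simp only [Nat.add_sub_cancel] at h2
    have h3 := (mul_dvd_mul_iff_left (pow_ne_zero _ (X_sub_C_ne_zero l))).1 h2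
    rw [dvd_iff_isRoot, IsRoot.def, eval_mul, he, one_mul] at h3
    exact h3

lemma EigData.commute (B : Mat r) (p q : ℂ[X]) : Commute (aeval B p) (aeval B q) :=
  (Commute.all p q).map (aeval B)

lemma EigData.trace_of_roots {B : Mat r} {l : ℂ} (d : EigData B l) (f : ℂ[X])
    (h : ∀ l' ∈ spec B, l' ≠ l → f.eval l' = 0) :
    (aeval B f).trace = f.eval l * (aeval B d.e).trace := by
  have h0 : (aeval B (f - C (f.eval l) * d.e)).trace = 0 := trace_eq_zero_of_roots fun l' hl' => by
    by_cases hne : l' = l
    · simp [hne, d.e_self]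
    · simp [h l' hl' hne, d.e_other l' hl' hne]
  rwa [map_sub, Matrix.trace_sub, sub_eq_zero, map_mul, aeval_C, Algebra.algebraMap_eq_smul_one,
    Matrix.smul_mul, one_mul, Matrix.trace_smul, smul_eq_mul] at h0

lemma EigData.trace_ne_zero {B : Mat r} {l : ℂ} (d : EigData B l) : (aeval B d.e).trace ≠ 0 := by
  have hE := d.idem
  intro h
  have h2 := det_idem (r := r) hE (Real.pi * Complex.I)
  rw [h, mul_zero, Complex.exp_zero] at h2
  have hne : aeval B d.e ≠ 0 := fun h0 => d.not_dvd 1 (by simp) (by
    rw [mul_one, map_mul, h0, zero_mul])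
  set N : (Fin r → ℂ) →ₗ[ℂ] (Fin r → ℂ) := Matrix.toLin' (aeval B d.e)
  have hN : LinearMap.IsProj (LinearMap.range N) N := ⟨fun x => LinearMap.mem_range_self _ _, fun x hx => by
    obtain ⟨y, rfl⟩ := hx
    show aeval B d.e *ᵥ (aeval B d.e *ᵥ y) = aeval B d.e *ᵥ y
    rw [Matrix.mulVec_mulVec, hE]⟩
  have h3 := hN.trace
  rw [Matrix.trace_toLin'_eq, h] at h3
  have h4 : LinearMap.range N = ⊥ := Submodule.finrank_eq_zero.1 (by exact_mod_cast h3.symm)
  exact hne (Matrix.toLin'.injective (by rw [map_zero]; exact LinearMap.range_eq_bot.1 h4))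

/-- Rigidity of the spectral data along a tangent space forces a cyclic vector. -/
theorem cyclic_of_rigid (b a : SL r) (S : Submodule ℂ (Mat r))
    (hSmul : ∀ A ∈ S, ∀ A' ∈ S, A * A' ∈ S) (hSnil : ∀ A ∈ S, IsNilpotent A)
    (hSb : ∀ A ∈ S, Commute b.1 A) (hSb' : ∀ A ∈ S, Commute b.1 (ad a A))
    (T : Set (Mat r))
    (hT : ∀ Ω : Mat r, (∀ u ∈ T, (u * Ω).trace = 0) → ∃ η ∈ S, tl Ω = ad a η - η)
    (hrig : ∀ u ∈ T, ∃ δq : ℂ[X], δq.degree < (spec b.1).card ∧
      (∀ f : ℂ[X], (aeval b.1 (δq * f)).trace +
        (b.1 * u * aeval b.1 (derivative (rad b.1 * f))).trace = 0) ∧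
      ∀ (n : ℕ) (x y : Fin r → ℂ), aeval b.1 (rad b.1) ^ n *ᵥ x = 0 →
        y ᵥ* aeval b.1 (rad b.1) ^ n = 0 →
        y ⬝ᵥ ((∑ i ∈ Finset.range n, aeval b.1 (rad b.1) ^ (n - 1 - i) *
          (aeval b.1 δq + L b.1 (rad b.1) (b.1 * u)) * aeval b.1 (rad b.1) ^ i) *ᵥ x) = 0) :
    ∃ v : Fin r → ℂ, LinearIndependent ℂ fun i : Fin r => (b.1 ^ i.1) *ᵥ v := by
  classical
  set B := b.1
  set q := rad B
  set M := aeval B q
  have hl0 : ∀ l ∈ spec B, l ≠ 0 := fun l hl h0 => by
    obtain ⟨x, hx, hxl⟩ := exists_eigvec hl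
    rw [h0, zero_smul] at hxl
    exact hx (by
      rw [← Matrix.one_mulVec x, ← val_inv_mul b, ← Matrix.mulVec_mulVec, hxl, Matrix.mulVec_zero])
  let d : ∀ l : spec B, EigData B l := fun l => (exists_eigData l.2).some
  have key : ∀ l : spec B, ((d l).s : ℂ) = (aeval B (d l).e).trace := by
    rintro ⟨l, hl⟩
    set D := d ⟨l, hl⟩
    set s := D.s
    set E := aeval B D.e
    set q0 := Lagrange.nodal ((spec B).erase l) (id : ℂ → ℂ)
    have hq : q = (X - C l) * q0 := Lagrange.nodal_eq_mul_nodal_erase hl
    have hq0 : q0.eval l ≠ 0 :=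
      Lagrange.eval_nodal_not_at_node fun i hi => (Finset.ne_of_mem_erase hi).symm
    have hq' : (derivative q).eval l = q0.eval l := by simp [hq]
    set G := aeval B (D.e * (X - C l) ^ (s - 1) * q0 ^ s)
    obtain ⟨s', hs'⟩ : ∃ s', s = s' + 1 := ⟨s - 1, by have := D.hs; omega⟩
    have hG0 : G ≠ 0 := D.not_dvd _ (by simpa using pow_ne_zero _ hq0)
    have hGl : G * aeval B (X - C l) = 0 := by
      rw [← map_mul, mul_assoc, mul_assoc]
      refine D.dvd_other _ ⟨q0 ^ s, ?_⟩
      rw [show D.s = s' + 1 from hs', hs', Nat.add_sub_cancel]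
      ring
    have hGeig : G * B = l • G := by
      rw [map_sub, aeval_X, aeval_C, Algebra.algebraMap_eq_smul_one, mul_sub, Matrix.mul_smul,
        mul_one, sub_eq_zero] at hGl
      exact hGl
    have hGp : ∀ p : ℂ[X], G * aeval B p = p.eval l • G := fun p => by
      induction p using Polynomial.induction_on with
      | C a => simp [Algebra.algebraMap_eq_smul_one]
      | add p p' hp hp' => simp [mul_add, hp, hp', add_smul]
      | monomial n a hn =>
        rw [pow_succ, ← mul_assoc, map_mul, aeval_X, ← Matrix.mul_assoc, hn, Matrix.smul_mul, hGeig,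
          smul_smul]
        congr 1
        simp
    have hGM : G * M = 0 := by
      rw [show M = aeval B q from rfl, hGp, hq]
      simp
    have hEG : ∀ Y, G * (E * Y) = G * Y := fun Y => by
      rw [← Matrix.mul_assoc, hGp, D.e_self, one_smul]
    have hMsE : M ^ s * E = 0 := by
      rw [← map_pow, ← map_mul, mul_comm]
      exact D.dvd_other _ ⟨q0 ^ s, by rw [hq, mul_pow]⟩
    have hEM : E * (M ^ (s - 1) * aeval B q0) = G := by
      rw [← map_pow, ← map_mul, ← map_mul, hq, mul_pow]
      refine congrArg (aeval B) ?_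
      rw [hs', Nat.add_sub_cancel]
      ring
    -- common kernels
    let U : Submodule ℂ (Fin r → ℂ) := LinearMap.range (Matrix.toLin' G)
    let U' : Submodule ℂ (Fin r → ℂ) := LinearMap.range (Matrix.toLin' Gᵀ)
    have hGA : ∀ A, Commute B A → Commute G A := fun A hA => by
      have : ∀ p : ℂ[X], Commute (aeval B p) A := fun p => by
        induction p using Polynomial.induction_on with
        | C a => simpa using Algebra.commute_algebraMap_left a A
        | add p p' hp hp' => simpa using hp.add_left hp'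
        | monomial n a hn =>
          rw [pow_succ, ← mul_assoc, map_mul, aeval_X]
          exact hn.mul_left hA
      exact this _
    obtain ⟨_, ⟨v, rfl⟩, hv0, hvS⟩ := exists_common_kernel S hSmul hSnil
      (U := U) (fun h => hG0 (Matrix.toLin'.injective (by rw [map_zero]; exact LinearMap.range_eq_bot.1 h)))
      (fun A hA u hu => by
        obtain ⟨x, rfl⟩ := hu
        exact ⟨A *ᵥ x, by simp [Matrix.mulVec_mulVec, (hGA A (hSb A hA)).eq]⟩)
    let TA : Mat r →ₗ[ℂ] Mat r :=
      { toFun := fun A => (ad a A)ᵀ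
        map_add' := fun x y => by simp
        map_smul' := fun c x => by simp }
    have hadmul : ∀ A A', ad a A * ad a A' = ad a (A * A') := fun A A' => by
      simp only [ad, Matrix.mul_assoc]
      rw [← Matrix.mul_assoc a.1 (a⁻¹).1, val_mul_inv, one_mul]
    obtain ⟨_, ⟨w, rfl⟩, hw0, hwS⟩ := exists_common_kernel (S.map TA)
      (by
        rintro _ ⟨A, hA, rfl⟩ _ ⟨A', hA', rfl⟩
        exact ⟨A' * A, hSmul A' hA' A hA, by simp [TA, ← hadmul, Matrix.transpose_mul]⟩)
      (by
        rintro _ ⟨A, hA, rfl⟩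
        obtain ⟨N, hN⟩ := hSnil A hA
        refine ⟨N, ?_⟩
        show ((ad a A)ᵀ) ^ N = 0
        have hp : ∀ n : ℕ, ad a A ^ n = ad a (A ^ n) := fun n => by
          induction n with
          | zero => rw [pow_zero, pow_zero, ad, mul_one, val_inv_mul]
          | succ n ih => rw [pow_succ, pow_succ, ih, hadmul]
        rw [← Matrix.transpose_pow, hp, hN, ad_zero, Matrix.transpose_zero])
      (U := U') (fun h => hG0 (Matrix.transpose_injective (Matrix.toLin'.injective
        (by rw [Matrix.transpose_zero, map_zero]; exact LinearMap.range_eq_bot.1 h))))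
      (fun A hA u hu => by
        obtain ⟨A', hA', rfl⟩ := hA
        obtain ⟨x, rfl⟩ := hu
        refine ⟨(ad a A')ᵀ *ᵥ x, ?_⟩
        simp only [Matrix.toLin'_apply, Matrix.mulVec_mulVec, TA, LinearMap.coe_mk, AddHom.coe_mk]
        rw [← Matrix.transpose_mul, ← Matrix.transpose_mul, (hGA _ (hSb' A' hA')).eq])
    simp only [Matrix.toLin'_apply] at hv0 hvS hw0 hwS
    set β := w ⬝ᵥ (G *ᵥ v)
    -- the pairing
    have hpair : ∀ x y : Fin r → ℂ,
        (w ⬝ᵥ (G *ᵥ x)) * (y ⬝ᵥ (G *ᵥ v)) * (aeval B D.e).trace =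
          β * ((s : ℂ) * (y ⬝ᵥ (G *ᵥ x))) := by
      intro x y
      set Θ := E * Matrix.vecMulVec x y * E
      set Γ := ∑ i ∈ Finset.range s, M ^ i * Θ * M ^ (s - 1 - i)
      let val : ℂ → ℂ := fun l' => if h : l' ∈ spec B then
        (Γ * aeval B (Lagrange.nodal ((spec B).erase l') id)).trace /
          ((Lagrange.nodal ((spec B).erase l') (id : ℂ → ℂ)).eval l' *
            (aeval B (d ⟨l', h⟩).e).trace) else 0
      set c := Lagrange.interpolate (spec B) id val
      have hbase : ∀ l' ∈ spec B, (aeval B (c * Lagrange.nodal ((spec B).erase l') id)).trace =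
          (Γ * aeval B (Lagrange.nodal ((spec B).erase l') id)).trace := by
        intro l' hl'
        set n' := Lagrange.nodal ((spec B).erase l') (id : ℂ → ℂ) with hn'
        rw [(d ⟨l', hl'⟩).trace_of_roots (c * n') fun μ hμ hne => by
          rw [eval_mul, show n'.eval μ = 0 from
            Lagrange.eval_nodal_at_node (v := id) (Finset.mem_erase.2 ⟨hne, hμ⟩), mul_zero]]
        have hc : c.eval l' = val l' :=
          Lagrange.eval_interpolate_at_node val (Set.injOn_id _) hl'
        have h1 : n'.eval l' ≠ 0 :=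
          Lagrange.eval_nodal_not_at_node fun i hi => (Finset.ne_of_mem_erase hi).symm
        rw [eval_mul, hc]
        simp only [val, dif_pos hl', ← hn']
        field_simp [h1, (d ⟨l', hl'⟩).trace_ne_zero]
      have hlin : ∀ f : ℂ[X], f.degree < (spec B).card →
          (aeval B (c * f)).trace = (Γ * aeval B f).trace := by
        intro f hf
        rw [Lagrange.eq_interpolate (Set.injOn_id _) hf, Lagrange.interpolate_eq_nodalWeight_mul_nodal_div_X_sub_C]
        simp only [Finset.mul_sum, map_sum, Matrix.trace_sum]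
        refine Finset.sum_congr rfl fun l' hl' => ?_
        rw [← Lagrange.nodal_erase_eq_nodal_div hl']
        simp only [map_mul, aeval_C, Algebra.algebraMap_eq_smul_one, Matrix.smul_mul, Matrix.mul_smul,
          one_mul, mul_one, Matrix.trace_smul]
        rw [← map_mul, hbase l' hl']
      have hGΘ : G * Θ = G * Matrix.vecMulVec x y * E := by
        simp only [Θ, Matrix.mul_assoc, hEG]
      have hΓq0 : (Γ * aeval B q0).trace = s * (y ⬝ᵥ (G *ᵥ x)) := by
        have : ∀ i ∈ Finset.range s, (M ^ i * Θ * M ^ (s - 1 - i) * aeval B q0).trace =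
            y ⬝ᵥ (G *ᵥ x) := fun i hi => by
          rw [Finset.mem_range] at hi
          rw [Matrix.mul_assoc, Matrix.trace_mul_comm, ← Matrix.mul_assoc]
          rw [show M ^ (s - 1 - i) * aeval B q0 * M ^ i = M ^ (s - 1) * aeval B q0 by
            simp only [M, ← map_pow, ← map_mul]
            refine congrArg (aeval B) ?_
            rw [show s - 1 = s - 1 - i + i by omega, pow_add, show s - 1 - i + i - i = s - 1 - i by omega]
            ring]
          rw [← Matrix.mul_assoc, Matrix.trace_mul_comm]
          simp only [← Matrix.mul_assoc]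
          rw [show E * (M ^ (s - 1)) * aeval B q0 * E = G by
            rw [Matrix.mul_assoc E, hEM]
            show G * aeval B D.e = G
            rw [hGp, D.e_self, one_smul]]
          rw [Matrix.mul_vecMulVec, Matrix.trace_vecMulVec, dotProduct_comm]
        simp only [Γ, Finset.sum_mul, Matrix.trace_sum]
        rw [Finset.sum_congr rfl this]
        simp
      set Z := L B q Γ - aeval B (derivative (q * c))
      have hzero : ∀ u ∈ T, (u * (Z * B)).trace = 0 := by
        intro u hu
        obtain ⟨δq, hdeg, hmom, hpow⟩ := hrig u hu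
        have h1 := hpow s (E *ᵥ x) (y ᵥ* E)
          (by rw [Matrix.mulVec_mulVec, hMsE, Matrix.zero_mulVec])
          (by rw [Matrix.vecMul_vecMul, show M ^ s = aeval B (q ^ s) by rw [map_pow],
            show E * aeval B (q ^ s) = aeval B (q ^ s) * E from (EigData.commute B _ _).eq,
            map_pow, hMsE, Matrix.vecMul_zero])
        have h2 : ((aeval B δq + L B q (B * u)) * Γ).trace = 0 := by
          rw [← h1]
          simp only [Γ, Finset.mul_sum, Matrix.trace_sum, Matrix.sum_mulVec, dotProduct_sum]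
          refine Finset.sum_congr rfl fun i _ => ?_
          generalize M ^ (s - 1 - i) = P₁
          generalize M ^ i = P₂
          generalize aeval B δq + L B q (B * u) = Δ
          calc (Δ * (P₂ * Θ * P₁)).trace = (P₁ * Δ * P₂ * Θ).trace := by
                rw [← Matrix.mul_assoc, Matrix.trace_mul_comm]; simp only [Matrix.mul_assoc]
            _ = _ := by
              simp only [Θ, Matrix.mul_vecMulVec, Matrix.vecMulVec_mul, Matrix.trace_vecMulVec]
              rw [← Matrix.mulVec_mulVec, dotProduct_comm]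
        rw [add_mul, Matrix.trace_add, Matrix.trace_mul_comm, ← hlin δq hdeg, mul_comm c,
          trace_L] at h2
        have h3 := hmom c
        have : (u * (Z * B)).trace = (B * u * Z).trace := by
          rw [← Matrix.mul_assoc, Matrix.trace_mul_cycle]
        rw [this, mul_sub, Matrix.trace_sub]
        linear_combination h2 - h3
      have htrZ : (Z * B).trace = 0 := by
        set f := X * derivative q - C ((spec B).card : ℂ) * q
        have hqdeg : q.natDegree = (spec B).card := Lagrange.natDegree_nodal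
        have hqmon : q.coeff (spec B).card = 1 := by
          rw [← hqdeg]; exact Lagrange.nodal_monic
        have hf : f.degree < (spec B).card := by
          rw [degree_lt_iff_coeff_zero]
          intro n hn
          rcases n with _ | n
          · have : (spec B).card = 0 := by omega
            simp [f, this]
          rw [coeff_sub, coeff_X_mul, coeff_derivative, coeff_C_mul]
          rcases hn.eq_or_lt with h | h
          · rw [show q.coeff (n + 1) = 1 by rw [← h]; exact hqmon, h]
            simp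
          · rw [coeff_eq_zero_of_natDegree_lt (show q.natDegree < n + 1 by omega)]
            simp
        have hXq : X * derivative q = f + C ((spec B).card : ℂ) * q := by simp [f]
        have hΓq : (Γ * M).trace = 0 := by
          simp only [Γ, Finset.sum_mul, Matrix.trace_sum]
          refine Finset.sum_eq_zero fun i hi => ?_
          rw [Finset.mem_range] at hi
          rw [Matrix.mul_assoc, Matrix.trace_mul_comm, ← Matrix.mul_assoc, ← pow_succ, ← pow_add,
            show s - 1 - i + 1 + i = s by omega]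
          simp only [Θ, ← Matrix.mul_assoc, hMsE, zero_mul, Matrix.trace_zero]
        have h1 : (L B q Γ * B).trace = (aeval B (c * f)).trace := by
          rw [trace_L, L_of_commute B q (Commute.refl B),
            show B * aeval B (derivative q) = aeval B (X * derivative q) by rw [map_mul, aeval_X],
            hXq, map_add, mul_add, Matrix.trace_add, ← hlin f hf,
            map_mul (aeval B) (C _) q, aeval_C,
            Algebra.algebraMap_eq_smul_one, Matrix.smul_mul, one_mul, Matrix.mul_smul,
            Matrix.trace_smul, hΓq, smul_zero, add_zero]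
        have h2 : (aeval B (derivative (q * c)) * B).trace = (aeval B (c * f)).trace := by
          rw [show aeval B (derivative (q * c)) * B = aeval B (derivative (q * c) * X) by
              rw [map_mul (aeval B) (derivative (q * c)) X, aeval_X],
            show derivative (q * c) * X = c * f +
              q * (C ((spec B).card : ℂ) * c + X * derivative c) by
            rw [derivative_mul]; linear_combination c * hXq, map_add, Matrix.trace_add,
            trace_eq_zero_of_roots (f := q * _) fun l' hl' => ?_, add_zero]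
          rw [IsRoot.def, eval_mul, show q.eval l' = 0 from Lagrange.eval_nodal_at_node (v := id) hl',
            zero_mul]
        rw [sub_mul, Matrix.trace_sub, h1, h2, sub_self]
      obtain ⟨η, hη, hΩ⟩ := hT (Z * B) hzero
      rw [tl_of_trace _ htrZ] at hΩ
      have h0 : w ⬝ᵥ ((G * (Z * B)) *ᵥ v) = 0 := by
        rw [hΩ, mul_sub, Matrix.sub_mulVec, dotProduct_sub]
        have e1 : w ⬝ᵥ ((G * η) *ᵥ v) = 0 := by
          rw [(hGA η (hSb η hη)).eq, ← Matrix.mulVec_mulVec, hvS η hη, dotProduct_zero]
        have e2 : w ⬝ᵥ ((G * ad a η) *ᵥ v) = 0 := by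
          have h3 := hwS _ ⟨η, hη, rfl⟩
          simp only [TA, LinearMap.coe_mk, AddHom.coe_mk, Matrix.mulVec_mulVec] at h3
          rw [← Matrix.transpose_mul, Matrix.mulVec_transpose] at h3
          rw [Matrix.dotProduct_mulVec, h3, zero_dotProduct]
        rw [e1, e2, sub_self]
      have hGΓ : G * Γ = G * Θ * M ^ (s - 1) := by
        simp only [Γ, Finset.mul_sum]
        rw [Finset.sum_eq_single 0 (fun i _ hi => by
          obtain ⟨i, rfl⟩ := Nat.exists_eq_succ_of_ne_zero hi
          rw [pow_succ', Matrix.mul_assoc M, Matrix.mul_assoc M, ← Matrix.mul_assoc G M, hGM,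
            zero_mul]) (fun h => absurd (Finset.mem_range.2 D.hs) h)]
        simp [Matrix.mul_assoc]
      have hGZ : G * Z = G * Matrix.vecMulVec x y * G - (c.eval l * q0.eval l) • G := by
        have e1 : G * L B q Γ = G * Matrix.vecMulVec x y * G := by
          rw [hq, L_mul, mul_add, ← Matrix.mul_assoc G (aeval B (X - C l)), hGl, zero_mul, add_zero,
            show L B (X - C l) Γ = Γ by simp [L, dual, Algebra.algebraMap_eq_smul_one], ← Matrix.mul_assoc, hGΓ, hGΘ]
          simp only [Matrix.mul_assoc, hEM]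
        rw [mul_sub, e1, hGp, derivative_mul, eval_add, eval_mul, eval_mul, hq',
          show q.eval l = 0 by simp [hq], zero_mul, add_zero, mul_comm (eval l q0)]
      rw [← Matrix.mul_assoc, hGZ, sub_mul, Matrix.smul_mul, Matrix.mul_assoc _ G, hGeig,
        Matrix.mul_smul, smul_smul, Matrix.sub_mulVec, dotProduct_sub, Matrix.smul_mulVec,
        Matrix.smul_mulVec, Matrix.mul_vecMulVec, Matrix.vecMulVec_mul, Matrix.vecMulVec_mulVec,
        ← Matrix.dotProduct_mulVec, dotProduct_smul, dotProduct_smul] at h0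
      simp only [op_smul_eq_smul, dotProduct_smul, smul_eq_mul] at h0
      have hce : c.eval l * q0.eval l * (aeval B D.e).trace = s * (y ⬝ᵥ (G *ᵥ x)) := by
        rw [← hΓq0, ← hbase l hl, D.trace_of_roots (c * q0) fun μ hμ hne => by
          rw [eval_mul, show q0.eval μ = 0 from
            Lagrange.eval_nodal_at_node (v := id) (Finset.mem_erase.2 ⟨hne, hμ⟩), mul_zero], eval_mul]
      refine mul_left_cancel₀ (hl0 l hl) ?_
      linear_combination (aeval B D.e).trace * h0 + l * β * hce
    have hβ : β ≠ 0 := by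
      intro h
      obtain ⟨i, hi⟩ := Function.ne_iff.1 hv0
      obtain ⟨j, hj⟩ := Function.ne_iff.1 hw0
      have := hpair (Pi.single j 1) (Pi.single i 1)
      rw [h, zero_mul, Matrix.dotProduct_mulVec, dotProduct_single, single_dotProduct, mul_one,
        one_mul, mul_eq_zero, mul_eq_zero, ← Matrix.mulVec_transpose] at this
      rcases this with (h1 | h1) | h1
      · exact hj h1
      · exact hi h1
      · exact D.trace_ne_zero h1
    obtain ⟨i, hi⟩ := Function.ne_iff.1 hv0
    have h2 := hpair v (Pi.single i 1)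
    rw [single_dotProduct, one_mul, mul_assoc] at h2
    exact mul_left_cancel₀ (show (G *ᵥ v) i ≠ 0 from hi)
      (by linear_combination -(mul_left_cancel₀ hβ h2))
  -- the cyclic vector
  have hsum : ∑ l : spec B, (d l).s = r := by
    have h : (aeval B (∑ l : spec B, (d l).e - 1)).trace = 0 := trace_eq_zero_of_roots fun l hl => by
      rw [IsRoot.def, eval_sub, eval_finsetSum, Finset.sum_eq_single ⟨l, hl⟩ (fun m _ hm =>
        (d m).e_other l hl fun h => hm (Subtype.ext h.symm)) (by simp), (d ⟨l, hl⟩).e_self]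
      simp
    rw [map_sub, map_sum, map_one, Matrix.trace_sub, Matrix.trace_sum, Matrix.trace_one,
      sub_eq_zero, ← Finset.sum_congr rfl fun l _ => key l, Fintype.card_fin] at h
    exact_mod_cast h
  have hne : ∀ l : spec B, ∃ x : Fin r → ℂ,
      aeval B ((d l).e * (X - C l.1) ^ ((d l).s - 1)) *ᵥ x ≠ 0 := fun l => by
    by_contra hno
    push Not at hno
    refine (d l).not_dvd 1 (by simp) ?_
    rw [mul_one]
    exact Matrix.ext_of_mulVec_single fun i => (hno _).trans (Matrix.zero_mulVec _).symm
  choose x hx using hne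
  refine ⟨∑ l, aeval B (d l).e *ᵥ x l, Fintype.linearIndependent_iff.2 fun g hg i => ?_⟩
  let p : ℂ[X] := ∑ j : Fin r, C (g j) * X ^ j.1
  have hp : aeval B p *ᵥ ∑ l, aeval B (d l).e *ᵥ x l = 0 := by
    rw [← hg]
    simp [p, Matrix.sum_mulVec, Algebra.algebraMap_eq_smul_one, Matrix.smul_mulVec]
  have hdvd : ∀ l : spec B, (X - C l.1) ^ (d l).s ∣ p := by
    intro l
    have h1 : aeval B (p * (d l).e) *ᵥ x l = 0 := by
      have h2 := congrArg (fun z => aeval B (d l).e *ᵥ z) hp
      simp only [Matrix.mulVec_sum, Matrix.mulVec_mulVec, Matrix.mulVec_zero] at h2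
      rw [Finset.sum_eq_single l] at h2
      · rwa [← Matrix.mul_assoc, (EigData.commute B (d l).e p).eq, Matrix.mul_assoc, (d l).idem,
          ← map_mul] at h2
      · intro m _ hm
        have : aeval B (d l).e * aeval B (d m).e = 0 := by
          rw [← map_mul]
          have hz : IsNilpotent (aeval B ((d l).e * (d m).e)) := isNilpotent_of_roots fun μ hμ => by
            by_cases h : μ = l.1
            · rw [IsRoot.def, eval_mul,
                (d m).e_other μ hμ fun h' => hm (Subtype.ext (h'.symm.trans h)), mul_zero]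
            · rw [IsRoot.def, eval_mul, (d l).e_other μ hμ h, zero_mul]
          obtain ⟨N, hN⟩ := hz
          have hid : IsIdempotentElem (aeval B ((d l).e * (d m).e)) := by
            rw [map_mul]
            exact IsIdempotentElem.mul_of_commute (EigData.commute B _ _) (d l).idem (d m).idem
          rcases N with _ | N
          · rw [pow_zero] at hN
            rw [← one_mul (aeval B _), hN, zero_mul]
          · rw [← hid.pow_succ_eq N, hN]
        rw [(EigData.commute B p (d m).e).eq, ← Matrix.mul_assoc, this, zero_mul,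
          Matrix.zero_mulVec]
      · simp
    by_cases hp0 : p = 0
    · rw [hp0]; exact dvd_zero _
    obtain ⟨p', hp', hp'l⟩ := exists_eq_pow_rootMultiplicity_mul_and_not_dvd p hp0 l.1
    set j := p.rootMultiplicity l.1
    rw [hp']
    refine dvd_mul_of_dvd_left (pow_dvd_pow _ ?_) _
    by_contra hlt
    apply hx l
    set y := aeval B ((d l).e * (X - C l.1) ^ ((d l).s - 1)) *ᵥ x l
    have hy : B *ᵥ y = l.1 • y := by
      have hk := (d l).dvd_other ((X - C l.1) ^ (d l).s) dvd_rfl
      have := congrArg (· *ᵥ x l) hk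
      rw [Matrix.zero_mulVec, show (d l).e * (X - C l.1) ^ (d l).s =
        (X - C l.1) * ((d l).e * (X - C l.1) ^ ((d l).s - 1)) by
          conv_lhs => rw [show (d l).s = (d l).s - 1 + 1 by omega, pow_succ]
          ring, map_mul, map_sub, aeval_X, aeval_C, Algebra.algebraMap_eq_smul_one,
        ← Matrix.mulVec_mulVec, Matrix.sub_mulVec, Matrix.smul_mulVec, Matrix.one_mulVec,
        sub_eq_zero] at this
      exact this
    have h3 : aeval B p' *ᵥ y = 0 := by
      have h4 := congrArg (fun z => aeval B ((X - C l.1) ^ ((d l).s - 1 - j)) *ᵥ z) h1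
      simp only [Matrix.mulVec_zero, Matrix.mulVec_mulVec, ← map_mul] at h4
      simp only [y, Matrix.mulVec_mulVec, ← map_mul]
      rw [← h4, hp']
      refine congrArg (fun z => aeval B z *ᵥ x l) ?_
      rw [show (d l).s - 1 = (d l).s - 1 - j + j by omega, pow_add,
        show (d l).s - 1 - j + j - j = (d l).s - 1 - j by omega]
      ring
    rw [aeval_eigvec hy] at h3
    exact (smul_eq_zero.1 h3).resolve_left fun h5 => hp'l (dvd_iff_isRoot.2 h5)
  by_contra hgi
  have hp0 : p ≠ 0 := fun h => hgi (by
    have := congrArg (fun z => z.coeff i.1) h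
    simpa [p, coeff_C_mul, coeff_X_pow, Fin.val_inj] using this)
  have hprod : (∏ l : spec B, (X - C l.1) ^ (d l).s) ∣ p :=
    Finset.prod_dvd_of_coprime (fun x _ y _ hxy => (isCoprime_X_sub_C_of_isUnit_sub
      (sub_ne_zero.2 fun h => hxy (Subtype.ext h)).isUnit).pow) fun l _ => hdvd l
  have h1 := Polynomial.natDegree_le_of_dvd hprod hp0
  rw [natDegree_prod _ _ fun l _ => pow_ne_zero _ (X_sub_C_ne_zero _)] at h1
  simp only [natDegree_pow, natDegree_X_sub_C, mul_one, hsum] at h1
  have h2 : p.natDegree < r := (natDegree_lt_iff_degree_lt hp0).2 ((degree_sum_fin_lt g))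
  omega

end Vale.Agent.P002.Global
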