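import Vale.Agent.P002.Global.Tangent
import Vale.Agent.P002.Global.Spectral

/-!
Near a representation with scalar commutant there is one whose first `b` has a cyclic vector, and
one whose first handle takes arbitrary nearby values.
-/

open Matrix Filter Topology Polynomial
open scoped commutatorElement

namespace Vale.Agent.P002.Global

open Vale.Agent.P002.Surface

variable {k s r : ℕ}

lemma continuousAt_of_ent {α : Type*} [TopologicalSpace α] {a : α} {f : α → SL r}
    (h : ∀ i j, ContinuousAt (fun t => (f t).1 i j) a) : ContinuousAt f a :=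
  (Topology.IsInducing.continuousAt_iff (g := fun M : SL r => (M.1 : Fin r → Fin r → ℂ))
    ⟨rfl⟩).2 (continuousAt_pi.2 fun i => continuousAt_pi.2 fun j => h i j)

lemma continuous_ent {X : Type*} (x : X) (i j : Fin r) :
    Continuous fun y : X → SL r => (y x).1 i j := by
  have hval : Continuous fun M : SL r => (M.1 : Fin r → Fin r → ℂ) := continuous_induced_dom
  exact (continuous_apply j).comp ((continuous_apply i).comp (hval.comp (continuous_apply x)))

lemma hasJet_comp {E : Type} [NormedAddCommGroup E] [NormedSpace ℂ E] {Φ : E → SL r}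
    (hΦ : Φ ∈ entGroup (C1 E)) {h : ℂ → E} {e : E} (h0 : h 0 = 0) (hh : HasDerivAt h e 0) :
    HasJet (fun z : ℂ => Φ (h z)) ⟨Φ 0, fd Φ e⟩ := by
  refine ⟨by simp [h0], fun i j => ?_⟩
  show HasDerivAt _ (((Φ 0).1 * (((Φ 0)⁻¹).1 *
    Matrix.of fun i j => fderiv ℂ (ent Φ i j) 0 e)) i j) 0
  rw [← Matrix.mul_assoc, val_mul_inv, one_mul]
  exact ((show ContDiff ℂ 1 (ent Φ i j) from hΦ i j).differentiable one_ne_zero 0).hasFDerivAt
    |>.comp_hasDerivAt_of_eq 0 hh h0.symm

lemma exists_max_of_le {α : Type*} {p : α → Prop} (f : α → ℕ) (B : ℕ) (hB : ∀ a, p a → f a ≤ B)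
    (hne : ∃ a, p a) : ∃ a, p a ∧ ∀ b, p b → f b ≤ f a := by
  classical
  obtain ⟨a, ha⟩ := hne
  let P : ℕ → Prop := fun n => ∃ b, p b ∧ f b = n
  obtain ⟨b, hb, hfb⟩ : P (Nat.findGreatest P B) :=
    Nat.findGreatest_spec (P := P) (hB a ha) ⟨a, ha, rfl⟩
  exact ⟨b, hb, fun c hc => hfb ▸ Nat.le_findGreatest (P := P) (hB c hc) ⟨c, hc, rfl⟩⟩

/-- The equations of the commutant. -/
noncomputable def cm {ι : Type} [Fintype ι] (Y : ι → SL r) : Coord r →ₗ[ℂ] ι → Coord r where
  toFun c x := flat ((Y x).1 * Matrix.of c - Matrix.of c * (Y x).1)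
  map_add' a b := by
    funext x
    show flat ((Y x).1 * (Matrix.of a + Matrix.of b) - (Matrix.of a + Matrix.of b) * (Y x).1) = _
    rw [mul_add, add_mul, add_sub_add_comm]
    rfl
  map_smul' t a := by
    funext x
    show flat ((Y x).1 * (t • Matrix.of a) - (t • Matrix.of a) * (Y x).1) = _
    rw [Matrix.mul_smul, Matrix.smul_mul, ← smul_sub]
    rfl

lemma mem_ker_cm {ι : Type} [Fintype ι] {Y : ι → SL r} {c : Coord r} :
    c ∈ LinearMap.ker (cm Y) ↔ ∀ x, Commute (Y x).1 (Matrix.of c) := by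
  rw [LinearMap.mem_ker, funext_iff]
  exact forall_congr' fun x => ⟨fun h => sub_eq_zero.1 (congrArg Matrix.of h),
    fun h => (congrArg flat (sub_eq_zero.2 h) : _)⟩

/-- The score of the commutant. -/
noncomputable def rk {ι : Type} [Fintype ι] (Y : ι → SL r) : ℕ :=
  Module.finrank ℂ (LinearMap.range (cm Y))

lemma rk_le {ι : Type} [Fintype ι] (Y : ι → SL r) : rk Y ≤ r * r := by
  refine (LinearMap.finrank_range_le _).trans (le_of_eq ?_)
  simp [Module.finrank_pi_fintype]

lemma cm_diff {ι : Type} [Fintype ι] {Y : ℂ → ι → SL r} {p : ι → Jet r}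
    (hY : ∀ x, HasJet (fun t => Y t x) (p x)) (c : Coord r) :
    DifferentiableAt ℂ (fun t => cm (Y t) c) 0 := by
  refine differentiableAt_pi.2 fun x => differentiableAt_pi.2 fun i =>
    differentiableAt_pi.2 fun j => ?_
  exact ((((MD.of_hasJet (hY x)).mul (MD.const _)).sub
    ((MD.const _).mul (MD.of_hasJet (hY x)))) i j).differentiableAt

/-- A commuting matrix extends to first order when the commutant has constant dimension. -/
lemma first_order {ι : Type} [Fintype ι] (Y : ℂ → ι → SL r) (p : ι → Jet r)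
    (hY : ∀ x, HasJet (fun t => Y t x) (p x)) (hle : ∀ᶠ t in 𝓝 0, rk (Y t) ≤ rk (Y 0))
    {ξ : Mat r} (hξ : ∀ x, Commute (Y 0 x).1 ξ) :
    ∃ δ : Mat r, ∀ x, br ξ (p x).v = ad (p x).M δ - δ := by
  obtain ⟨c, hc0, hcd, hct⟩ := exists_section (fun t => cm (Y t)) (cm_diff hY) hle
    (x₀ := flat ξ) (mem_ker_cm.2 hξ)
  have hX : MD (fun t => Matrix.of (c t)) (Matrix.of (deriv c 0)) := fun i j =>
    hasDerivAt_pi.1 (hasDerivAt_pi.1 hcd.hasDerivAt i) j
  refine ⟨Matrix.of (deriv c 0), fun x => ?_⟩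
  have h1 := ((MD.of_hasJet (hY x)).mul hX).sub (hX.mul (MD.of_hasJet (hY x)))
  have h2 : MD (fun t => (Y t x).1 * Matrix.of (c t) - Matrix.of (c t) * (Y t x).1) 0 := by
    refine (MD.const (0 : Mat r)).congr ?_
    filter_upwards [hct] with t ht
    exact (sub_eq_zero.2 (mem_ker_cm.1 ht x)).symm
  have h3 := h1.unique h2
  have hM : Y 0 x = (p x).M := (hY x).1
  simp only [hM, hc0] at h3
  have hξ' := hξ x
  rw [hM] at hξ'
  rw [show (Matrix.of (flat ξ) : Mat r) = ξ from rfl, ← Matrix.mul_assoc ξ, ← hξ'.eq] at h3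
  have h4 := congrArg (fun X => ((p x).M⁻¹).1 * X) h3
  simp only [mul_sub, mul_add, mul_zero, ← Matrix.mul_assoc, val_inv_mul, one_mul] at h4
  rw [br_apply, ad, ← sub_eq_zero, ← h4]
  abel

lemma hasJet_evC (C : Fin s → SL r) {γ : ℂ → Idx 1 k s → SL r} {p : Idx 1 k s → Jet r}
    (hγ : ∀ x, HasJet (fun t => γ t x) (p x)) (x : Idx 1 k s) :
    HasJet (fun t => evC C (γ t) x) (evC (fun j => Jet.zero (C j)) p x) := by
  let c : Fin s → (ℂ → SL r) × Jet r := fun j => (fun _ => C j, Jet.zero (C j))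
  let w : Idx 1 k s → (ℂ → SL r) × Jet r := fun x => (fun t => γ t x, p x)
  have h : HasJet (evC c w x).1 (evC c w x).2 :=
    evC_mem (jetGroup r) c w (fun j => hasJet_const (C j)) hγ x
  rcases x with x | x | j <;> exact h

/-- Solutions inside an open set. -/
def Sol (C : Fin s → SL r) (W : Set (Idx 1 k s → SL r)) : Set (Idx 1 k s → SL r) :=
  {q | q ∈ W ∧ R C q = 1}

/-- Curves in the solutions with a prescribed tangent vector. -/
lemma exists_curve (C : Fin s → SL r) {W : Set (Idx 1 k s → SL r)} (hW : IsOpen W)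
    {q : Idx 1 k s → SL r} (hq : q ∈ Sol C W) (hS : Schur (evC C q)) {δ : Tg k s r}
    (hδ : dR C q δ = 0) :
    ∃ γ : ℂ → Idx 1 k s → SL r, γ 0 = q ∧
      (∀ x, HasJet (fun t => γ t x) ⟨q x, tl (Matrix.of (δ x))⟩) ∧
      ∀ᶠ t in 𝓝 0, γ t ∈ Sol C W := by
  have hq0 : shift q (0 : Tg k s r) = q := by
    funext x
    show q x * expm (Matrix.of (0 : Coord r)) = q x
    rw [show (Matrix.of (0 : Coord r) : Mat r) = 0 from rfl, expm_zero, mul_one]
  have hfd : ∀ x e, fd (fun e => shift q e x) e = tl (Matrix.of (e x)) := fun x e =>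
    fd_eq_of_hasJet (shift_mem q x) (hasJet_shift q e x)
  let K := LinearMap.ker (dR C q)
  obtain ⟨π, hπ⟩ := LinearMap.exists_extend (LinearMap.id : K →ₗ[ℂ] K)
  obtain ⟨ψ, hψ0, hψd, hψ⟩ := exists_lift C (shift q) (shift_mem q) (by rw [hq0]; exact hq.2) π
    fun X hX w => by
      obtain ⟨e, he⟩ := dR_surjective C q hq.2 hS hX
      refine ⟨e + ((w - π e : K) : Tg k s r), ?_, ?_⟩
      · rw [hq0]
        simp only [hfd, ← dR_apply, map_add]
        rw [he, show dR C q ((w - π e : K) : Tg k s r) = 0 from (w - π e : K).2, add_zero]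
      · rw [map_add, show π ((w - π e : K) : Tg k s r) = w - π e from LinearMap.congr_fun hπ (w - π e)]
        abel
  let u : K := ⟨δ, hδ⟩
  let h : ℂ → Tg k s r := fun t => ψ (t • u)
  have hl : HasDerivAt (fun t : ℂ => t • u) u 0 := by
    simpa using (hasDerivAt_id (0 : ℂ)).smul_const u
  have hd : HasDerivAt h (fderiv ℂ ψ 0 u) 0 :=
    hψd.hasFDerivAt.comp_hasDerivAt_of_eq 0 hl (by simp)
  set e := fderiv ℂ ψ 0 u
  have h0 : h 0 = 0 := by simp [h, hψ0]
  have hjet : ∀ x, HasJet (fun t => shift q (h t) x) ⟨q x, tl (Matrix.of (e x))⟩ := fun x => by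
    have := hasJet_comp (shift_mem q x) h0 hd
    rwa [hfd, show shift q (0 : Tg k s r) x = q x from congrFun hq0 x] at this
  have hev : ∀ᶠ t in 𝓝 (0 : ℂ), R C (shift q (h t)) = 1 ∧ π (h t) = t • u := by
    have hc : Tendsto (fun t : ℂ => t • u) (𝓝 0) (𝓝 0) := by simpa using hl.continuousAt.tendsto
    exact hc.eventually hψ
  have he : dR C q e = 0 := by
    have h1 := MD.of_hasJet (hasJet_R C q _ (fun t => shift q (h t)) hjet)
    have h2 : MD (fun t => (R C (shift q (h t))).1) 0 := (MD.const (1 : Mat r)).congr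
      (hev.mono fun t ht => (congrArg (fun M : SL r => M.1) ht.1).symm)
    have h3 := h1.unique h2
    rw [dR_apply]
    have h4 := congrArg (fun X => ((relJ C q fun x => tl (Matrix.of (e x))).M⁻¹).1 * X) h3
    simp only [← Matrix.mul_assoc, val_inv_mul, one_mul, mul_zero] at h4
    exact h4
  have heu : e = δ := by
    have h1 : HasDerivAt (fun t => π (h t)) (π e) 0 :=
      (LinearMap.toContinuousLinearMap π).hasFDerivAt.comp_hasDerivAt 0 hd
    have h2 : HasDerivAt (fun t => π (h t)) u 0 :=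
      hl.congr_of_eventuallyEq (hev.mono fun t ht => ht.2)
    have h3 := LinearMap.congr_fun hπ ⟨e, he⟩
    simp only [LinearMap.comp_apply, Submodule.subtype_apply, LinearMap.id_apply] at h3
    rw [h1.unique h2] at h3
    exact (congrArg Subtype.val h3).symm
  rw [heu] at hjet
  refine ⟨fun t => shift q (h t), by simp [h0, hq0], hjet, ?_⟩
  have hcont : ContinuousAt (fun t => shift q (h t)) 0 := continuousAt_pi.2 fun x =>
    continuousAt_of_ent fun i j => ((hjet x).2 i j).continuousAt
  filter_upwards [hcont.preimage_mem_nhds (by simpa [h0, hq0] using hW.mem_nhds hq.1), hev]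
    with t h1 h2
  exact ⟨h1, h2.1⟩

/-- Tangent vectors supported on the further handles. -/
noncomputable def emb : (Gens k → Mat r) →ₗ[ℂ] Tg k s r where
  toFun u := Sum.elim 0 (Sum.elim (fun x => flat (u x)) 0)
  map_add' a b := by funext x; rcases x with x | x | j <;> simp <;> rfl
  map_smul' c a := by funext x; rcases x with x | x | j <;> simp <;> rfl

lemma rest_dR (C : Fin s → SL r) (q : Idx 1 k s → SL r) (u : Gens k → Mat r) :
    dR C q (emb u) = (relRJ C (fun x => q (Sum.inr x))
      (Sum.elim (fun x => tl (u x)) fun _ => 0)).v := by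
  rw [dR_apply, relJ_split, Jet.mul_v]
  simp only [emb, LinearMap.coe_mk, AddHom.coe_mk, Sum.elim_inl, Sum.elim_inr, Pi.zero_apply]
  rw [show (Matrix.of (0 : Coord r) : Mat r) = 0 from rfl, map_zero, comm_v]
  simp only [ad_zero, add_zero, sub_zero, zero_add]
  congr 2
  funext x
  rcases x with x | j
  · rfl
  · simp only [Sum.elim_inr, Pi.zero_apply, show (Matrix.of (0 : Coord r) : Mat r) = 0 from rfl,
      map_zero]

lemma evR_jets (C : Fin s → SL r) (z : Rest k s → SL r) (v : Gens k → Mat r) :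
    evR (fun j => Jet.zero (C j)) (fun x => (⟨z x, Sum.elim v (fun _ => 0) x⟩ : Jet r)) =
      Sum.elim (fun x => (⟨z (Sum.inl x), v x⟩ : Jet r))
        fun j => Jet.zero (evR C z (Sum.inr j)) := by
  funext x
  rcases x with x | j
  · rfl
  · simp only [evR, Sum.elim_inr]
    rw [← Jet.zero_apply, ← map_inv, ← map_mul, ← map_mul]

/-- The matrices exchanging image and kernel of an idempotent. -/
noncomputable def off (P : Mat r) : Submodule ℂ (Mat r) where
  carrier := {X | P * X * P = 0 ∧ (1 - P) * X * (1 - P) = 0}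
  add_mem' ha hb := ⟨by rw [mul_add, add_mul, ha.1, hb.1, add_zero],
    by rw [mul_add, add_mul, ha.2, hb.2, add_zero]⟩
  zero_mem' := by simp
  smul_mem' c X hX := ⟨by rw [Matrix.mul_smul, Matrix.smul_mul, hX.1, smul_zero],
    by rw [Matrix.mul_smul, Matrix.smul_mul, hX.2, smul_zero]⟩

lemma ad_fix {M : SL r} {P : Mat r} (h : Commute M.1 P) (X : Mat r) :
    ad M (P * X * P) = P * ad M X * P := by
  have hi : Commute (M⁻¹).1 P := ad_eq_self_iff.1 (by
    conv_lhs => rw [← ad_eq_self_iff.2 h, ad_ad_inv'])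
  simp only [ad, ← Matrix.mul_assoc, hi.eq]
  simp only [Matrix.mul_assoc, h.eq]

/-- The jets at matrices commuting with `P` with tangent vector in `off P`. -/
noncomputable def offJets (P : Mat r) : Subgroup (Jet r) where
  carrier := {p | Commute p.M.1 P ∧ p.v ∈ off P}
  one_mem' := ⟨Commute.one_left P, (off P).zero_mem⟩
  mul_mem' := fun {p q} hp hq => by
    refine ⟨hp.1.mul_left hq.1, (off P).add_mem ⟨?_, ?_⟩ hq.2⟩
    · rw [← ad_fix hq.1, hp.2.1, ad_zero]
    · rw [← ad_fix ((Commute.one_right _).sub_right hq.1), hp.2.2, ad_zero]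
  inv_mem' := fun {p} hp => by
    have hi : Commute (p.M⁻¹).1 P := ad_eq_self_iff.1 (by
      conv_lhs => rw [← ad_eq_self_iff.2 hp.1, ad_ad_inv'])
    refine ⟨hi, (off P).neg_mem ⟨?_, ?_⟩⟩
    · rw [← ad_fix hi, hp.2.1, ad_zero]
    · rw [← ad_fix ((Commute.one_right _).sub_right hi), hp.2.2, ad_zero]

/-- The first `b` and the values away from the first handle. -/
def rowA (C : Fin s → SL r) (q : Idx 1 k s → SL r) : Option (Rest k s) → SL r
  | none => q iB
  | some x => evR C (fun y => q (Sum.inr y)) x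

lemma evC_inr (C : Fin s → SL r) (q : Idx 1 k s → SL r) (x : Rest k s) :
    evC C q (Sum.inr x) = evR C (fun y => q (Sum.inr y)) x := rfl

/-- At a point of minimal commutant of all but the first `a` there is no idempotent. -/
theorem no_idem (hk : 2 ≤ k) (C : Fin s → SL r) {W : Set (Idx 1 k s → SL r)} (hW : IsOpen W)
    {q : Idx 1 k s → SL r} (hq : q ∈ Sol C W) (hS : Schur (evC C q))
    (hmax : ∀ q' ∈ Sol C W, rk (rowA C q') ≤ rk (rowA C q)) {P : Mat r} (hP : P * P = P)
    (hPc : ∀ o, Commute (rowA C q o).1 P) : P = 0 ∨ P = 1 := by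
  by_contra hne
  rw [not_or] at hne
  set z := fun x => q (Sum.inr x)
  have hQ : ∀ X ∈ off P, X.trace = 0 ∧ br P (br P X) = X ∧ tl X = X := by
    intro X hX
    have e : X = P * X * P + P * X * (1 - P) + (1 - P) * X * P + (1 - P) * X * (1 - P) := by
      simp only [mul_sub, sub_mul, mul_one, one_mul]
      abel
    have htr : X.trace = 0 := by
      rw [e, hX.1, hX.2]
      simp only [zero_add, add_zero, Matrix.trace_add]
      rw [Matrix.trace_mul_comm (P * X) (1 - P), Matrix.trace_mul_comm ((1 - P) * X) P]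
      simp [← Matrix.mul_assoc, sub_mul, mul_sub, hP]
    refine ⟨htr, ?_, tl_of_trace _ htr⟩
    have h2 := hX.2
    simp only [mul_sub, sub_mul, mul_one, one_mul] at h2
    rw [hX.1, sub_zero, sub_sub, sub_eq_zero] at h2
    simp only [br_apply, sub_mul, mul_sub]
    rw [Matrix.mul_assoc X P P, hP, ← Matrix.mul_assoc P X P, ← Matrix.mul_assoc P P X, hP, hX.1,
      sub_zero, zero_sub, sub_neg_eq_add, add_comm, ← h2]
  let ι : (Gens k → off P) →ₗ[ℂ] Gens k → Mat r := (off P).subtype.compLeft (Gens k)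
  let f : (Gens k → off P) →ₗ[ℂ] Mat r := (dR C q).comp (emb.comp ι)
  have hf : LinearMap.range f ≤ off P := by
    rintro _ ⟨u, rfl⟩
    show dR C q (emb fun x => (u x : Mat r)) ∈ off P
    rw [rest_dR]
    simp only [(hQ _ (u _).2).2.2]
    rw [relRJ, evR_jets]
    refine (?_ : relR (Sum.elim (fun x => (⟨z (Sum.inl x), (u x : Mat r)⟩ : Jet r))
      fun j => Jet.zero (evR C z (Sum.inr j))) ∈ offJets P).2
    have hmem : ∀ x, Sum.elim (fun x => (⟨z (Sum.inl x), (u x : Mat r)⟩ : Jet r))
        (fun j => Jet.zero (evR C z (Sum.inr j))) x ∈ offJets P := by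
      rintro (x | j)
      · exact ⟨hPc (some (Sum.inl x)), (u x).2⟩
      · exact ⟨hPc (some (Sum.inr j)), (off P).zero_mem⟩
    exact (offJets P).mul_mem (list_prod_mem fun w hw => by
      obtain ⟨i, rfl⟩ := List.mem_ofFn.1 hw
      simp only [Function.comp_apply, commutatorElement_def]
      exact mul_mem (mul_mem (mul_mem (hmem _) (hmem _)) (inv_mem (hmem _))) (inv_mem (hmem _)))
      (list_prod_mem fun w hw => by obtain ⟨i, rfl⟩ := List.mem_ofFn.1 hw; exact hmem _)
  let D : off P →ₗ[ℂ] Gens k → Mat r :=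
    { toFun := fun w x => ad (z (Sum.inl x)) (w : Mat r) - (w : Mat r)
      map_add' := fun a b => by funext x; simp; abel
      map_smul' := fun c a => by funext x; simp [smul_sub] }
  have hle : (LinearMap.ker f).map ι ≤ LinearMap.range D := by
    rintro _ ⟨u, hu, rfl⟩
    obtain ⟨γ, hγ0, hγ, hγW⟩ := exists_curve C hW hq hS (δ := emb (ι u)) hu
    have hjets : ∀ o, HasJet (fun t => rowA C (γ t) o) (match o with
        | none => ⟨q iB, 0⟩
        | some x => evC (fun j => Jet.zero (C j))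
            (fun x => (⟨q x, tl (Matrix.of (emb (ι u) x))⟩ : Jet r)) (Sum.inr x)) := by
      rintro (_ | x)
      · have := hγ iB
        simp only [emb, LinearMap.coe_mk, AddHom.coe_mk, Sum.elim_inl, Pi.zero_apply,
          show (Matrix.of (0 : Coord r) : Mat r) = 0 from rfl, map_zero] at this
        exact this
      · exact hasJet_evC C hγ (Sum.inr x)
    obtain ⟨δ, hδ⟩ := first_order (fun t => rowA C (γ t)) _ hjets
      (hγW.mono fun t ht => by rw [hγ0]; exact hmax _ ht)
      (ξ := P) (fun o => by rw [hγ0]; exact hPc o)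
    have hw : br P δ ∈ off P := by
      constructor
      · simp only [br_apply, mul_sub, sub_mul, Matrix.mul_assoc, hP]
        simp [← Matrix.mul_assoc, hP]
      · simp only [br_apply, mul_sub, sub_mul, mul_one, one_mul, Matrix.mul_assoc, hP]
        simp only [← Matrix.mul_assoc, hP]
        abel
    refine ⟨⟨br P δ, hw⟩, funext fun x => ?_⟩
    have h1 : br P (tl (u x : Mat r)) = ad (z (Sum.inl x)) δ - δ := hδ (some (Sum.inl x))
    rw [(hQ _ (u x).2).2.2] at h1
    show ad (z (Sum.inl x)) (br P δ) - br P δ = u x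
    conv_rhs => rw [← (hQ _ (u x).2).2.1, h1, map_sub]
    congr 1
    have hc : ad (z (Sum.inl x)) P = P := ad_eq_self_iff.2 (hPc (some (Sum.inl x)))
    simp only [br_apply, ad_sub]
    have hmul : ∀ A B : Mat r, ad (z (Sum.inl x)) (A * B) =
        ad (z (Sum.inl x)) A * ad (z (Sum.inl x)) B := fun A B => by
      simp only [ad, Matrix.mul_assoc]
      rw [← Matrix.mul_assoc (z (Sum.inl x)).1 _ (B * _), val_mul_inv, one_mul]
    rw [hmul, hmul, hc]
  have hι : Function.Injective ι := fun a b h => funext fun x => Subtype.ext (congrFun h x)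
  have h1 := LinearMap.finrank_range_add_finrank_ker f
  have h2 := Submodule.finrank_mono hf
  have h3 := (Submodule.finrank_mono hle).trans (LinearMap.finrank_range_le D)
  rw [← (Submodule.equivMapOfInjective ι hι _).finrank_eq] at h3
  rw [Module.finrank_pi_fintype, Finset.sum_const, Finset.card_univ, Fintype.card_prod,
    Fintype.card_fin, Fintype.card_bool, smul_eq_mul] at h1
  have hpos : 0 < Module.finrank ℂ (off P) := by
    obtain ⟨a, ha⟩ : ∃ a, P *ᵥ a ≠ 0 := by
      by_contra hno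
      push Not at hno
      exact hne.1 (Matrix.ext_of_mulVec_single fun i => (hno _).trans (Matrix.zero_mulVec _).symm)
    obtain ⟨b, hb⟩ : ∃ b, b ᵥ* (1 - P) ≠ 0 := by
      by_contra hno
      push Not at hno
      exact hne.2 (sub_eq_zero.1 (Matrix.ext fun i j => by
        simpa using congrFun (hno (Pi.single i 1)) j)).symm
    have hmem : Matrix.vecMulVec (P *ᵥ a) (b ᵥ* (1 - P)) ∈ off P := by
      constructor <;>
      simp only [Matrix.mul_vecMulVec, Matrix.vecMulVec_mul, Matrix.mulVec_mulVec,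
        Matrix.vecMul_vecMul]
      · rw [show (1 - P) * P = 0 by rw [sub_mul, one_mul, hP, sub_self], Matrix.vecMul_zero]
        exact Matrix.vecMulVec_zero _
      · rw [show (1 - P) * P = 0 by rw [sub_mul, one_mul, hP, sub_self], Matrix.zero_mulVec]
        exact Matrix.zero_vecMulVec _
    refine Submodule.one_le_finrank_iff.2 fun hbot => ?_
    obtain ⟨i, hi⟩ := Function.ne_iff.1 ha
    obtain ⟨j, hj⟩ := Function.ne_iff.1 hb
    have := (Submodule.mem_bot ℂ).1 (hbot ▸ hmem)
    exact mul_ne_zero hi hj (congrFun (congrFun this i) j)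
  have h4 : 4 * Module.finrank ℂ (off P) ≤ k * 2 * Module.finrank ℂ (off P) :=
    Nat.mul_le_mul_right _ (by omega)
  omega

end Vale.Agent.P002.Global
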