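import Vale.Agent.P002.Global.ChartId

/-!
A polynomial vanishing on an open piece of the representations with scalar commutant vanishes on
all of them: exchange the first two handles and use the chart.
-/

open Matrix Filter Topology Polynomial
open scoped commutatorElement

namespace Vale.Agent.P002.Global

open Vale.Agent.P002.Surface

variable {k s r : ℕ}

/-- The first generators of the further handles. -/
abbrev iR (i0 : Fin k) (c : Bool) : Idx 1 k s := Sum.inr (Sum.inl (i0, c))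

/-- Exchange of the first handle with a further one. -/
def sw {G : Type} [Group G] (i0 : Fin k) (y : Idx 1 k s → G) : Idx 1 k s → G :=
  Sum.elim (fun x => ⁅y iA, y iB⁆ * y (iR i0 x.2) * ⁅y iA, y iB⁆⁻¹)
    (Sum.elim (fun x => if x.1 = i0 then y (Sum.inl (0, x.2)) else y (Sum.inr (Sum.inl x)))
      fun j => y (Sum.inr (Sum.inr j)))

/-- The inverse exchange. -/
def swi {G : Type} [Group G] (i0 : Fin k) (y : Idx 1 k s → G) : Idx 1 k s → G :=
  Sum.elim (fun x => y (iR i0 x.2))
    (Sum.elim (fun x => if x.1 = i0 then ⁅y (iR i0 false), y (iR i0 true)⁆⁻¹ * y (Sum.inl (0, x.2)) *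
        ⁅y (iR i0 false), y (iR i0 true)⁆ else y (Sum.inr (Sum.inl x)))
      fun j => y (Sum.inr (Sum.inr j)))

lemma swi_sw {G : Type} [Group G] (i0 : Fin k) (y : Idx 1 k s → G) : swi i0 (sw i0 y) = y := by
  funext x
  rcases x with ⟨i, c⟩ | ⟨i, c⟩ | j
  · rw [Fin.fin_one_eq_zero i]
    simp [swi, sw]
  · by_cases h : i = i0
    · subst h
      simp only [swi, sw, iA, iB, iR, Sum.elim_inl, Sum.elim_inr, if_true]
      group
    · simp [swi, sw, h]
  · simp [swi, sw]

lemma sw_swi {G : Type} [Group G] (i0 : Fin k) (y : Idx 1 k s → G) : sw i0 (swi i0 y) = y := by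
  funext x
  rcases x with ⟨i, c⟩ | ⟨i, c⟩ | j
  · rw [Fin.fin_one_eq_zero i]
    simp only [swi, sw, iA, iB, iR, Sum.elim_inl, Sum.elim_inr, if_true]
    group
  · by_cases h : i = i0
    · subst h; simp [swi, sw]
    · simp [swi, sw, h]
  · simp [swi, sw]

lemma sw_mem {G : Type} [Group G] (H : Subgroup G) (i0 : Fin k) (y : Idx 1 k s → G)
    (hy : ∀ x, y x ∈ H) : ∀ x, sw i0 y x ∈ H := by
  have hM : ⁅y iA, y iB⁆ ∈ H :=
    H.mul_mem (H.mul_mem (H.mul_mem (hy _) (hy _)) (H.inv_mem (hy _))) (H.inv_mem (hy _))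
  rintro (x | x | j)
  · exact H.mul_mem (H.mul_mem hM (hy _)) (H.inv_mem hM)
  · show (if x.1 = i0 then y (Sum.inl (0, x.2)) else y (Sum.inr (Sum.inl x))) ∈ H
    split_ifs <;> exact hy _
  · exact hy _

lemma swi_mem {G : Type} [Group G] (H : Subgroup G) (i0 : Fin k) (y : Idx 1 k s → G)
    (hy : ∀ x, y x ∈ H) : ∀ x, swi i0 y x ∈ H := by
  have hM : ⁅y (iR i0 false), y (iR i0 true)⁆ ∈ H :=
    H.mul_mem (H.mul_mem (H.mul_mem (hy _) (hy _)) (H.inv_mem (hy _))) (H.inv_mem (hy _))
  rintro (x | x | j)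
  · exact hy _
  · show (if x.1 = i0 then _ else y (Sum.inr (Sum.inl x))) ∈ H
    split_ifs
    · exact H.mul_mem (H.mul_mem (H.inv_mem hM) (hy _)) hM
    · exact hy _
  · exact hy _

lemma evC_sw {G : Type} [Group G] (i0 : Fin k) (c : Fin s → G) (q : Idx 1 k s → G) :
    evC c (sw i0 q) = sw i0 (evC c q) := by
  funext x
  rcases x with x | x | j <;> rfl

lemma relT_sw {G : Type} [Group G] (i0 : Fin k) (hi0 : i0.1 = 0) (y : Idx 1 k s → G) :
    relT (sw i0 y) = relT y := by
  obtain ⟨k, rfl⟩ : ∃ l, k = l + 1 := ⟨k - 1, by have := i0.2; omega⟩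
  obtain rfl : i0 = 0 := Fin.ext hi0
  simp only [relT, relR, rel_one, rel_eq_tail, Function.comp_apply]
  rw [tail_congr (y := (sw 0 y ∘ Sum.inr) ∘ Sum.inl) (y' := (y ∘ Sum.inr) ∘ Sum.inl)
    fun i c hi => by simp [sw, hi]]
  simp only [sw, iA, iB, iR, Sum.elim_inl, Sum.elim_inr, if_true, Function.comp_apply]
  group

lemma schur_sw (i0 : Fin k) {Y : Idx 1 k s → SL r} : Schur (sw i0 Y) ↔ Schur Y := by
  have key : ∀ (f : (Idx 1 k s → SL r) → Idx 1 k s → SL r) (Y : Idx 1 k s → SL r),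
      (∀ (H : Subgroup (SL r)), (∀ x, Y x ∈ H) → ∀ x, f Y x ∈ H) → Schur (f Y) → Schur Y := by
    intro f Y hf h ξ hξ
    let H : Subgroup (SL r) :=
      { carrier := {M | Commute M.1 ξ}
        one_mem' := Commute.one_left ξ
        mul_mem' := fun {a b} ha hb => Commute.mul_left ha hb
        inv_mem' := fun {M} h => ad_eq_self_iff.1 (by
          conv_lhs => rw [← ad_eq_self_iff.2 h, ad_ad_inv']) }
    exact h ξ (hf H hξ)
  refine ⟨key _ Y fun H h => sw_mem H i0 Y h, fun h => key (swi i0) (sw i0 Y)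
    (fun H h => swi_mem H i0 _ h) (by rwa [swi_sw])⟩

lemma R_sw (C : Fin s → SL r) (i0 : Fin k) (hi0 : i0.1 = 0) (q : Idx 1 k s → SL r) :
    R C (sw i0 q) = R C q := by rw [R, evC_sw, relT_sw i0 hi0]; rfl

lemma R_swi (C : Fin s → SL r) (i0 : Fin k) (hi0 : i0.1 = 0) (q : Idx 1 k s → SL r) :
    R C (swi i0 q) = R C q := by rw [← R_sw C i0 hi0 (swi i0 q), sw_swi]

lemma swi_ent (i0 : Fin k) (x : Idx 1 k s) :
    (fun q => swi i0 q x) ∈ entGroup (PolyFun (Idx 1 k s) r) := by
  have h := swi_mem (entGroup (PolyFun (Idx 1 k s) r)) i0 (fun x q => q x) proj_mem x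
  convert h using 1
  funext q
  rcases x with x | x | j
  · rfl
  · by_cases hx : x.1 = i0 <;> simp [swi, hx, commutatorElement_def]
  · rfl

/-- The continuous functions. -/
def Cts (X : Type) [TopologicalSpace X] : Subalgebra ℂ (X → ℂ) where
  carrier := {f | Continuous f}
  mul_mem' := fun hf hg => hf.mul hg
  add_mem' := fun hf hg => hf.add hg
  algebraMap_mem' := fun _ => continuous_const

lemma continuous_poly {X : Type} {F : (X → SL r) → ℂ} (hF : F ∈ PolyFun X r) : Continuous F :=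
  polyFun_comp (Cts (X → SL r)) id (fun x i j => continuous_ent x i j) hF

lemma continuous_family {X X' : Type} {Φ : (X → SL r) → X' → SL r}
    (h : ∀ x, (fun q => Φ q x) ∈ entGroup (PolyFun X r)) : Continuous Φ :=
  continuous_pi fun x => continuous_iff_continuousAt.2 fun q => continuousAt_of_ent fun i j =>
    (continuous_poly (h x i j)).continuousAt

lemma evC_ent (C : Fin s → SL r) (x : Idx 1 k s) :
    (fun q => evC C q x) ∈ entGroup (PolyFun (Idx 1 k s) r) := by
  have h := evC_mem (entGroup (PolyFun (Idx 1 k s) r)) (fun j _ => C j) (fun x q => q x)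
    (fun j => const_mem _ _) proj_mem x
  rcases x with x | x | j <;> exact h

/-- Scalar commutant is an open condition. -/
lemma isOpen_schur (C : Fin s → SL r) : IsOpen {q : Idx 1 k s → SL r | Schur (evC C q)} := by
  refine isOpen_iff_mem_nhds.2 fun q hq => ?_
  have hc : Continuous fun q : Idx 1 k s → SL r => evC C q := continuous_family (evC_ent C)
  have hev := rank_le_eventually (fun q => cm (evC C q)) q fun c =>
    (continuous_pi fun x => continuous_pi fun i => continuous_pi fun j => by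
      show Continuous fun q => ((evC C q x).1 * Matrix.of c - Matrix.of c * (evC C q x).1) i j
      simp only [Matrix.sub_apply, Matrix.mul_apply]
      exact (continuous_finsetSum _ fun l _ => ((continuous_ent x i l).comp hc).mul_const _).sub
        (continuous_finsetSum _ fun l _ => ((continuous_ent x l j).comp hc).const_mul _)).continuousAt
  filter_upwards [hev] with q' hle
  intro ξ hξ
  let one : Coord r := flat 1
  have hone : ∀ Y : Idx 1 k s → SL r, Submodule.span ℂ {one} ≤ LinearMap.ker (cm Y) := fun Y =>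
    (Submodule.span_singleton_le_iff_mem _ _).2 (mem_ker_cm.2 fun x => Commute.one_right _)
  have hker : LinearMap.ker (cm (evC C q)) ≤ Submodule.span ℂ {one} := fun c hc => by
    obtain ⟨a, ha⟩ := hq (Matrix.of c) (mem_ker_cm.1 hc)
    exact Submodule.mem_span_singleton.2 ⟨a, (congrArg flat ha).symm⟩
  have n1 := (cm (evC C q)).finrank_range_add_finrank_ker
  have n2 := (cm (evC C q')).finrank_range_add_finrank_ker
  have n3 := Submodule.finrank_mono hker
  have e : Submodule.span ℂ {one} = LinearMap.ker (cm (evC C q')) :=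
    Submodule.eq_of_le_of_finrank_le (hone _) (by omega)
  obtain ⟨a, ha⟩ := Submodule.mem_span_singleton.1 (e.symm ▸ (mem_ker_cm.2 hξ :
    flat ξ ∈ LinearMap.ker (cm (evC C q'))))
  exact ⟨a, (congrArg Matrix.of ha).symm⟩

variable [NeZero r]

/-- Every open set of representations with scalar commutant meets the exchanged chart. -/
lemma exists_chart_point (hk : 2 ≤ k) (C : Fin s → SL r) (i0 : Fin k) (hi0 : i0.1 = 0)
    {W : Set (Idx 1 k s → SL r)} (hW : IsOpen W) (hne : (Sol C W).Nonempty)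
    (hS : ∀ q ∈ Sol C W, Schur (evC C q)) :
    ∃ q ∈ Sol C W, good (fun c => sw i0 q (Sum.inl (0, c))) ≠ 0 := by
  obtain ⟨q, hq, v, hv⟩ := exists_cyclic hk C hW hne hS
  let Cyc : Set (Idx 1 k s → SL r) :=
    {q | LinearIndependent ℂ fun i : Fin r => ((q iB).1 ^ i.1) *ᵥ v}
  have hCyc : IsOpen Cyc := by
    refine isOpen_setOfPred_linearIndependent.preimage (continuous_pi fun i => ?_)
    have hb : Continuous fun q : Idx 1 k s → SL r => (q iB).1 :=
      continuous_pi fun a => continuous_pi fun b => continuous_ent iB a b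
    exact (hb.pow i.1).matrix_mulVec continuous_const
  let W' : Set (Idx 1 k s → SL r) := swi i0 ⁻¹' (W ∩ Cyc)
  have hW' : IsOpen W' := (hW.inter hCyc).preimage (continuous_family (swi_ent i0))
  have hsol : ∀ q ∈ Sol C W', swi i0 q ∈ Sol C W := fun q h =>
    ⟨h.1.1, (R_swi C i0 hi0 q).trans h.2⟩
  have hne' : ∃ p, p ∈ Sol C W' :=
    ⟨sw i0 q, ⟨by rw [Set.mem_preimage, swi_sw]; exact ⟨hq.1, hv⟩, (R_sw C i0 hi0 q).trans hq.2⟩⟩
  obtain ⟨p, hp, hmax⟩ := exists_max_of_le (p := fun p => p ∈ Sol C W') (fun p => rk (rowR C p))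
    (r * r) (fun p _ => rk_le _) hne'
  have hSp : Schur (evC C p) := by
    have h := (schur_sw i0).2 (hS _ (hsol p hp))
    rwa [← evC_sw, sw_swi] at h
  have hcyc : ∃ w : Fin r → ℂ, LinearIndependent ℂ fun i : Fin r =>
      ((p (Sum.inr (Sum.inl (i0, true)))).1 ^ i.1) *ᵥ w := ⟨v, hp.1.2⟩
  obtain ⟨p', hp', hgood⟩ := exists_good_pair C hW' hp
    (fun ξ hξ => rest_scalar hk C hW' hp hSp hmax i0 hi0 hcyc hξ) good_mem exists_good
  exact ⟨swi i0 p', hsol p' hp', by rwa [sw_swi]⟩

/-- A polynomial vanishing on an open piece of the representations with scalar commutant vanishes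
on all of them. -/
theorem irr_identity (hk : 2 ≤ k) (C : Fin s → SL r) {W : Set (Idx 1 k s → SL r)} (hW : IsOpen W)
    (hne : (Sol C W).Nonempty) (hS : ∀ q ∈ Sol C W, Schur (evC C q))
    {F : (Idx 1 k s → SL r) → ℂ} (hF : F ∈ PolyFun (Idx 1 k s) r)
    (hF0 : ∀ q ∈ Sol C W, F q = 0)
    {q : Idx 1 k s → SL r} (hq : R C q = 1) (hSq : Schur (evC C q)) : F q = 0 := by
  let i0 : Fin k := ⟨0, by omega⟩
  let G : (Idx 1 k s → SL r) → ℂ := fun y => F (swi i0 y)
  have hG : G ∈ PolyFun (Idx 1 k s) r :=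
    polyFun_comp (PolyFun (Idx 1 k s) r) (swi i0) (swi_ent i0) hF
  obtain ⟨q₀, hq₀, hg₀⟩ := exists_chart_point hk C i0 rfl hW hne hS
  by_contra hne0
  obtain ⟨q₁, ⟨⟨hne1, -⟩, hq₁⟩, hg₁⟩ := exists_chart_point hk C i0 rfl
    (W := {q | F q ≠ 0} ∩ {q | Schur (evC C q)})
    ((isOpen_ne_fun (continuous_poly hF) continuous_const).inter (isOpen_schur C))
    ⟨q, ⟨hne0, hSq⟩, hq⟩ fun y hy => hy.1.2
  refine hne1 ?_
  have h := chart_identity C (W := swi i0 ⁻¹' W) (hW.preimage (continuous_family (swi_ent i0)))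
    (q₀ := sw i0 q₀) ⟨by rw [Set.mem_preimage, swi_sw]; exact hq₀.1, (R_sw C i0 rfl q₀).trans hq₀.2⟩
    hg₀ hG (fun y hy => hF0 _ ⟨hy.1, (R_swi C i0 rfl y).trans hy.2⟩) (q₁ := sw i0 q₁)
    ((R_sw C i0 rfl q₁).trans hq₁) hg₁
  simpa [G, swi_sw] using h

end Vale.Agent.P002.Global
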