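import Vale.Agent.P002.Surface.Exp

/-!
Linear algebra for deformations: sections of kernels of constant rank, the size of centralisers,
common kernels of nilpotent algebras, idempotents in matrix algebras, exponentials of idempotents.
-/

open Matrix Filter Topology

namespace Vale.Agent.P002.Global

open Vale.Agent.P002.Surface

variable {r : ℕ}

/-- The rank of a linear map does not drop nearby. -/
lemma rank_le_eventually {α : Type*} [TopologicalSpace α] {V V' : Type*}
    [NormedAddCommGroup V] [NormedSpace ℂ V] [FiniteDimensional ℂ V]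
    [NormedAddCommGroup V'] [NormedSpace ℂ V'] [FiniteDimensional ℂ V']
    (A : α → V →ₗ[ℂ] V') (a₀ : α) (hA : ∀ x, ContinuousAt (fun a => A a x) a₀) :
    ∀ᶠ a in 𝓝 a₀, Module.finrank ℂ (LinearMap.range (A a₀)) ≤
      Module.finrank ℂ (LinearMap.range (A a)) := by
  set ρ := Module.finrank ℂ (LinearMap.range (A a₀))
  let B := Module.finBasis ℂ (LinearMap.range (A a₀))
  choose w hw using fun i => (B i).2
  have hli : LinearIndependent ℂ fun i => A a₀ (w i) := by
    simp only [hw]
    exact B.linearIndependent.map' (Submodule.subtype _) (Submodule.ker_subtype _)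
  have hopen : IsOpen {f : Fin ρ → V' | LinearIndependent ℂ f} :=
    isOpen_setOfPred_linearIndependent
  have hc : ContinuousAt (fun a => fun i => A a (w i)) a₀ := continuousAt_pi.2 fun i => hA (w i)
  filter_upwards [hc.preimage_mem_nhds (hopen.mem_nhds hli)] with a ha
  have h2 := LinearIndependent.fintype_card_le_finrank (R := ℂ)
    (b := fun i => (⟨A a (w i), LinearMap.mem_range_self _ _⟩ : LinearMap.range (A a)))
    (LinearIndependent.of_comp (Submodule.subtype _) ha)
  simpa using h2

/-- A kernel element of a family of constant rank extends to a differentiable family. -/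
lemma exists_section {V V' : Type*}
    [NormedAddCommGroup V] [NormedSpace ℂ V] [FiniteDimensional ℂ V]
    [NormedAddCommGroup V'] [NormedSpace ℂ V'] [FiniteDimensional ℂ V']
    (A : ℂ → V →ₗ[ℂ] V') (hA : ∀ x, DifferentiableAt ℂ (fun t => A t x) 0)
    (hrank : ∀ᶠ t in 𝓝 0,
      Module.finrank ℂ (LinearMap.range (A t)) ≤ Module.finrank ℂ (LinearMap.range (A 0)))
    {x₀ : V} (hx₀ : A 0 x₀ = 0) :
    ∃ x : ℂ → V, x 0 = x₀ ∧ DifferentiableAt ℂ x 0 ∧ ∀ᶠ t in 𝓝 0, A t (x t) = 0 := by
  classical
  set ρ := Module.finrank ℂ (LinearMap.range (A 0))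
  let B := Module.finBasis ℂ (LinearMap.range (A 0))
  choose w hw using fun i => (B i).2
  obtain ⟨φ₀, hφ₀⟩ := LinearMap.exists_extend (B.equivFun : LinearMap.range (A 0) →ₗ[ℂ] (Fin ρ → ℂ))
  let φ : V' →L[ℂ] (Fin ρ → ℂ) := LinearMap.toContinuousLinearMap φ₀
  let M : ℂ → Matrix (Fin ρ) (Fin ρ) ℂ := fun t => Matrix.of fun i l => φ (A t (w l)) i
  have hM0 : M 0 = 1 := by
    ext i l
    show φ₀ (A 0 (w l)) i = _
    rw [hw, show φ₀ ((B l : LinearMap.range (A 0)) : V') = B.equivFun (B l) from
      LinearMap.congr_fun hφ₀ (B l), Module.Basis.equivFun_self, Matrix.one_apply]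
    simp [eq_comm]
  have hφA : ∀ x i, DifferentiableAt ℂ (fun t => φ (A t x) i) 0 := fun x i =>
    differentiableAt_pi.1 (φ.differentiableAt.comp 0 (hA x)) i
  have hdet : ∀ N : ℂ → Matrix (Fin ρ) (Fin ρ) ℂ,
      (∀ i l, DifferentiableAt ℂ (fun t => N t i l) 0) →
        DifferentiableAt ℂ (fun t => (N t).det) 0 := fun N hN =>
    det_mem (E := ℂ) Diff0 (fun i l t => N t i l) hN
  have hMd : ∀ i l, DifferentiableAt ℂ (fun t => M t i l) 0 := fun i l => hφA _ i
  let c : ℂ → Fin ρ → ℂ := fun t => -(((M t).det)⁻¹ • ((M t).adjugate *ᵥ φ (A t x₀)))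
  have hc : DifferentiableAt ℂ c 0 := by
    refine (differentiableAt_pi.2 fun i => ?_).neg
    refine ((hdet M hMd).inv (by rw [hM0]; simp)).mul ?_
    show DifferentiableAt ℂ (fun t => ∑ l, (M t).adjugate i l * φ (A t x₀) l) 0
    refine DifferentiableAt.fun_sum fun l _ => DifferentiableAt.fun_mul ?_ (hφA _ l)
    simp only [Matrix.adjugate_apply]
    refine hdet _ fun p q => ?_
    by_cases hp : p = l
    · simp [hp]
    · simpa [hp] using hMd p q
  refine ⟨fun t => x₀ + ∑ l, c t l • w l, ?_, ?_, ?_⟩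
  · have : c 0 = 0 := by simp [c, hx₀]
    simp [this]
  · exact (differentiableAt_const _).add
      (DifferentiableAt.fun_sum fun l _ => (differentiableAt_pi.1 hc l).smul_const _)
  · have hne : ∀ᶠ t in 𝓝 0, (M t).det ≠ 0 :=
      (hdet M hMd).continuousAt.eventually_ne (by rw [hM0]; simp)
    filter_upwards [hne, hrank] with t ht hr'
    have hli : LinearIndependent ℂ fun l => A t (w l) := by
      rw [Fintype.linearIndependent_iff]
      intro a ha
      have h2 : M t *ᵥ a = 0 := by
        funext i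
        have h3 := congrArg (fun y => φ y i) ha
        simp only [map_sum, map_smul, map_zero, Finset.sum_apply, Pi.smul_apply, smul_eq_mul] at h3
        simpa [M, Matrix.mulVec, dotProduct, mul_comm] using h3
      exact congrFun (Matrix.eq_zero_of_mulVec_eq_zero ht h2)
    have hspan : Submodule.span ℂ (Set.range fun l => A t (w l)) = LinearMap.range (A t) := by
      refine Submodule.eq_of_le_of_finrank_le
        (Submodule.span_le.2 (by rintro _ ⟨l, rfl⟩; exact LinearMap.mem_range_self _ _)) ?_
      rw [finrank_span_eq_card hli, Fintype.card_fin]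
      exact hr'
    obtain ⟨a, ha⟩ := (Submodule.mem_span_range_iff_exists_fun ℂ).1
      (hspan.symm ▸ LinearMap.mem_range_self (A t) (x₀ + ∑ l, c t l • w l))
    have h2 : φ (A t (x₀ + ∑ l, c t l • w l)) = 0 := by
      have e : φ (∑ l, c t l • A t (w l)) = M t *ᵥ c t := by
        funext i
        simp [map_sum, M, Matrix.mulVec, dotProduct, Finset.sum_apply, mul_comm]
      simp only [map_add, map_sum, map_smul] at e ⊢
      rw [e]
      simp only [c, Matrix.mulVec_neg, Matrix.mulVec_smul, Matrix.mulVec_mulVec,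
        Matrix.mul_adjugate, Matrix.smul_mulVec, Matrix.one_mulVec, smul_smul,
        inv_mul_cancel₀ ht, one_smul, add_neg_cancel]
    rw [← ha] at h2 ⊢
    have h3 : M t *ᵥ a = 0 := by
      funext i
      have h4 := congrArg (fun y => y i) h2
      simp only [map_sum, map_smul, Finset.sum_apply, Pi.smul_apply, smul_eq_mul,
        Pi.zero_apply] at h4
      simpa [M, Matrix.mulVec, dotProduct, mul_comm] using h4
    simp [Matrix.eq_zero_of_mulVec_eq_zero ht h3]

/-- A family of matrices has the given derivative at zero. -/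
def MD (f : ℂ → Mat r) (d : Mat r) : Prop := ∀ i j, HasDerivAt (fun t => f t i j) (d i j) 0

namespace MD

variable {f g : ℂ → Mat r} {d e : Mat r}

lemma const (M : Mat r) : MD (fun _ => M) 0 := fun i j => hasDerivAt_const 0 (M i j)

lemma unique (h : MD f d) (h' : MD f e) : d = e := Matrix.ext fun i j => (h i j).unique (h' i j)

lemma congr (h : MD f d) (hfg : f =ᶠ[𝓝 0] g) : MD g d := fun i j =>
  (h i j).congr_of_eventuallyEq (hfg.symm.mono fun _ ht => congrArg (fun M : Mat r => M i j) ht)

lemma add (h : MD f d) (h' : MD g e) : MD (fun t => f t + g t) (d + e) := fun i j =>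
  (h i j).fun_add (h' i j)

lemma sub (h : MD f d) (h' : MD g e) : MD (fun t => f t - g t) (d - e) := fun i j =>
  (h i j).fun_sub (h' i j)

lemma mul (h : MD f d) (h' : MD g e) : MD (fun t => f t * g t) (d * g 0 + f 0 * e) := fun i j => by
  have := HasDerivAt.fun_sum (u := (Finset.univ : Finset (Fin r))) fun l _ =>
    (h i l).fun_mul (h' l j)
  simp only [Matrix.mul_apply, Matrix.add_apply, ← Finset.sum_add_distrib]
  exact this

lemma smul {c : ℂ → ℂ} {c' : ℂ} (hc : HasDerivAt c c' 0) (h : MD f d) :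
    MD (fun t => c t • f t) (c' • f 0 + c 0 • d) := fun i j => by
  simpa using hc.fun_mul (h i j)

lemma sum {ι : Type*} (u : Finset ι) {F : ι → ℂ → Mat r} {D : ι → Mat r}
    (h : ∀ k ∈ u, MD (F k) (D k)) : MD (fun t => ∑ k ∈ u, F k t) (∑ k ∈ u, D k) := fun i j => by
  simp only [Matrix.sum_apply]
  exact HasDerivAt.fun_sum fun k hk => h k hk i j

lemma pow (h : MD f d) : ∀ n : ℕ,
    MD (fun t => f t ^ n) (∑ i ∈ Finset.range n, f 0 ^ (n - 1 - i) * d * f 0 ^ i)
  | 0 => by simpa using MD.const (1 : Mat r)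
  | n + 1 => by
    have := h.mul (pow h n)
    simp only [← pow_succ'] at this
    convert this using 1
    rw [Finset.sum_range_succ, Finset.mul_sum, add_comm]
    congr 1
    · simp
    · refine Finset.sum_congr rfl fun i hi => ?_
      rw [Finset.mem_range] at hi
      rw [← Matrix.mul_assoc, ← Matrix.mul_assoc, ← pow_succ']
      congr 3
      omega

lemma trace (h : MD f d) : HasDerivAt (fun t => (f t).trace) d.trace 0 :=
  HasDerivAt.fun_sum fun i _ => h i i

lemma mulVec {x : ℂ → Fin r → ℂ} {x' : Fin r → ℂ} (h : MD f d) (hx : HasDerivAt x x' 0) :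
    HasDerivAt (fun t => f t *ᵥ x t) (d *ᵥ x 0 + f 0 *ᵥ x') 0 := by
  refine hasDerivAt_pi.2 fun i => ?_
  have := HasDerivAt.fun_sum (u := (Finset.univ : Finset (Fin r))) fun l _ =>
    (h i l).fun_mul (hasDerivAt_pi.1 hx l)
  simp only [Matrix.mulVec, dotProduct, Pi.add_apply, ← Finset.sum_add_distrib]
  exact this

end MD

lemma MD.of_hasJet {f : ℂ → SL r} {p : Jet r} (h : HasJet f p) :
    MD (fun t => (f t).1) (p.M.1 * p.v) := h.2

/-- The commutator with a fixed matrix. -/
noncomputable def br (ξ : Mat r) : Mat r →ₗ[ℂ] Mat r where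
  toFun u := u * ξ - ξ * u
  map_add' a b := by simp [add_mul, mul_add]; abel
  map_smul' c a := by simp [smul_sub]

lemma br_apply (ξ u : Mat r) : br ξ u = u * ξ - ξ * u := rfl

/-- The centraliser of a matrix which is not scalar has codimension at least `r`. -/
lemma rank_br (ξ : Mat r) (h : ∀ c : ℂ, ξ ≠ c • 1) :
    r ≤ Module.finrank ℂ (LinearMap.range (br ξ)) := by
  obtain ⟨v, hv⟩ : ∃ v : Fin r → ℂ, ∀ c : ℂ, ξ *ᵥ v ≠ c • v := by
    by_contra hno
    push Not at hno
    choose c hc using hno
    rcases Nat.eq_zero_or_pos r with h0 | h0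
    · subst h0; exact h 0 (Subsingleton.elim _ _)
    have hd : ∀ i, ξ *ᵥ Pi.single i 1 = c (Pi.single i 1) • Pi.single i 1 := fun i => hc _
    have hdiag : ∀ i j, ξ i j = if i = j then c (Pi.single j 1) else 0 := fun i j => by
      have := congrFun (hd j) i
      simpa [Pi.single_apply] using this
    refine h (c (fun _ => 1)) (Matrix.ext fun i j => ?_)
    rw [Matrix.smul_apply, Matrix.one_apply, hdiag]
    split_ifs with hij
    · subst hij
      have := congrFun (hc fun _ => 1) i
      simp [Matrix.mulVec, dotProduct, hdiag] at this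
      simp [this]
    · simp
  let o : (Fin r → ℂ) →ₗ[ℂ] Mat r :=
    { toFun := fun φ => Matrix.vecMulVec v φ
      map_add' := fun a b => Matrix.vecMulVec_add v a b
      map_smul' := fun c a => by ext i j; simp [Matrix.vecMulVec_apply, mul_left_comm] }
  let f : (Fin r → ℂ) →ₗ[ℂ] LinearMap.range (br ξ) := ((br ξ).rangeRestrict).comp o
  have hf : Function.Injective f := by
    refine LinearMap.ker_eq_bot.1 (LinearMap.ker_eq_bot'.2 fun φ hφ => ?_)
    have h1 : Matrix.vecMulVec v φ * ξ - ξ * Matrix.vecMulVec v φ = 0 := congrArg Subtype.val hφ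
    rw [sub_eq_zero] at h1
    by_contra hφ0
    obtain ⟨j, hj⟩ := Function.ne_iff.1 hφ0
    refine hv ((φ ᵥ* ξ) j / φ j) (funext fun i => ?_)
    have := congrFun (congrFun h1 i) j
    simp only [Matrix.vecMulVec_mul, Matrix.mul_vecMulVec, Matrix.vecMulVec_apply] at this
    simp only [Pi.smul_apply, smul_eq_mul]
    rw [div_mul_eq_mul_div, mul_comm _ (v i), this,
      mul_div_assoc, div_self (show φ j ≠ 0 from hj), mul_one]
  simpa using LinearMap.finrank_le_finrank_of_injective hf

/-- Nilpotent matrices closed under products kill a common vector of an invariant subspace. -/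
lemma exists_common_kernel (S : Submodule ℂ (Mat r)) (hmul : ∀ A ∈ S, ∀ B ∈ S, A * B ∈ S)
    (hnil : ∀ A ∈ S, IsNilpotent A) {U : Submodule ℂ (Fin r → ℂ)} (hU : U ≠ ⊥)
    (hinv : ∀ A ∈ S, ∀ u ∈ U, A *ᵥ u ∈ U) :
    ∃ u ∈ U, u ≠ 0 ∧ ∀ A ∈ S, A *ᵥ u = 0 := by
  induction hn : Module.finrank ℂ U using Nat.strong_induction_on generalizing U with
  | _ n ih =>
  obtain ⟨u, hu, hu0⟩ := Submodule.exists_mem_ne_zero_of_ne_bot hU
  let ev : Mat r →ₗ[ℂ] (Fin r → ℂ) :=
    { toFun := fun A => A *ᵥ u
      map_add' := fun A B => Matrix.add_mulVec A B u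
      map_smul' := fun c A => Matrix.smul_mulVec c A u }
  let U' := S.map ev
  have hle : U' ≤ U := by rintro _ ⟨A, hA, rfl⟩; exact hinv A hA u hu
  by_cases hU' : U' = ⊥
  · exact ⟨u, hu, hu0, fun A hA => by
      have : ev A ∈ U' := ⟨A, hA, rfl⟩
      simpa [hU', ev] using this⟩
  have hne : U' ≠ U := by
    intro he
    obtain ⟨A, hA, hAu⟩ : u ∈ U' := he ▸ hu
    obtain ⟨N, hN⟩ := hnil A hA
    have : ∀ l : ℕ, (A ^ l) *ᵥ u = u := fun l => by
      induction l with
      | zero => simp
      | succ l il => rw [pow_succ, ← Matrix.mulVec_mulVec, show A *ᵥ u = u from hAu, il]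
    exact hu0 (by rw [← this N, hN, Matrix.zero_mulVec])
  have hlt : Module.finrank ℂ U' < n :=
    hn ▸ Submodule.finrank_lt_finrank_of_lt (lt_of_le_of_ne hle hne)
  obtain ⟨w, hw, hw0, hwS⟩ := ih _ hlt hU' (fun A hA x hx => by
    obtain ⟨B, hB, rfl⟩ := hx
    exact ⟨A * B, hmul A hA B hB, (Matrix.mulVec_mulVec u A B).symm⟩) rfl
  exact ⟨w, hle hw, hw0, hwS⟩

/-- A commutant without idempotents consists of scalars and nilpotent elements. -/
lemma nilpotent_of_no_idem (K : Submodule ℂ (Mat r)) (h1 : 1 ∈ K)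
    (hmul : ∀ A ∈ K, ∀ B ∈ K, A * B ∈ K)
    (hno : ∀ P ∈ K, P * P = P → P = 0 ∨ P = 1) {η : Mat r} (hη : η ∈ K)
    (htr : η.trace = 0) : IsNilpotent η := by
  classical
  rcases Nat.eq_zero_or_pos r with hr | hr
  · subst hr; exact ⟨1, Subsingleton.elim _ _⟩
  have : Nonempty (Fin r) := ⟨⟨0, hr⟩⟩
  have hpoly : ∀ p : Polynomial ℂ, Polynomial.aeval η p ∈ K := fun p => by
    induction p using Polynomial.induction_on' with
    | add a b ha hb => rw [map_add]; exact K.add_mem ha hb
    | monomial n a =>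
      rw [Polynomial.aeval_monomial, ← Algebra.smul_def]
      refine K.smul_mem a ?_
      induction n with
      | zero => simpa using h1
      | succ n ih => rw [pow_succ]; exact hmul _ ih _ hη
  obtain ⟨l, hl⟩ : ∃ l, η.charpoly.IsRoot l :=
    IsAlgClosed.exists_root _ (by rw [Matrix.charpoly_degree_eq_dim]; simp; omega)
  obtain ⟨f, hf, hfl⟩ := Polynomial.exists_eq_pow_rootMultiplicity_mul_and_not_dvd η.charpoly
    η.charpoly_monic.ne_zero l
  set N := η.charpoly.rootMultiplicity l
  have hN : 0 < N := (Polynomial.rootMultiplicity_pos η.charpoly_monic.ne_zero).2 hl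
  obtain ⟨u, v, huv⟩ : IsCoprime ((Polynomial.X - Polynomial.C l) ^ N) f :=
    ((Polynomial.prime_X_sub_C l).irreducible.coprime_iff_not_dvd.2 hfl).pow_left
  set P := Polynomial.aeval η (v * f)
  have hP : P * P = P := by
    have e : (v * f) * (v * f) = v * f - u * v * η.charpoly := by rw [hf]; linear_combination (v * f) * huv
    rw [← map_mul, e, map_sub, map_mul _ (u * v), Matrix.aeval_self_charpoly, mul_zero, sub_zero]
  have hkill : (η - l • 1) ^ N * P = 0 := by
    have e : (Polynomial.X - Polynomial.C l) ^ N * (v * f) = v * η.charpoly := by rw [hf]; ring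
    have := congrArg (Polynomial.aeval η) e
    rw [map_mul (Polynomial.aeval η) ((Polynomial.X - Polynomial.C l) ^ N),
      map_mul (Polynomial.aeval η) v η.charpoly, Matrix.aeval_self_charpoly, mul_zero, map_pow, map_sub,
      Polynomial.aeval_X, Polynomial.aeval_C, Algebra.algebraMap_eq_smul_one] at this
    exact this
  rcases hno P (hpoly _) hP with h0 | h0
  · exfalso
    obtain ⟨x, hx0, hx⟩ : ∃ x : Fin r → ℂ, x ≠ 0 ∧ (η - l • 1) *ᵥ x = 0 := by
      have hdet : (η - l • 1).det = 0 := by
        have := Matrix.eval_charpoly η l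
        rw [hl, Matrix.scalar_apply, ← Matrix.smul_one_eq_diagonal, eq_comm] at this
        rw [← neg_sub, Matrix.det_neg, this, mul_zero]
      exact Matrix.exists_mulVec_eq_zero_iff.2 hdet
    have hη : Polynomial.aeval η (u * (Polynomial.X - Polynomial.C l) ^ N) *ᵥ x = 0 := by
      rw [map_mul, map_pow, map_sub, Polynomial.aeval_X, Polynomial.aeval_C,
        Algebra.algebraMap_eq_smul_one, show N = N - 1 + 1 by omega, pow_succ,
        ← Matrix.mulVec_mulVec, ← Matrix.mulVec_mulVec, hx, Matrix.mulVec_zero, Matrix.mulVec_zero]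
    have := congrArg (fun p => Polynomial.aeval η p *ᵥ x) huv
    simp only [map_add, map_one, Matrix.add_mulVec, Matrix.one_mulVec] at this
    rw [hη, show Polynomial.aeval η (v * f) = 0 from h0, Matrix.zero_mulVec, zero_add] at this
    exact hx0 this.symm
  · rw [h0, mul_one] at hkill
    have hl0 : l = 0 := by
      have h2 : (η - l • 1).trace = 0 := (Matrix.isNilpotent_trace_of_isNilpotent ⟨N, hkill⟩).eq_zero
      rw [Matrix.trace_sub, Matrix.trace_smul, htr, Matrix.trace_one] at h2
      simpa [hr.ne'] using h2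
    exact ⟨N, by simpa [hl0] using hkill⟩

open NormedSpace in
open scoped Matrix.Norms.Operator in
/-- The determinant of `1 + (e^c - 1) P` for an idempotent `P`. -/
lemma det_idem {P : Mat r} (hP : P * P = P) (c : ℂ) :
    (1 + (Complex.exp c - 1) • P).det = Complex.exp (c * P.trace) := by
  have hmain : NormedSpace.exp (c • P) = 1 + (Complex.exp c - 1) • P := by
    let F : ℂ → Mat r := fun z => NormedSpace.exp (z • P) * (1 + (Complex.exp (-z) - 1) • P)
    have hF : ∀ z, HasDerivAt F 0 z := fun z => by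
      have h1 := hasDerivAt_exp_smul_const (𝕂 := ℂ) P z
      have h2 : HasDerivAt (fun w : ℂ => (1 : Mat r) + (Complex.exp (-w) - 1) • P)
          ((-Complex.exp (-z)) • P) z := by
        refine ((((hasDerivAt_id z).neg.cexp.sub_const 1).smul_const P).const_add 1).congr_deriv ?_
        simp
      refine (h1.mul h2).congr_deriv ?_
      rw [Matrix.mul_assoc, ← mul_add, mul_add P, mul_one, Matrix.mul_smul, hP]
      rw [sub_smul, one_smul, neg_smul, add_sub_cancel, add_neg_cancel, mul_zero]
    have hFc : F c = 1 := by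
      have := is_const_of_deriv_eq_zero (fun z => (hF z).differentiableAt) (fun z => (hF z).deriv) c 0
      simpa [F] using this
    have hinv : (1 + (Complex.exp (-c) - 1) • P) * (1 + (Complex.exp c - 1) • P) = 1 := by
      simp only [add_mul, mul_add, one_mul, mul_one, Matrix.smul_mul, Matrix.mul_smul, hP, smul_smul]
      rw [add_assoc, ← add_smul, ← add_smul]
      convert add_zero (1 : Mat r) using 2
      convert zero_smul ℂ P using 2
      rw [Complex.exp_neg]
      field_simp
      ring
    calc NormedSpace.exp (c • P)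
        = NormedSpace.exp (c • P) *
          ((1 + (Complex.exp (-c) - 1) • P) * (1 + (Complex.exp c - 1) • P)) := by rw [hinv, mul_one]
      _ = F c * (1 + (Complex.exp c - 1) • P) := by rw [← Matrix.mul_assoc]
      _ = _ := by rw [hFc, one_mul]
  rw [← hmain, det_exp, Matrix.trace_smul, smul_eq_mul]

/-- Idempotents have natural trace. -/
lemma trace_idem {P : Mat r} (hP : P * P = P) : ∃ n : ℕ, P.trace = n ∧ (n = 0 → P = 0) := by
  set N : (Fin r → ℂ) →ₗ[ℂ] (Fin r → ℂ) := Matrix.toLin' P
  have hN : LinearMap.IsProj (LinearMap.range N) N := ⟨fun x => LinearMap.mem_range_self _ _,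
    fun x hx => by
      obtain ⟨y, rfl⟩ := hx
      show P *ᵥ (P *ᵥ y) = P *ᵥ y
      rw [Matrix.mulVec_mulVec, hP]⟩
  have h3 := hN.trace
  rw [Matrix.trace_toLin'_eq] at h3
  refine ⟨_, h3, fun h0 => Matrix.toLin'.injective ?_⟩
  rw [map_zero]
  exact LinearMap.range_eq_bot.1 (Submodule.finrank_eq_zero.1 h0)

end Vale.Agent.P002.Global
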