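import Vale.Agent.P002.Surface.Local
import Vale.Agent.P002.Global.Linear

/-!
The relation map on tuples with conjugators at the punctures: its derivative, the orthogonal of
its image, and local lifting.
-/

open Matrix Filter Topology
open scoped commutatorElement

namespace Vale.Agent.P002.Global

open Vale.Agent.P002.Surface

variable {k s r : ℕ}

/-- The index of the first `a`. -/
abbrev iA : Idx 1 k s := Sum.inl (0, false)
/-- The index of the first `b`. -/
abbrev iB : Idx 1 k s := Sum.inl (0, true)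

/-- Replace conjugators by the boundary values. -/
def evR {G : Type} [Group G] (c : Fin s → G) (z : Rest k s → G) : Rest k s → G :=
  Sum.elim (fun x => z (Sum.inl x)) fun j => z (Sum.inr j) * c j * (z (Sum.inr j))⁻¹

/-- Replace conjugators by the boundary values. -/
def evC {G : Type} [Group G] (c : Fin s → G) (q : Idx 1 k s → G) : Idx 1 k s → G :=
  Sum.elim (fun x => q (Sum.inl x)) (evR c fun x => q (Sum.inr x))

lemma map_evR {G H : Type} [Group G] [Group H] (φ : G →* H) (c : Fin s → G) (z : Rest k s → G)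
    (x : Rest k s) : φ (evR c z x) = evR (φ ∘ c) (φ ∘ z) x := by
  rcases x with x | j <;> simp [evR]

lemma map_evC {G H : Type} [Group G] [Group H] (φ : G →* H) (c : Fin s → G)
    (q : Idx 1 k s → G) : φ ∘ evC c q = evC (φ ∘ c) (φ ∘ q) := by
  funext x
  rcases x with x | x
  · simp [evC]
  · exact map_evR φ c (fun y => q (Sum.inr y)) x

lemma evC_mem {G : Type} [Group G] (H : Subgroup G) (c : Fin s → G) (q : Idx 1 k s → G)
    (hc : ∀ j, c j ∈ H) (hq : ∀ x, q x ∈ H) : ∀ x, evC c q x ∈ H := by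
  rintro (x | x | j)
  · exact hq _
  · exact hq _
  · exact H.mul_mem (H.mul_mem (hq _) (hc j)) (H.inv_mem (hq _))

lemma rel_one {G : Type} [Group G] (y : Gens 1 → G) : rel y = ⁅y (0, false), y (0, true)⁆ := by
  simp [rel]

/-- The relation. -/
noncomputable def R (C : Fin s → SL r) (q : Idx 1 k s → SL r) : SL r := relT (evC C q)

lemma R_split (C : Fin s → SL r) (q : Idx 1 k s → SL r) :
    R C q = ⁅q iA, q iB⁆ * relR (evR C fun x => q (Sum.inr x)) := by
  show rel _ * relR _ = _
  rw [rel_one]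
  rfl

/-- Tangent vectors at a tuple. -/
abbrev Tg (k s r : ℕ) := Idx 1 k s → Coord r

/-- The jets of the relation. -/
noncomputable def relJ (C : Fin s → SL r) (q : Idx 1 k s → SL r) (δ : Idx 1 k s → Mat r) : Jet r :=
  relT (evC (fun j => Jet.zero (C j)) fun x => ⟨q x, δ x⟩)

/-- A tuple moved by tangent vectors. -/
noncomputable def shift (q : Idx 1 k s → SL r) (δ : Tg k s r) : Idx 1 k s → SL r :=
  fun x => q x * expm (Matrix.of (δ x))

lemma shift_mem (q : Idx 1 k s → SL r) (x : Idx 1 k s) :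
    (fun δ : Tg k s r => shift q δ x) ∈ entGroup (C1 (Tg k s r)) :=
  (entGroup _).mul_mem (const_mem _ _) (expm_mem _ fun i j =>
    show ContDiff ℂ 1 _ from (contDiff_apply_apply ℂ ℂ i j).comp (contDiff_apply ℂ (Coord r) x))

lemma R_mem {E : Type} {S : Subalgebra ℂ (E → ℂ)} (C : Fin s → SL r)
    (Φ : E → Idx 1 k s → SL r) (hΦ : ∀ x, (fun e => Φ e x) ∈ entGroup S) :
    (fun e => R C (Φ e)) ∈ entGroup S := by
  have h := relT_mem (entGroup S) _ (evC_mem (entGroup S) (fun j _ => C j) (fun x e => Φ e x)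
    (fun j => const_mem S (C j)) hΦ)
  convert h using 1
  funext e
  have h1 := map_relT (Pi.evalMonoidHom (fun _ : E => SL r) e)
    (evC (fun j (_ : E) => C j) (fun x e => Φ e x))
  rw [show Pi.evalMonoidHom (fun _ : E => SL r) e (relT (evC (fun j (_ : E) => C j) fun x e => Φ e x))
      = relT (evC (fun j (_ : E) => C j) fun x e => Φ e x) e from rfl] at h1
  rw [h1]
  show relT (evC C (Φ e)) = relT (Pi.evalMonoidHom (fun _ : E => SL r) e ∘ _)
  rw [map_evC]
  rfl

/-- Curves with jets give a curve of relations with the jet of the relation. -/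
lemma hasJet_R (C : Fin s → SL r) (q : Idx 1 k s → SL r) (δ : Idx 1 k s → Mat r)
    (γ : ℂ → Idx 1 k s → SL r) (hγ : ∀ x, HasJet (fun t => γ t x) ⟨q x, δ x⟩) :
    HasJet (fun t => R C (γ t)) (relJ C q δ) := by
  let c : Fin s → (ℂ → SL r) × Jet r := fun j => (fun _ => C j, Jet.zero (C j))
  let w : Idx 1 k s → (ℂ → SL r) × Jet r := fun x => (fun t => γ t x, ⟨q x, δ x⟩)
  have h : HasJet (relT (evC c w)).1 (relT (evC c w)).2 :=
    relT_mem _ _ (evC_mem (jetGroup r) c w (fun j => hasJet_const (C j)) hγ)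
  have e2 : (relT (evC c w)).2 = relJ C q δ := by
    have h1 := map_relT (MonoidHom.snd (ℂ → SL r) (Jet r)) (evC c w)
    rw [map_evC] at h1
    exact h1
  have e1 : (relT (evC c w)).1 = fun t => R C (γ t) := by
    funext t
    have h1 := map_relT ((Pi.evalMonoidHom (fun _ : ℂ => SL r) t).comp
      (MonoidHom.fst (ℂ → SL r) (Jet r))) (evC c w)
    rw [map_evC] at h1
    exact h1
  rwa [e1, e2] at h

lemma hasJet_shift (q : Idx 1 k s → SL r) (δ : Tg k s r) (x : Idx 1 k s) :
    HasJet (fun t : ℂ => shift q (t • δ) x) ⟨q x, tl (Matrix.of (δ x))⟩ := by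
  have h := (hasJet_const (q x)).mul (hasJet_expm (Matrix.of (δ x)))
  have e : (⟨q x, 0⟩ : Jet r) * ⟨1, tl (Matrix.of (δ x))⟩ = ⟨q x, tl (Matrix.of (δ x))⟩ :=
    Jet.ext (mul_one _) (by simp)
  rw [e] at h
  exact h

/-- The derivative of the relation. -/
noncomputable def dR (C : Fin s → SL r) (q : Idx 1 k s → SL r) : Tg k s r →ₗ[ℂ] Mat r :=
  fd fun δ => R C (shift q δ)

lemma dR_apply (C : Fin s → SL r) (q : Idx 1 k s → SL r) (δ : Tg k s r) :
    dR C q δ = (relJ C q fun x => tl (Matrix.of (δ x))).v :=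
  fd_eq_of_hasJet (R_mem C _ (shift_mem q))
    (hasJet_R C q _ (fun t => shift q (t • δ)) (hasJet_shift q δ))

/-- The jets of the product of the further handles and the boundary. -/
noncomputable def relRJ (C : Fin s → SL r) (z : Rest k s → SL r) (δ : Rest k s → Mat r) : Jet r :=
  relR (evR (fun j => Jet.zero (C j)) fun x => ⟨z x, δ x⟩)

lemma relJ_split (C : Fin s → SL r) (q : Idx 1 k s → SL r) (δ : Idx 1 k s → Mat r) :
    relJ C q δ = ⁅(⟨q iA, δ iA⟩ : Jet r), (⟨q iB, δ iB⟩ : Jet r)⁆ *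
      relRJ C (fun x => q (Sum.inr x)) fun x => δ (Sum.inr x) := by
  show rel _ * relR _ = _
  rw [rel_one]
  rfl

lemma relRJ_M (C : Fin s → SL r) (z : Rest k s → SL r) (δ : Rest k s → Mat r) :
    (relRJ C z δ).M = relR (evR C z) := by
  rw [← Jet.proj_apply, relRJ, map_relR]
  congr 1
  funext x
  exact map_evR Jet.proj _ _ x

lemma relRJ_zero (C : Fin s → SL r) (z : Rest k s → SL r) :
    relRJ C z (fun _ => 0) = Jet.zero (relR (evR C z)) := by
  rw [map_relR]
  refine congrArg relR ?_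
  funext x
  exact (map_evR Jet.zero C z x).symm

lemma comm_v (p q : SL r) (u w : Mat r) :
    (⁅(⟨p, u⟩ : Jet r), (⟨q, w⟩ : Jet r)⁆).v =
      ad q⁻¹ (ad p⁻¹ (ad q u + w) - ad p⁻¹ u) - ad q⁻¹ w := by
  simp [commutatorElement_def, sub_eq_add_neg]

/-- A matrix orthogonal to all matrices is zero. -/
lemma eq_zero_of_trace_mul {Y : Mat r} (h : ∀ w : Mat r, (w * Y).trace = 0) : Y = 0 := by
  ext i j
  have := h (single j i 1)
  rw [ Matrix.trace_single_mul] at this
  simpa using this

lemma ad_ad_inv' (M : SL r) (v : Mat r) : ad M⁻¹ (ad M v) = v := by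
  rw [← ad_mul, mul_inv_cancel, ad_one]

lemma ad_eq_self_iff {M : SL r} {η : Mat r} : ad M η = η ↔ Commute M.1 η := by
  constructor
  · intro h
    show M.1 * η = η * M.1
    conv_lhs => rw [← h, mul_ad]
  · intro h
    rw [ad, Matrix.mul_assoc, ← h.eq, ← Matrix.mul_assoc, val_inv_mul, one_mul]

lemma trace_ad_swap (M : SL r) (X b : Mat r) : (b * ad M X).trace = (ad M⁻¹ b * X).trace := by
  rw [Matrix.trace_mul_comm, trace_mul_ad, Matrix.trace_mul_comm]

/-- The orthogonal of the variations of one commutator. -/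
lemma comm_perp {p q : SL r} {η : Mat r}
    (ha : ∀ u, (η * (⁅(⟨p, tl u⟩ : Jet r), (⟨q, 0⟩ : Jet r)⁆).v).trace = 0)
    (hb : ∀ w, (η * (⁅(⟨p, 0⟩ : Jet r), (⟨q, tl w⟩ : Jet r)⁆).v).trace = 0) :
    Commute p.1 η ∧ Commute q.1 η := by
  have htl : ∀ (M : SL r) u, ad M (tl u) - tl u = ad M u - u := fun M u => by
    have h1 : ad M (1 : Mat r) = 1 := by rw [ad, mul_one, val_inv_mul]
    simp [tl_apply, h1]
  have key : ∀ (M : SL r) (Y : Mat r), (∀ u, (Y * (ad M u - u)).trace = 0) → ad M Y = Y :=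
    fun M Y h => by
      have h2 : ad M⁻¹ Y - Y = 0 := eq_zero_of_trace_mul fun w => by
        rw [Matrix.trace_mul_comm, sub_mul, Matrix.trace_sub, ← trace_ad_swap, ← Matrix.trace_sub,
          ← mul_sub]
        exact h w
      conv_lhs => rw [← sub_eq_zero.1 h2, ← ad_mul, inv_mul_cancel, ad_one]
  have h1 : ad q (ad p (ad q η)) = ad p (ad q η) := key q _ fun u => by
    have := ha u
    simp only [comm_v, ad_zero, add_zero, sub_zero, ← ad_sub, htl] at this
    rwa [trace_ad_swap, trace_ad_swap, inv_inv, inv_inv] at this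
  have h2 : ad p⁻¹ (ad q η) = ad q η := key p⁻¹ _ fun w => by
    have := hb w
    simp only [comm_v, ad_zero, zero_add, sub_zero, ← ad_sub, htl] at this
    rwa [trace_ad_swap, inv_inv] at this
  have h3 : ad p (ad q η) = ad q η := by conv_lhs => rw [← h2, ← ad_mul, inv_mul_cancel, ad_one]
  rw [h3] at h1
  have h4 : ad q η = η := by
    have := congrArg (ad q⁻¹) h1
    rwa [ad_ad_inv', ad_ad_inv'] at this
  rw [h4] at h3
  exact ⟨ad_eq_self_iff.1 h3, ad_eq_self_iff.1 h4⟩

lemma commute_prod {η : Mat r} : ∀ {n : ℕ} (f : Fin n → SL r), (∀ i, Commute (f i).1 η) →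
    Commute ((List.ofFn f).prod).1 η
  | 0, _, _ => by simpa using Commute.one_left η
  | n + 1, f, h => by
    rw [List.ofFn_succ, List.prod_cons, val_mul]
    exact (h 0).mul_left (commute_prod _ fun i => h i.succ)

/-- The orthogonal of the variations of the factors of a product. -/
lemma prod_perp {η : Mat r} : ∀ {n : ℕ} (f : Fin n → SL r) (V : Fin n → Set (Mat r)),
    (∀ i, (∀ v ∈ V i, (η * v).trace = 0) → Commute (f i).1 η) →
    (∀ i, ∀ v ∈ V i, (η * (List.ofFn fun l => if l = i then (⟨f i, v⟩ : Jet r)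
      else Jet.zero (f l)).prod.v).trace = 0) →
    ∀ i, (∀ v ∈ V i, (η * v).trace = 0)
  | 0, _, _, _, _ => fun i => i.elim0
  | n + 1, f, V, hV, h => by
    have hrest : ∀ i : Fin n, ∀ v ∈ V i.succ, (η * v).trace = 0 := by
      refine prod_perp (fun i => f i.succ) (fun i => V i.succ) (fun i => hV i.succ) fun i v hv => ?_
      have := h i.succ v hv
      rw [List.ofFn_succ, List.prod_cons, if_neg (Fin.succ_ne_zero i).symm, Jet.mul_v,
        Jet.zero_apply, ad_zero, zero_add] at this
      simpa only [Fin.succ_inj] using this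
    intro i
    refine Fin.cases ?_ hrest i
    intro v hv
    have := h 0 v hv
    rw [List.ofFn_succ, List.prod_cons, if_pos rfl, Jet.mul_v] at this
    simp only [Fin.succ_ne_zero, if_false] at this
    have e : (List.ofFn fun i : Fin n => Jet.zero (f i.succ)).prod =
        Jet.zero (List.ofFn fun i : Fin n => f i.succ).prod := by
      rw [map_list_prod, List.map_ofFn]; rfl
    rw [e, Jet.zero_apply] at this
    simp only [add_zero] at this
    rwa [trace_ad_swap, ad_eq_self_iff.2] at this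
    rw [← inv_inv (List.ofFn fun i : Fin n => f i.succ).prod]
    have hc := commute_prod (fun i : Fin n => f i.succ) fun i => hV _ (hrest i)
    have h2 := ad_eq_self_iff.2 hc
    rw [inv_inv]
    refine ad_eq_self_iff.1 ?_
    conv_lhs => rw [← h2, ad_ad_inv']

lemma relR_evR (C : Fin s → SL r) (z : Rest k s → SL r) (η : Mat r)
    (h : ∀ x, Commute (evR C z x).1 η) : Commute (relR (evR C z)).1 η := by
  rw [relR, val_mul]
  refine Commute.mul_left ?_ (commute_prod _ fun j => h _)
  refine commute_prod _ fun i => ?_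
  have hi : ∀ M : SL r, Commute M.1 η → Commute (M⁻¹).1 η := fun M hM => by
    refine ad_eq_self_iff.1 ?_
    conv_lhs => rw [← ad_eq_self_iff.2 hM, ad_ad_inv']
  simp only [Function.comp_apply, commutatorElement_def, val_mul]
  exact (((h _).mul_left (h _)).mul_left (hi _ (h _))).mul_left (hi _ (h _))

/-- Orthogonality to all variations away from the first handle. -/
lemma rest_perp (C : Fin s → SL r) (z : Rest k s → SL r) {η : Mat r}
    (h : ∀ δ : Rest k s → Mat r, (η * (relRJ C z fun x => tl (δ x)).v).trace = 0) :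
    ∀ x, Commute (evR C z x).1 η := by
  classical
  let p : Fin k → SL r := fun i => z (Sum.inl (i, false))
  let q : Fin k → SL r := fun i => z (Sum.inl (i, true))
  let P : Fin s → SL r := fun j => z (Sum.inr j)
  let CL : SL r := (List.ofFn fun j => P j * C j * (P j)⁻¹).prod
  let V : Fin s → Set (Mat r) := fun j => Set.range fun u =>
    ((⟨P j, tl u⟩ : Jet r) * Jet.zero (C j) * (⟨P j, tl u⟩ : Jet r)⁻¹).v
  have hV : ∀ j, (∀ v ∈ V j, (η * v).trace = 0) → Commute (P j * C j * (P j)⁻¹).1 η := fun j hj => by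
    refine ad_eq_self_iff.1 ?_
    have h1 : ad (C j)⁻¹ (ad (P j) η) - ad (P j) η = 0 := eq_zero_of_trace_mul fun w => by
      have h2 := hj _ ⟨w, rfl⟩
      have e : ad (C j) (tl w) - tl w = ad (C j) w - w := by
        have h1 : ad (C j) (1 : Mat r) = 1 := by rw [ad, mul_one, val_inv_mul]
        simp [tl_apply, h1]
      simp only [Jet.mul_v, Jet.inv_v, Jet.inv_M, Jet.zero_apply, add_zero,
        ← sub_eq_add_neg, ← ad_sub, e] at h2
      rw [trace_ad_swap, inv_inv, mul_sub, Matrix.trace_sub, trace_ad_swap, ← Matrix.trace_sub,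
        ← sub_mul, Matrix.trace_mul_comm] at h2
      exact h2
    rw [ad_mul, ad_mul]
    conv_lhs => rw [← sub_eq_zero.1 h1, ← ad_mul (C j)⁻¹, inv_mul_cancel, ad_one, ad_ad_inv']
  have hcl : ∀ j, (∀ v ∈ V j, (η * v).trace = 0) := by
    refine prod_perp _ V hV ?_
    rintro j _ ⟨u, rfl⟩
    have h1 := h fun x => if x = Sum.inr j then u else 0
    simp only [relRJ, relR, Jet.mul_v] at h1
    have e0 : (rel ((evR (fun j => Jet.zero (C j)) fun x =>
        (⟨z x, tl (if x = Sum.inr j then u else 0)⟩ : Jet r)) ∘ Sum.inl)) =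
        Jet.zero (rel fun x => z (Sum.inl x)) := by
      rw [Surface.map_rel]
      refine congrArg rel ?_
      funext x
      simp [evR]
    rw [e0] at h1
    simp only [Jet.zero_apply, ad_zero, zero_add] at h1
    convert h1 using 6
    funext l
    by_cases hl : l = j
    · subst hl
      simp only [if_true, evR, Sum.elim_inr, Jet.zero_apply]
      exact Jet.ext (by simp [P]) rfl
    · simp only [if_neg hl, evR, Sum.elim_inr, if_neg (show (Sum.inr l : Rest k s) ≠ Sum.inr j by
        simpa using hl), map_zero]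
      rw [← Jet.zero_apply, map_mul, map_mul, map_inv]
      rfl
  have hCL : Commute CL.1 η := commute_prod _ fun j => hV j (hcl j)
  let W : Fin k → Set (Mat r) := fun i =>
    (Set.range fun u => (⁅(⟨p i, tl u⟩ : Jet r), (⟨q i, 0⟩ : Jet r)⁆).v) ∪
      Set.range fun w => (⁅(⟨p i, 0⟩ : Jet r), (⟨q i, tl w⟩ : Jet r)⁆).v
  have hW : ∀ i, (∀ v ∈ W i, (η * v).trace = 0) → Commute (p i).1 η ∧ Commute (q i).1 η :=
    fun i hi => comm_perp (fun u => hi _ (Or.inl ⟨u, rfl⟩)) fun w => hi _ (Or.inr ⟨w, rfl⟩)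
  have hh : ∀ i, (∀ v ∈ W i, (η * v).trace = 0) := by
    refine prod_perp (fun i => ⁅p i, q i⁆) W (fun i hi => ?_) ?_
    · obtain ⟨h1, h2⟩ := hW i hi
      have hi : ∀ M : SL r, Commute M.1 η → Commute (M⁻¹).1 η := fun M hM => by
        refine ad_eq_self_iff.1 ?_
        conv_lhs => rw [← ad_eq_self_iff.2 hM, ad_ad_inv']
      simp only [commutatorElement_def, val_mul]
      exact ((h1.mul_left h2).mul_left (hi _ h1)).mul_left (hi _ h2)
    intro i v hv
    obtain ⟨c, u, huv⟩ : ∃ (c : Bool) (u : Mat r), (⁅(⟨p i, tl (if c then 0 else u)⟩ : Jet r),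
        (⟨q i, tl (if c then u else 0)⟩ : Jet r)⁆).v = v := by
      rcases hv with ⟨u, rfl⟩ | ⟨w, rfl⟩
      · exact ⟨false, u, by simp⟩
      · exact ⟨true, w, by simp⟩
    have h1 := h fun x => if x = Sum.inl (i, c) then u else 0
    simp only [relRJ, relR, Jet.mul_v] at h1
    have e0 : (List.ofFn fun j => (evR (fun j => Jet.zero (C j)) fun x =>
        (⟨z x, tl (if x = Sum.inl (i, c) then u else 0)⟩ : Jet r)) (Sum.inr j)).prod =
        Jet.zero CL := by
      simp only [CL]
      rw [map_list_prod, List.map_ofFn]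
      congr 2
      funext j
      simp only [evR, P, Function.comp_apply, Sum.elim_inr, reduceCtorEq, if_false, map_zero]
      rw [← Jet.zero_apply, map_mul, map_mul, map_inv]
    rw [e0] at h1
    simp only [Jet.zero_apply, add_zero] at h1
    rw [trace_ad_swap, ad_eq_self_iff.2 (ad_eq_self_iff.1 (by
      conv_lhs => rw [← ad_eq_self_iff.2 hCL, ad_ad_inv']))] at h1
    convert h1 using 4
    simp only [rel]
    congr 2
    funext l
    by_cases hl : l = i
    · subst hl
      simp only [if_true, Function.comp_apply, evR, Sum.elim_inl]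
      refine Jet.ext (by simp [p, q, commutatorElement_def]) ?_
      rw [← huv]
      cases c <;> simp [p, q]
    · simp only [if_neg hl, Function.comp_apply, evR, Sum.elim_inl]
      have hne : ∀ d, (Sum.inl (l, d) : Rest k s) ≠ Sum.inl (i, c) := fun d => by
        simp [hl]
      rw [if_neg (hne _), if_neg (hne _), map_zero]
      rw [← Jet.zero_apply, ← Jet.zero_apply, ← map_commutatorElement]
  rintro (⟨i, b⟩ | j)
  · cases b
    · exact (hW i (hh i)).1
    · exact (hW i (hh i)).2
  · exact hV j (hcl j)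

/-- A functional on matrices is given by the trace form. -/
lemma exists_trace_rep (φ : Mat r →ₗ[ℂ] ℂ) : ∃ η : Mat r, ∀ X, φ X = (η * X).trace := by
  refine ⟨Matrix.of fun i j => φ (single j i 1), fun X => ?_⟩
  conv_lhs => rw [Matrix.matrix_eq_sum_single X]
  simp only [map_sum, Matrix.trace, Matrix.diag, Matrix.mul_apply, Matrix.of_apply]
  rw [Finset.sum_comm]
  refine Finset.sum_congr rfl fun a _ => Finset.sum_congr rfl fun b _ => ?_
  rw [show single b a (X b a) = X b a • single b a (1 : ℂ) by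
    rw [Matrix.smul_single, smul_eq_mul, mul_one], map_smul, smul_eq_mul, mul_comm]

/-- The equations satisfied by a vector pairing the image of the derivative with the `b`
variation. -/
lemma perp (C : Fin s → SL r) (q : Idx 1 k s → SL r) (hq : R C q = 1) {η Ω : Mat r}
    (h : ∀ δ : Tg k s r,
      (η * dR C q δ).trace = (tl (Matrix.of (δ iB)) * Ω).trace) :
    (∀ x, Commute (evR C (fun x => q (Sum.inr x)) x).1 η) ∧ Commute (q iB).1 η ∧
      Commute (q iB).1 (ad (q iA) η) ∧ tl Ω = ad (q iA) η - η := by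
  classical
  set a := q iA
  set b := q iB
  set z := fun x => q (Sum.inr x)
  have hrest : ∀ x, Commute (evR C z x).1 η := rest_perp C z fun δ => by
    have h1 := h (Sum.elim 0 fun x => flat (δ x))
    rw [dR_apply, relJ_split, Jet.mul_v] at h1
    simp only [Sum.elim_inl, Sum.elim_inr, Pi.zero_apply] at h1
    rw [show (Matrix.of (0 : Coord r) : Mat r) = 0 from rfl, map_zero, comm_v] at h1
    simp only [ad_zero, add_zero, sub_zero, zero_add, zero_mul, Matrix.trace_zero] at h1
    exact h1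
  have hR := relR_evR C z η hrest
  have hc : Commute ⁅a, b⁆.1 η := by
    have e : ⁅a, b⁆ = (relR (evR C z))⁻¹ := eq_inv_of_mul_eq_one_left (by rw [← R_split]; exact hq)
    rw [e]
    refine ad_eq_self_iff.1 ?_
    conv_lhs => rw [← ad_eq_self_iff.2 hR, ad_ad_inv']
  have hone : ∀ u w : Mat r, (η * (⁅(⟨a, tl u⟩ : Jet r), (⟨b, tl w⟩ : Jet r)⁆).v).trace = (tl w * Ω).trace := by
    intro u w
    have h1 := h (Sum.elim (fun x => if x.2 then flat w else flat u) 0)
    rw [dR_apply, relJ_split, Jet.mul_v] at h1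
    simp only [Sum.elim_inl, Sum.elim_inr, Pi.zero_apply, if_true, if_false,
      Bool.false_eq_true] at h1
    rw [show (Matrix.of (0 : Coord r) : Mat r) = 0 from rfl, map_zero, relRJ_zero, Jet.zero_apply] at h1
    simp only [add_zero] at h1
    rw [trace_ad_swap, show ad (relR (evR C z))⁻¹ η = η by
      conv_lhs => rw [← ad_eq_self_iff.2 hR, ad_ad_inv']] at h1
    exact h1
  have key : ∀ (M : SL r) (Y : Mat r), (∀ u, (Y * (ad M u - u)).trace = 0) → ad M Y = Y :=
    fun M Y h => by
      have h2 : ad M⁻¹ Y - Y = 0 := eq_zero_of_trace_mul fun w => by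
        rw [Matrix.trace_mul_comm, sub_mul, Matrix.trace_sub, ← trace_ad_swap, ← Matrix.trace_sub,
          ← mul_sub]
        exact h w
      conv_lhs => rw [← sub_eq_zero.1 h2, ← ad_mul, inv_mul_cancel, ad_one]
  have hadtl : ∀ (M : SL r) u, ad M (tl u) - tl u = ad M u - u := fun M u => by
    have h1 : ad M (1 : Mat r) = 1 := by rw [ad, mul_one, val_inv_mul]
    simp [tl_apply, h1]
  have h1 : ad b (ad a (ad b η)) = ad a (ad b η) := key b _ fun u => by
    have := hone u 0
    simp only [map_zero, comm_v, ad_zero, add_zero, sub_zero, ← ad_sub, hadtl, zero_mul,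
      Matrix.trace_zero] at this
    rwa [trace_ad_swap, trace_ad_swap, inv_inv, inv_inv] at this
  set Y := ad b η
  have hY : η = Y := by
    have e2 : ad (⁅a, b⁆ * b) η = Y := by rw [ad_mul, ad_eq_self_iff.2 hc]
    have e3 : ad (⁅a, b⁆ * b) Y = Y := by
      have : ⁅a, b⁆ * b = a * b * a⁻¹ := by simp [commutatorElement_def]
      rw [this, ad_mul, ad_mul, h1, ad_ad_inv']
    have := congrArg (ad (⁅a, b⁆ * b)⁻¹) (e2.trans e3.symm)
    rwa [ad_ad_inv', ad_ad_inv'] at this
  have hΩ : ad a Y - Y - tl Ω = 0 := eq_zero_of_trace_mul fun w => by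
    have := hone 0 w
    simp only [map_zero, comm_v, ad_zero, zero_add, sub_zero, ← ad_sub, hadtl] at this
    rw [trace_ad_swap, inv_inv, mul_sub, Matrix.trace_sub, trace_ad_swap, inv_inv,
      ← Matrix.trace_sub, ← sub_mul] at this
    have e : (tl w * Ω).trace = (w * tl Ω).trace := by
      simp only [tl_apply, sub_mul, mul_sub, Matrix.smul_mul, Matrix.mul_smul, one_mul, mul_one,
        Matrix.trace_sub, Matrix.trace_smul, smul_eq_mul]
      ring
    rw [Matrix.trace_mul_comm, sub_mul, Matrix.trace_sub, this, e,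
      Matrix.trace_mul_comm (tl Ω), sub_self]
  refine ⟨hrest, ad_eq_self_iff.1 hY.symm, ?_, ?_⟩
  · rw [hY]
    exact ad_eq_self_iff.1 h1
  · rw [hY]
    exact (sub_eq_zero.1 hΩ).symm

/-- Every tuple commuting with everything is scalar. -/
def Schur (y : Idx 1 k s → SL r) : Prop :=
  ∀ ξ : Mat r, (∀ x, Commute (y x).1 ξ) → ∃ c : ℂ, ξ = c • 1

lemma dual_b (C : Fin s → SL r) (q : Idx 1 k s → SL r) (hq : R C q = 1) {Ω : Mat r}
    (h : ∀ δ : Tg k s r, dR C q δ = 0 → (tl (Matrix.of (δ iB)) * Ω).trace = 0) :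
    ∃ η : Mat r, (∀ x, Commute (evR C (fun x => q (Sum.inr x)) x).1 η) ∧ Commute (q iB).1 η ∧
      Commute (q iB).1 (ad (q iA) η) ∧ tl Ω = ad (q iA) η - η := by
  let φ : Tg k s r →ₗ[ℂ] ℂ :=
    { toFun := fun δ => (tl (Matrix.of (δ iB)) * Ω).trace
      map_add' := fun a b => by
        rw [Pi.add_apply, ← Matrix.trace_add, ← add_mul, ← map_add]; rfl
      map_smul' := fun c a => by
        rw [Pi.smul_apply, RingHom.id_apply, ← Matrix.trace_smul, ← Matrix.smul_mul, ← map_smul]
        rfl }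
  have hφ : φ ∈ LinearMap.range (dR C q).dualMap := by
    rw [LinearMap.range_dualMap_eq_dualAnnihilator_ker, Submodule.mem_dualAnnihilator]
    exact fun δ hδ => h δ hδ
  obtain ⟨ψ, hψ⟩ := hφ
  obtain ⟨η, hη⟩ := exists_trace_rep ψ
  exact ⟨η, perp C q hq fun δ => by rw [← hη]; exact LinearMap.congr_fun hψ δ⟩

/-- The derivative is onto the traceless matrices. -/
lemma dR_surjective (C : Fin s → SL r) (q : Idx 1 k s → SL r) (hq : R C q = 1)
    (hs : Schur (evC C q)) {X : Mat r} (hX : X.trace = 0) : ∃ δ, dR C q δ = X := by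
  by_contra hno
  obtain ⟨ψ, hψX, hψ⟩ := Submodule.exists_dual_map_eq_bot_of_notMem
    (show X ∉ LinearMap.range (dR C q) from hno) inferInstance
  obtain ⟨η, hη⟩ := exists_trace_rep ψ
  obtain ⟨h1, h2, -, h4⟩ := perp C q hq (η := η) (Ω := 0) fun δ => by
    have := Submodule.mem_map_of_mem (f := ψ) (LinearMap.mem_range_self (dR C q) δ)
    rw [hψ, Submodule.mem_bot, hη] at this
    rw [this, mul_zero, Matrix.trace_zero]
  rw [map_zero, eq_comm, sub_eq_zero] at h4
  obtain ⟨c, rfl⟩ := hs η fun x => by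
    rcases x with ⟨i, b⟩ | x
    · rw [Fin.fin_one_eq_zero i]
      cases b
      · exact ad_eq_self_iff.1 h4
      · exact h2
    · exact h1 x
  exact hψX (by rw [hη, Matrix.smul_mul, one_mul, Matrix.trace_smul, hX, smul_zero])

lemma eq_one_of_tl {r : ℕ} : ∀ᶠ c in 𝓝 (flat (1 : Mat r)), ∀ M : SL r,
    c = flat M.1 → tl M.1 = 0 → M = 1 := by
  rcases Nat.eq_zero_or_pos r with hr | hr
  · subst hr; exact Eventually.of_forall fun _ M _ _ => Subsingleton.elim _ _
  let i0 : Fin r := ⟨0, hr⟩
  have hS : {w : ℂ | w ^ r = 1 ∧ w ≠ 1}.Finite :=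
    (Polynomial.nthRoots r (1 : ℂ)).toFinset.finite_toSet.subset fun w hw => by
      simp [Polynomial.mem_nthRoots hr, hw.1]
  have hopen : {w : ℂ | w ^ r = 1 ∧ w ≠ 1}ᶜ ∈ 𝓝 (1 : ℂ) :=
    hS.isClosed.isOpen_compl.mem_nhds fun h => h.2 rfl
  have hc : ContinuousAt (fun c : Coord r => c i0 i0) (flat 1) :=
    ((continuous_apply i0).comp (continuous_apply i0)).continuousAt
  filter_upwards [hc.preimage_mem_nhds (by simpa [flat] using hopen)] with c hc' M hM htl
  subst hM
  have h1 : M.1 = (M.1.trace / r) • 1 := sub_eq_zero.1 htl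
  have h2 := M.2
  rw [h1, Matrix.det_smul, Matrix.det_one, mul_one, Fintype.card_fin] at h2
  have e : flat M.1 i0 i0 = M.1.trace / r := (congrFun (congrFun h1 i0) i0).trans (by simp)
  have h3 : M.1.trace / r = 1 := by
    by_contra hne
    exact hc' ⟨(congrArg (· ^ r) e).trans h2, fun h => hne (e.symm.trans h)⟩
  exact Subtype.ext (by rw [h1, h3, one_smul]; rfl)

/-- Local lifting: solutions of the relation with prescribed linear coordinates. -/
theorem exists_lift {E W : Type} [NormedAddCommGroup E] [NormedSpace ℂ E] [FiniteDimensional ℂ E]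
    [NormedAddCommGroup W] [NormedSpace ℂ W] [FiniteDimensional ℂ W] (C : Fin s → SL r)
    (Φ : E → Idx 1 k s → SL r) (hΦ : ∀ x, (fun e => Φ e x) ∈ entGroup (C1 E))
    (hq : R C (Φ 0) = 1) (Lw : E →ₗ[ℂ] W)
    (hsurj : ∀ (X : Mat r), X.trace = 0 → ∀ w : W,
      ∃ e, (relJ C (Φ 0) fun x => fd (fun e => Φ e x) e).v = X ∧ Lw e = w) :
    ∃ ψ : W → E, ψ 0 = 0 ∧ DifferentiableAt ℂ ψ 0 ∧
      ∀ᶠ w in 𝓝 0, R C (Φ (ψ w)) = 1 ∧ Lw (ψ w) = w := by
  let T0 : Submodule ℂ (Coord r) :=
    LinearMap.ker ({ toFun := fun c => (Matrix.of c).trace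
                     map_add' := fun a b => Matrix.trace_add (Matrix.of a) (Matrix.of b)
                     map_smul' := fun c a => Matrix.trace_smul c (Matrix.of a) } : Coord r →ₗ[ℂ] ℂ)
  let π : Coord r →L[ℂ] T0 := LinearMap.toContinuousLinearMap
    { toFun := fun c => ⟨flat (tl (Matrix.of c)), trace_tl (Matrix.of c)⟩
      map_add' := fun a b => Subtype.ext (congrArg flat (map_add tl (Matrix.of a) (Matrix.of b)))
      map_smul' := fun c a => Subtype.ext (congrArg flat (map_smul tl c (Matrix.of a))) }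
  let Rc : E → Coord r := fun e => flat (R C (Φ e)).1
  have hRc : ContDiff ℂ 1 Rc :=
    contDiff_pi.2 fun i => contDiff_pi.2 fun j => (R_mem C Φ hΦ i j : _)
  let H : E → T0 × W := fun e => (π (Rc e), Lw e)
  let H' : E →L[ℂ] T0 × W := (π.comp (fderiv ℂ Rc 0)).prod (LinearMap.toContinuousLinearMap Lw)
  have hH : HasStrictFDerivAt H H' 0 :=
    (π.hasStrictFDerivAt.comp 0 (hRc.contDiffAt.hasStrictFDerivAt one_ne_zero)).prodMk
      (LinearMap.toContinuousLinearMap Lw).hasStrictFDerivAt
  have hd : ∀ e, fderiv ℂ Rc 0 e = flat (relJ C (Φ 0) fun x => fd (fun e => Φ e x) e).v := by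
    intro e
    have h1 := hasJet_R C (Φ 0) _ (fun t => Φ (t • e)) fun x => hasJet_line (hΦ x) e
    have hl : HasDerivAt (fun t : ℂ => t • e) e 0 := by
      simpa using (hasDerivAt_id (0 : ℂ)).smul_const e
    have h2 := (hRc.differentiable one_ne_zero 0).hasFDerivAt.comp_hasDerivAt_of_eq 0 hl (by simp)
    funext i j
    have h3 := (hasDerivAt_pi.1 (hasDerivAt_pi.1 h2 i) j).unique (h1.2 i j)
    rw [h3, show (relJ C (Φ 0) fun x => fd (fun e => Φ e x) e).M = 1 by
      simpa [hq, zero_smul] using h1.1.symm, show ((1 : SL r).1 : Mat r) = 1 from rfl, one_mul]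
    rfl
  have hsur : LinearMap.range (H' : E →ₗ[ℂ] T0 × W) = ⊤ := by
    rw [eq_top_iff]
    rintro ⟨⟨X, hX⟩, w⟩ -
    obtain ⟨e, he, hw⟩ := hsurj (Matrix.of X) hX w
    refine ⟨e, Prod.ext (Subtype.ext ?_) hw⟩
    show flat (tl (Matrix.of (fderiv ℂ Rc 0 e))) = X
    rw [hd, show Matrix.of (flat (relJ C (Φ 0) fun x => fd (fun e => Φ e x) e).v) =
      (relJ C (Φ 0) fun x => fd (fun e => Φ e x) e).v from rfl, he, tl_of_trace _ hX]
    rfl
  obtain ⟨S₀, hS₀⟩ := LinearMap.exists_rightInverse_of_surjective _ hsur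
  let S : T0 × W →L[ℂ] E := LinearMap.toContinuousLinearMap S₀
  have hG : HasStrictFDerivAt (H ∘ S)
      ((ContinuousLinearEquiv.refl ℂ (T0 × W) : _ ≃L[ℂ] _) : T0 × W →L[ℂ] T0 × W) 0 := by
    have h1 : HasStrictFDerivAt H H' (S 0) := by rw [map_zero]; exact hH
    have h2 := h1.comp 0 S.hasStrictFDerivAt
    have e : H'.comp S = ((ContinuousLinearEquiv.refl ℂ (T0 × W) : _ ≃L[ℂ] _) :
        T0 × W →L[ℂ] T0 × W) := ContinuousLinearMap.ext fun v => LinearMap.congr_fun hS₀ v
    rwa [e] at h2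
  have hH0 : H 0 = 0 := by
    refine Prod.ext (Subtype.ext ?_) (map_zero Lw)
    show flat (tl (Matrix.of (flat (R C (Φ 0)).1))) = 0
    rw [hq]
    show flat (tl (1 : Mat r)) = 0
    rcases Nat.eq_zero_or_pos r with hr | hr
    · subst hr; exact Subsingleton.elim _ _
    · simp [tl_apply, Matrix.trace_one, hr.ne']
      rfl
  have hG0 : (H ∘ S) 0 = 0 := by simp [hH0]
  let inv := hG.localInverse (H ∘ S) _ 0
  have hinv : DifferentiableAt ℂ inv 0 := by
    have := hG.to_localInverse.differentiableAt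
    rwa [hG0] at this
  have hinv0 : inv 0 = 0 := by
    have := hG.localInverse_apply_image
    rwa [hG0] at this
  let ψ : W → E := fun w => S (inv (0, w))
  have hψ : DifferentiableAt ℂ ψ 0 :=
    S.differentiableAt.comp 0 ((show DifferentiableAt ℂ inv ((0 : T0), (0 : W)) from
      hinv).comp 0 ((differentiableAt_const _).prodMk differentiableAt_id))
  have hψ0 : ψ 0 = 0 := by
    show S (inv (0, 0)) = 0
    rw [show ((0 : T0), (0 : W)) = 0 from rfl, hinv0, map_zero]
  refine ⟨ψ, hψ0, hψ, ?_⟩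
  have hright : ∀ᶠ w in 𝓝 (0 : W), H (ψ w) = (0, w) := by
    have h1 := hG.eventually_right_inverse
    rw [hG0] at h1
    exact ((continuous_const.prodMk continuous_id).tendsto (0 : W)).eventually h1
  have hnear : ∀ᶠ w in 𝓝 (0 : W), ∀ M : SL r, Rc (ψ w) = flat M.1 → tl M.1 = 0 → M = 1 := by
    have ht : Tendsto (Rc ∘ ψ) (𝓝 0) (𝓝 (flat 1)) := by
      have := (hRc.continuous.continuousAt.comp hψ.continuousAt).tendsto (x := (0 : W))
      simpa [Function.comp_def, hψ0, Rc, hq] using this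
    exact ht.eventually eq_one_of_tl
  filter_upwards [hright, hnear] with w h1 h2
  exact ⟨h2 _ rfl (congrArg Subtype.val (congrArg Prod.fst h1)), congrArg Prod.snd h1⟩

end Vale.Agent.P002.Global
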